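import Vale.Agent.P114.Gain
import Mathlib.Tactic.NormNum

/-! # Slope classes, deviations and upper bounds for the scale entropy -/

namespace Vale.Agent.P114

noncomputable section

open scoped Classical
open Finset

variable {ι : Type} [Fintype ι] {p r t : ι → ℝ} {a q T : ℝ}

theorem ent_slope_le {R : Type*} [CommMonoid R] (hp : ∀ i, 0 ≤ p i) (hp1 : ∑ i, p i = 1)
    (r : ι → R) (m : ℕ) :
    ent (wt (n := m) p) (fun w => slope r w) ≤ Fintype.card ι * Real.log ((m : ℝ) + 1) := by
  let g : (ι → Fin (m + 1)) → R := fun c => ∏ j, r j ^ (c j : ℕ)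
  refine (cent_le_log (wt_nonneg hp) _ (fun _ => ()) (fun _ => ((m : ℝ) + 1) ^ Fintype.card ι)
    (fun _ => univ.image g) (fun w => ?_) (fun w => ?_)).trans (le_of_eq ?_)
  · refine mem_image.2 ⟨fun j => ⟨(univ.filter fun i => w i = j).card, ?_⟩, mem_univ _, ?_⟩
    · have := (card_filter_le univ fun i => w i = j).trans (le_of_eq (card_fin m))
      omega
    · simp only [g, slope]
      rw [← prod_fiberwise_of_maps_to (t := (univ : Finset ι)) (g := w) (f := fun i => r (w i))
        (fun i _ => mem_univ _)]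
      refine prod_congr rfl fun j _ => ?_
      rw [prod_congr rfl fun i hi => show r (w i) = r j by rw [(mem_filter.1 hi).2], prod_const]
  · refine le_trans (Nat.cast_le.2 card_image_le) (le_of_eq ?_)
    rw [card_univ, Fintype.card_fun, Fintype.card_fin]
    push_cast; rfl
  · rw [← sum_mul, sum_wt hp1, one_mul, Real.log_pow]

theorem log_le_linear {η : ℝ} (hη : 0 < η) : ∃ C, ∀ m : ℕ, Real.log ((m : ℝ) + 1) ≤ η * m + C := by
  refine ⟨η - 1 - Real.log η, fun m => ?_⟩
  have hm : (0 : ℝ) < (m : ℝ) + 1 := by positivity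
  have := Real.log_le_sub_one_of_pos (mul_pos hη hm)
  rw [Real.log_mul hη.ne' hm.ne'] at this
  linarith

theorem sum_wt_centred (hp1 : ∑ i, p i = 1) {f : ι → ℝ} (hf : ∑ i, p i * f i = 0) : ∀ m : ℕ,
    (∑ w : Fin m → ι, wt p w * ∑ i, f (w i) = 0) ∧
    ∑ w : Fin m → ι, wt p w * (∑ i, f (w i)) ^ 2 = m * ∑ i, p i * f i ^ 2
  | 0 => by simp
  | m + 1 => by
    obtain ⟨h1, h2⟩ := sum_wt_centred hp1 hf m
    constructor
    · rw [← (Fin.consEquiv (fun _ : Fin (m + 1) => ι)).sum_comp, Fintype.sum_prod_type]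
      have e : ∀ i (v : Fin m → ι), wt p (Fin.cons i v : Fin (m + 1) → ι) *
          ∑ k, f ((Fin.cons i v : Fin (m + 1) → ι) k) =
            p i * f i * wt p v + p i * (wt p v * ∑ k, f (v k)) := by
        intro i v
        rw [wt_succ, Fin.sum_univ_succ]; simp only [Fin.cons_zero, Fin.cons_succ, Fin.tail_cons]
        ring
      simp only [Fin.consEquiv, Equiv.coe_fn_mk, e, sum_add_distrib, ← mul_sum, h1,
        sum_wt hp1, mul_one, mul_zero, hf, add_zero]
    · rw [← (Fin.consEquiv (fun _ : Fin (m + 1) => ι)).sum_comp, Fintype.sum_prod_type]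
      have e : ∀ i (v : Fin m → ι), wt p (Fin.cons i v : Fin (m + 1) → ι) *
          (∑ k, f ((Fin.cons i v : Fin (m + 1) → ι) k)) ^ 2 =
            p i * f i ^ 2 * wt p v + 2 * (p i * f i) * (wt p v * ∑ k, f (v k)) +
              p i * (wt p v * (∑ k, f (v k)) ^ 2) := by
        intro i v
        rw [wt_succ, Fin.sum_univ_succ]; simp only [Fin.cons_zero, Fin.cons_succ, Fin.tail_cons]
        ring
      simp only [Fin.consEquiv, Equiv.coe_fn_mk, e, sum_add_distrib, ← mul_sum, ← sum_mul, h1, h2,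
        sum_wt hp1, mul_one, mul_zero, add_zero, hp1, one_mul]
      push_cast; ring

/-- The mean absolute deviation of the logarithm of the slope is sublinear. -/
theorem dev_le (hp : ∀ i, 0 ≤ p i) (hp1 : ∑ i, p i = 1) (hr : ∀ i, r i ≠ 0) {η : ℝ} (hη : 0 < η) :
    ∃ C, ∀ m : ℕ, ∑ w : Fin m → ι, wt p w * |Real.log |slope r w| + m * lyap p r|
      ≤ η * m + C := by
  set f : ι → ℝ := fun i => Real.log |r i| + lyap p r
  have hf : ∑ i, p i * f i = 0 := by
    simp only [f, mul_add, sum_add_distrib, ← sum_mul, hp1, one_mul]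
    rw [lyap, ← sum_add_distrib]
    exact sum_eq_zero fun i _ => by ring
  set V := ∑ i, p i * f i ^ 2
  have hV : 0 ≤ V := sum_nonneg fun i _ => mul_nonneg (hp i) (sq_nonneg _)
  set c := V / (2 * η) + 1 with hc
  have hc0 : 0 < c := by positivity
  refine ⟨c / 2, fun m => ?_⟩
  have e : ∀ w : Fin m → ι, Real.log |slope r w| + m * lyap p r = ∑ i, f (w i) := by
    intro w
    rw [slope, abs_prod, Real.log_prod (fun i _ => abs_ne_zero.2 (hr _))]
    simp [f, sum_add_distrib]
  simp only [e]
  have h := (sum_wt_centred hp1 hf m).2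
  calc ∑ w : Fin m → ι, wt p w * |∑ i, f (w i)|
      ≤ ∑ w : Fin m → ι, wt p w * ((∑ i, f (w i)) ^ 2 / (2 * c) + c / 2) := by
        refine sum_le_sum fun w _ => mul_le_mul_of_nonneg_left ?_ (wt_nonneg hp w)
        have := sq_nonneg (|∑ i, f (w i)| - c)
        rw [div_add_div _ _ (by positivity) two_ne_zero, le_div_iff₀ (by positivity),
          ← sq_abs (∑ i, f (w i))]
        nlinarith
    _ = m * V / (2 * c) + c / 2 := by
        simp only [mul_add, sum_add_distrib, ← sum_mul, sum_wt hp1, one_mul, mul_div, ← sum_div, h]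
        rfl
    _ ≤ _ := by
        refine add_le_add ?_ le_rfl
        rw [div_le_iff₀ (by positivity)]
        have : V ≤ 2 * η * c := by
          rw [hc, mul_add, mul_div_cancel₀ _ (by positivity)]; linarith
        calc (m : ℝ) * V ≤ m * (2 * η * c) := mul_le_mul_of_nonneg_left this (Nat.cast_nonneg m)
          _ = η * m * (2 * c) := by ring

/-- If a variable `Z` determines the translation up to the size of the slope, the entropy of the
scale `exp (m χ)` is at most that of `Z` and the slope. -/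
theorem js_le_var (G : Good p r t a q T) {ζ : Type*} (m : ℕ) (Z : (Fin m → ι) → ζ)
    (hZ : ∀ v w, Z v = Z w → slope r v = slope r w →
      |trans r t v - trans r t w| ≤ |slope r v|) (β : ℝ) (hβ : 0 < β) :
    js p r t q β ≤ cent (wt (n := m) p) Z (fun w => slope r w) + ent (wt (n := m) p) (fun w => slope r w)
      + ∑ w : Fin m → ι, wt p w * |Real.log |slope r w| + Real.log β|
      + (Good.c0 q T + Real.log (2 * (1 + radius q T) + 3)) := by
  set N := lev q β
  set Pm := wt (n := m) p
  set Q := wt (n := N) p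
  set R := radius q T
  have hR : 0 ≤ R := G.radius_nonneg
  have hPm : 0 ≤ Pm := G.wt_nn
  have hPm1 : ∑ w, Pm w = 1 := sum_wt G.sum_one m
  have hQ : 0 ≤ Q := G.wt_nn
  have hQ1 : ∑ w, Q w = 1 := sum_wt G.sum_one N
  set PQ := prodW Pm Q
  have hPQ : 0 ≤ PQ := prodW_nonneg hPm hQ
  let F : (Fin m → ι) × (Fin N → ι) → ℤ := fun v => ⌊β * trans r t (joinEquiv ι N m v) + 0⌋
  let sl : (Fin m → ι) → ℝ := fun w => slope r w
  let Y : (Fin m → ι) × (Fin N → ι) → ζ × ℝ := fun v => (Z v.1, sl v.1)
  have h0 : js p r t q β ≤ ent PQ F + Good.c0 q T := by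
    refine (G.close (σ := β) (Nat.le_add_right N m) 0).2.trans (le_of_eq ?_)
    rw [add_left_inj]
    exact (cent_join p N m (fun w => ⌊β * trans r t w + 0⌋) (fun _ => ())).symm
  have h1 : ent PQ F ≤ ent PQ Y + cent PQ F Y := ent_le_add hPQ F Y
  have h2 : ent PQ Y = ent Pm sl + cent Pm Z sl := by
    rw [← ent_pair]
    exact cent_prod_fst hQ1 Pm (fun w => (Z w, sl w)) (fun _ => ())
  let rep : ζ × ℝ → ℝ := fun y =>
    if h : ∃ w : Fin m → ι, Z w = y.1 ∧ sl w = y.2 then trans r t (Classical.choose h) else 0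
  let M : ζ × ℝ → ℝ := fun y => 2 * (β * |y.2| * (1 + R)) + 3
  have h3 : cent PQ F Y ≤ ∑ v, PQ v * Real.log (M (Y v)) := by
    refine cent_le_log hPQ F Y M
      (fun y => Icc ⌊β * rep y - β * |y.2| * (1 + R)⌋ ⌊β * rep y + β * |y.2| * (1 + R)⌋)
      (fun v => ?_) (fun v => ?_)
    · obtain ⟨u, w⟩ := v
      have hh : ∃ w' : Fin m → ι, Z w' = Z u ∧ sl w' = sl u := ⟨u, rfl, rfl⟩
      have hc := Classical.choose_spec hh
      have hrep : rep (Y (u, w)) = trans r t (Classical.choose hh) := by
        simp only [rep, Y]; rw [dif_pos hh]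
      have hd := hZ _ _ hc.1 hc.2
      rw [show |slope r (Classical.choose hh)| = |slope r u| from congrArg abs hc.2,
        abs_sub_comm] at hd
      have hb : |β * trans r t (joinEquiv ι N m (u, w)) + 0 - β * rep (Y (u, w))| ≤
          β * |sl u| * (1 + R) := by
        rw [hrep, trans_join, smul_eq_mul, add_zero, ← mul_sub, abs_mul, abs_of_pos hβ, mul_assoc β]
        refine mul_le_mul_of_nonneg_left ?_ hβ.le
        rw [add_sub_right_comm]
        refine (abs_add_le _ _).trans ?_
        rw [abs_mul, mul_add, mul_one]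
        exact add_le_add hd (mul_le_mul_of_nonneg_left (G.trans_le w) (abs_nonneg _))
      have hb' := abs_le.1 hb
      simp only [mem_Icc, F]
      exact ⟨Int.floor_le_floor (by simp only [Y] at hb' ⊢; linarith),
        Int.floor_le_floor (by simp only [Y] at hb' ⊢; linarith)⟩
    · set K := β * |(Y v).2| * (1 + R)
      have hK : 0 ≤ K := by positivity
      have a1 := Int.floor_le (β * rep (Y v) + K)
      have a2 := Int.lt_floor_add_one (β * rep (Y v) - K)
      have hc : 0 ≤ ⌊β * rep (Y v) + K⌋ + 1 - ⌊β * rep (Y v) - K⌋ := by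
        have := Int.floor_le_floor (show β * rep (Y v) - K ≤ β * rep (Y v) + K by linarith)
        omega
      rw [Int.card_Icc, show ((⌊β * rep (Y v) + K⌋ + 1 - ⌊β * rep (Y v) - K⌋).toNat : ℝ) =
        ((⌊β * rep (Y v) + K⌋ + 1 - ⌊β * rep (Y v) - K⌋ : ℤ) : ℝ) by
          rw [← Int.cast_natCast, Int.toNat_of_nonneg hc]]
      push_cast
      simp only [M]
      linarith
  have h4 : ∀ v : (Fin m → ι) × (Fin N → ι), Real.log (M (Y v)) ≤
      |Real.log |slope r v.1| + Real.log β| + Real.log (2 * (1 + R) + 3) := by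
    intro v
    have hs := G.slope_pos v.1
    rw [← Real.log_mul hs.ne' hβ.ne']
    simp only [M, Y, sl]
    set x := β * |slope r v.1|
    rw [mul_comm |slope r v.1| β]
    have hx : 0 < x := mul_pos hβ hs
    rcases le_total x 1 with h | h
    · refine le_trans (Real.log_le_log (by positivity) ?_) (le_add_of_nonneg_left (abs_nonneg _))
      nlinarith
    · rw [abs_of_nonneg (Real.log_nonneg h), ← Real.log_mul hx.ne' (by positivity)]
      exact Real.log_le_log (by positivity) (by nlinarith)
  have h5 := h3.trans (sum_le_sum fun v _ => mul_le_mul_of_nonneg_left (h4 v) (hPQ v))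
  have h6 : ∑ v, PQ v * (|Real.log |slope r v.1| + Real.log β| + Real.log (2 * (1 + R) + 3)) =
      (∑ w, Pm w * |Real.log |slope r w| + Real.log β|) + Real.log (2 * (1 + R) + 3) := by
    simp only [mul_add, sum_add_distrib, ← sum_mul]
    rw [show ∑ v, PQ v = 1 by rw [sum_prodW, hPm1, hQ1, one_mul], one_mul, add_left_inj,
      Fintype.sum_prod_type]
    refine sum_congr rfl fun u _ => ?_
    simp only [PQ, prodW, ← sum_mul, ← mul_sum, hQ1, mul_one]
  linarith

end

end Vale.Agent.P114
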