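import Vale.Agent.P114.Pairs
import Mathlib.Analysis.SpecificLimits.Normed

/-! # The linear inverse entropy inequality on the integers -/

namespace Vale.Agent.P114

noncomputable section

open scoped Classical
open Finset Filter

theorem exists_scales (γ δ : ℝ) (hγ : 0 < γ) (hδ : 0 < δ) :
    ∃ r l : ℕ, 0 < l ∧ γ * (r + 2) / l + ((1 / 2 : ℝ) ^ r * (l * Real.log 2) +
      3 * √((1 / 2 : ℝ) ^ r)) ≤ γ * δ := by
  have h1 : Tendsto (fun j : ℕ => (j : ℝ) ^ 2 / (4 : ℝ) ^ j) atTop (nhds 0) :=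
    tendsto_pow_const_div_const_pow_of_one_lt 2 (by norm_num)
  have h2 : Tendsto (fun j : ℕ => (1 / 2 : ℝ) ^ j) atTop (nhds 0) :=
    tendsto_pow_atTop_nhds_zero_of_lt_one (by norm_num) (by norm_num)
  have h3 : Tendsto (fun j : ℕ => (j : ℝ)⁻¹) atTop (nhds 0) :=
    tendsto_inv_atTop_zero.comp tendsto_natCast_atTop_atTop
  have h : Tendsto (fun j : ℕ => 4 * γ * (j : ℝ)⁻¹ + ((j : ℝ) ^ 2 / (4 : ℝ) ^ j * Real.log 2 +
      3 * (1 / 2 : ℝ) ^ j)) atTop (nhds 0) := by
    have := (h3.const_mul (4 * γ)).add ((h1.mul_const (Real.log 2)).add (h2.const_mul 3))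
    simpa using this
  obtain ⟨j, hj, hj1⟩ := ((h.eventually_le_const (mul_pos hγ hδ)).and
    (eventually_ge_atTop 1)).exists
  refine ⟨2 * j, j ^ 2, by positivity, le_trans ?_ hj⟩
  have hjr : (1 : ℝ) ≤ j := by exact_mod_cast hj1
  refine add_le_add ?_ (le_of_eq ?_)
  · push_cast
    rw [div_le_iff₀ (by positivity)]
    have e : 4 * γ * (j : ℝ)⁻¹ * (j : ℝ) ^ 2 = 4 * γ * j := by field_simp
    rw [e]; nlinarith
  · have e1 : (1 / 2 : ℝ) ^ (2 * j) = 1 / (4 : ℝ) ^ j := by
      rw [pow_mul, div_pow, div_pow]; norm_num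
    have e2 : √((1 / 2 : ℝ) ^ (2 * j)) = (1 / 2 : ℝ) ^ j := by
      rw [mul_comm, pow_mul, Real.sqrt_sq (by positivity)]
    rw [e2, e1]; push_cast; ring

theorem window_smooth {Ω' : Type} [Fintype Ω'] {Q : Ω' → ℝ} (hQ : 0 ≤ Q) (hQ1 : ∑ w, Q w = 1)
    (y : Ω' → ℤ) (α C : ℝ)
    (hw : ∀ u L : ℕ, 0 < u → 0 < L → cent Q (fun w => y w / (u : ℤ))
      (fun w => y w / ((u * L : ℕ) : ℤ)) ≤ α * Real.log L + C)
    (W d : ℕ) (hW : 0 < W) (hd : W ≤ d) (L : ℕ) (hL : 0 < L) :
    cent (prodW Q (unif (Fin W))) (fun v => (y v.1 + (v.2 : ℕ)) / (d : ℤ))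
      (fun v => (y v.1 + (v.2 : ℕ)) / ((d * L : ℕ) : ℤ)) ≤ α * Real.log L + C + 2 * Real.log 2 := by
  have : Nonempty (Fin W) := ⟨⟨0, hW⟩⟩
  set P := prodW Q (unif (Fin W))
  have hP : 0 ≤ P := prodW_nonneg hQ unif_nonneg
  have hP1 : ∑ v, P v = 1 := by rw [sum_prodW, hQ1, sum_unif, one_mul]
  have key : ∀ D : ℕ, W ≤ D → ∀ v : Ω' × Fin W,
      y v.1 / (D : ℤ) ≤ (y v.1 + (v.2 : ℕ)) / (D : ℤ) ∧
      (y v.1 + (v.2 : ℕ)) / (D : ℤ) ≤ y v.1 / (D : ℤ) + 1 := by
    intro D hD v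
    have hDpos : (0 : ℤ) < D := by exact_mod_cast lt_of_lt_of_le hW hD
    have hv : ((v.2 : ℕ) : ℤ) < D := by exact_mod_cast lt_of_lt_of_le v.2.isLt hD
    refine ⟨Int.ediv_le_ediv hDpos (by linarith [Int.natCast_nonneg (v.2 : ℕ)]), ?_⟩
    rw [← Int.add_mul_ediv_right _ _ hDpos.ne', one_mul]
    exact Int.ediv_le_ediv hDpos (by linarith)
  let X : Ω' × Fin W → ℤ := fun v => (y v.1 + (v.2 : ℕ)) / (d : ℤ)
  let Y : Ω' × Fin W → ℤ := fun v => (y v.1 + (v.2 : ℕ)) / ((d * L : ℕ) : ℤ)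
  let X0 : Ω' × Fin W → ℤ := fun v => y v.1 / (d : ℤ)
  let Y0 : Ω' × Fin W → ℤ := fun v => y v.1 / ((d * L : ℕ) : ℤ)
  have hdL : W ≤ d * L := le_trans hd (Nat.le_mul_of_pos_right d hL)
  have two : ∀ {β : Type} (A B : Ω' × Fin W → ℤ) (Z : Ω' × Fin W → β) (g : Ω' × Fin W → ℤ),
      (∀ v w, Z v = Z w → g v = g w) → (∀ v, A v = g v ∨ A v = g v + 1) →
      cent P A Z ≤ Real.log 2 := by
    intro β A _ Z g hg hA
    refine (cent_anti_right hP hg).trans ?_
    refine (cent_le_log hP A g (fun _ => 2) (fun y => {y, y + 1}) (fun v => ?_) (fun v => ?_)).trans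
      (le_of_eq (by rw [← sum_mul, hP1, one_mul]))
    · simpa using hA v
    · exact_mod_cast card_le_two
  have h1 : cent P X Y ≤ cent P Y0 Y + cent P X (fun v => (Y0 v, Y v)) := cent_le_add hP _ _ _
  have h2 : cent P Y0 Y ≤ Real.log 2 := two Y0 X Y (fun v => Y v - 1)
    (fun v w h => by rw [h]) (fun v => by
      have := key _ hdL v
      simp only [Y0, Y]; omega)
  have h3 : cent P X (fun v => (Y0 v, Y v)) ≤ cent P X Y0 := cent_pair_right_le hP _ _ _
  have h4 : cent P X Y0 ≤ cent P X0 Y0 + cent P X (fun v => (X0 v, Y0 v)) := cent_le_add hP _ _ _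
  have h5 : cent P X (fun v => (X0 v, Y0 v)) ≤ Real.log 2 := two X Y _ X0
    (fun v w h => (Prod.mk.inj h).1) (fun v => by
      have := key _ hd v
      simp only [X, X0]; omega)
  have h6 : cent P X0 Y0 ≤ α * Real.log L + C := by
    rw [show cent P X0 Y0 = cent Q (fun w => y w / (d : ℤ)) (fun w => y w / ((d * L : ℕ) : ℤ)) from
      cent_prod_fst sum_unif Q (fun w => y w / (d : ℤ)) (fun w => y w / ((d * L : ℕ) : ℤ))]
    exact hw d L (lt_of_lt_of_le hW hd) hL
  change cent P X Y ≤ _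
  linarith

theorem emod_wrap {a b : ℤ} (h0 : 0 ≤ a) (h : a < b) : a % b = a := Int.emod_eq_of_lt h0 h

/-- One block of the chain rule. -/
theorem block_step {Ω Ω' : Type} [Fintype Ω] [Fintype Ω'] {P : Ω → ℝ} {Q : Ω' → ℝ}
    (hP : 0 ≤ P) (hP1 : ∑ a, P a = 1) (hQ : 0 ≤ Q) (hQ1 : ∑ w, Q w = 1) (x : Ω → ℤ) (y : Ω' → ℤ)
    (u l r : ℕ) (hu : 0 < u) (hl : 0 < l) (γ : ℝ) (hγ : 0 < γ)
    (hgain : ∀ d : ℕ, u * 2 ^ r ≤ d →
      ent (prodW Q (unif (Fin (u * 2 ^ r)))) (fun v => y v.1 + (v.2 : ℕ)) + γ ≤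
        ent (prodW (prodW Q (unif (Fin (u * 2 ^ r)))) (unif Bool))
          (fun v => (y v.1.1 + (v.1.2 : ℕ)) + if v.2 then (d : ℤ) else 0)) :
    cent (prodW P Q) (fun v => x v.1 / (u : ℤ))
        (fun v => (x v.1 / (u : ℤ) / 2 ^ l, x v.1 + y v.2)) ≤
      cent P (fun a => x a / (u : ℤ)) (fun a => x a / (u : ℤ) / 2 ^ l) * (1 - γ / (l * Real.log 2)) +
        (γ * (r + 2) / l + ((1 / 2 : ℝ) ^ r * (l * Real.log 2) + 3 * √((1 / 2 : ℝ) ^ r))) := by
  set W := u * 2 ^ r with hWdef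
  have hW : 0 < W := by positivity
  have hu0 : (0 : ℤ) < u := by exact_mod_cast hu
  have hW0 : (0 : ℤ) < W := by exact_mod_cast hW
  have : Nonempty (Fin W) := ⟨⟨0, hW⟩⟩
  let K : Ω → ℤ := fun a => x a / (u : ℤ)
  let c : Ω → ℤ := fun a => x a / (u : ℤ) / 2 ^ l
  let R : Ω → ℤ := fun a => x a % (u : ℤ)
  set Q'' := prodW Q (unif (Fin W))
  let z : Ω' × Fin W → ℤ := fun v => y v.1 + (v.2 : ℕ)
  have hQ2 : 0 ≤ Q'' := prodW_nonneg hQ unif_nonneg
  have hQ21 : ∑ v, Q'' v = 1 := by rw [sum_prodW, hQ1, sum_unif, one_mul]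
  set Λ := prodW P Q''
  have hΛ : 0 ≤ Λ := prodW_nonneg hP hQ2
  have hΛ1 : ∑ v, Λ v = 1 := by rw [sum_prodW, hP1, hQ21, one_mul]
  let A : Ω × (Ω' × Fin W) → ℤ := fun v => x v.1 + z v.2
  let wrap : Ω × (Ω' × Fin W) → Ω × (Ω' × Fin W) := fun v => (v.1, (v.2.1,
    ⟨((R v.1 + (v.2.2 : ℕ)) % (W : ℤ)).toNat, by
      have := Int.emod_lt_of_pos (R v.1 + (v.2.2 : ℕ)) hW0
      omega⟩))
  have hcoe : ∀ v, (((wrap v).2.2 : ℕ) : ℤ) = (R v.1 + (v.2.2 : ℕ)) % (W : ℤ) := fun v =>
    Int.toNat_of_nonneg (Int.emod_nonneg _ hW0.ne')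
  let S : Ω × (Ω' × Fin W) → ℤ := fun v => (u : ℤ) * K v.1 + z v.2
  let E : Ω × (Ω' × Fin W) → Bool := fun v => decide ((W : ℤ) ≤ R v.1 + (v.2.2 : ℕ))
  -- remove the independent smoothing variable
  have h1 : cent (prodW P Q) (fun v => K v.1) (fun v => (c v.1, x v.1 + y v.2)) ≤
      cent Λ (fun v => K v.1) (fun v => (c v.1, A v)) := by
    have hPQ : 0 ≤ prodW P Q := prodW_nonneg hP hQ
    have e := cent_prod_fst_snd hPQ (unif_nonneg (J := Fin W)) sum_unif (fun v => K v.1)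
      (fun v => (c v.1, x v.1 + y v.2))
    rw [← e, ← cent_equiv (P := prodW (prodW P Q) (unif (Fin W))) (Q := Λ)
      (Equiv.prodAssoc Ω Ω' (Fin W)).symm (fun v => by simp [Λ, Q'', prodW, mul_assoc])]
    refine cent_anti_right hΛ fun v w h => ?_
    simp only [Equiv.prodAssoc_symm_apply, Prod.mk.injEq] at h
    obtain ⟨⟨h1, h2⟩, h3⟩ := h
    simp only [A, z, Prod.mk.injEq]
    refine ⟨h1, ?_⟩
    rw [← add_assoc, h2, h3, add_assoc]
  have hE : ∀ v, E v = false → A v = S (wrap v) := by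
    intro v hv
    simp only [E, decide_eq_false_iff_not, not_le] at hv
    have hm := Int.emod_nonneg (x v.1) hu0.ne'
    simp only [A, S, z, hcoe, R] at hv ⊢
    rw [emod_wrap (by positivity) hv]
    have := Int.mul_ediv_add_emod (x v.1) (u : ℤ)
    simp only [K, wrap]
    linarith
  have hEp : ∑ v, (if E v then Λ v else 0) ≤ (1 / 2 : ℝ) ^ r := by
    have hcard : ∀ a, ((univ.filter fun j : Fin W => (W : ℤ) ≤ R a + (j : ℕ)).card : ℝ) ≤ u := by
      intro a
      have hR := Int.emod_lt_of_pos (x a) hu0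
      exact_mod_cast le_trans (card_le_card_of_injOn (t := Finset.range u)
        (fun j : Fin W => W - 1 - (j : ℕ)) (fun j hj => by
          simp only [coe_filter, Set.mem_ofPred_eq, mem_univ, true_and, R] at hj
          have := j.isLt
          simp only [coe_range, Set.mem_Iio]
          omega) (fun i _ j _ hij => by
          have := i.isLt
          have := j.isLt
          simp only at hij
          exact Fin.ext (by omega))) (le_of_eq (card_range u))
    simp only [Λ, Q'', prodW, E, decide_eq_true_eq, Fintype.sum_prod_type]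
    calc ∑ a, ∑ w, ∑ j : Fin W, (if (W : ℤ) ≤ R a + (j : ℕ) then P a * (Q w * unif (Fin W) j)
          else 0)
        = ∑ a, ∑ w, P a * Q w * (((univ.filter fun j : Fin W => (W : ℤ) ≤ R a + (j : ℕ)).card : ℝ) *
            (W : ℝ)⁻¹) := by
          refine sum_congr rfl fun a _ => sum_congr rfl fun w _ => ?_
          rw [← sum_filter]
          simp [unif]; ring
      _ ≤ ∑ a, ∑ w, P a * Q w * ((u : ℝ) * (W : ℝ)⁻¹) := sum_le_sum fun a _ => sum_le_sum fun w _ =>
          mul_le_mul_of_nonneg_left (mul_le_mul_of_nonneg_right (hcard a) (by positivity))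
            (mul_nonneg (hP a) (hQ w))
      _ = (1 / 2 : ℝ) ^ r := by
          simp only [← sum_mul, ← mul_sum, hQ1, hP1, mul_one, one_mul]
          rw [hWdef, div_pow, one_pow]; push_cast
          field_simp
  have h2 := cent_perturb hΛ hΛ1 (fun v => K v.1) (fun v => c v.1) A (fun v => S (wrap v)) E hE
    (pow_le_one₀ (by norm_num) (by norm_num)) (one_le_pow₀ (by norm_num : (1 : ℝ) ≤ 2) (n := l))
    hEp (fun t => Finset.Ico (t * 2 ^ l) (t * 2 ^ l + 2 ^ l))
    (fun v => by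
      simp only [c, K, mem_Ico]
      have h' := Int.mul_ediv_add_emod (x v.1 / u) (2 ^ l)
      have h'' := Int.emod_lt_of_pos (x v.1 / u) (by positivity : (0 : ℤ) < 2 ^ l)
      have h''' := Int.emod_nonneg (x v.1 / u) (by positivity : (2 : ℤ) ^ l ≠ 0)
      constructor <;> linarith)
    (fun v => by
      rw [Int.card_Ico, add_sub_cancel_left, show (2 : ℤ) ^ l = ((2 ^ l : ℕ) : ℤ) by simp,
        Int.toNat_natCast]
      simp)
  rw [Real.log_pow] at h2
  have h3 : cent Λ (fun v => K v.1) (fun v => (c v.1, S (wrap v))) =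
      cent Λ (fun v => K v.1) (fun v => (c v.1, S v)) := by
    refine cent_map (Q := Λ) (P := Λ) wrap (fun v => ?_) (fun v => K v.1) (fun v => (c v.1, S v))
    have hinj : Function.Injective wrap := by
      intro a b h
      have e1 := congrArg Prod.fst h
      have e2 := congrArg (fun t => t.2.1) h
      have e3 := congrArg (fun t => ((t.2.2 : ℕ) : ℤ)) h
      rw [hcoe, hcoe] at e3
      simp only [wrap] at e1 e2
      rw [e1] at e3
      have h4 : ((a.2.2 : ℕ) : ℤ) % W = ((b.2.2 : ℕ) : ℤ) % W :=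
        (Int.emod_add_cancel_left).1 e3
      rw [emod_wrap (by positivity) (by exact_mod_cast a.2.2.isLt),
        emod_wrap (by positivity) (by exact_mod_cast b.2.2.isLt)] at h4
      exact Prod.ext e1 (Prod.ext e2 (Fin.ext (by exact_mod_cast h4)))
    obtain ⟨t, rfl⟩ := (Finite.injective_iff_surjective.1 hinj) v
    unfold mass
    rw [sum_eq_single t]
    case h₀ => exact fun w _ hw => if_neg fun h => hw (hinj h)
    case h₁ => simp
    rw [if_pos rfl]
    simp [Λ, Q'', prodW, wrap, unif]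
  have h4 := mix_gain hP hP1 hQ2 hQ21 c K z u r γ hgain
  have h5 := fano hP hP1 c K l r (fun a => rfl)
  have hl2 : 0 < (l : ℝ) * Real.log 2 := by
    have := Real.log_pos (by norm_num : (1 : ℝ) < 2)
    positivity
  have h6 : γ / (l * Real.log 2) * cent P K c ≤
      γ * (r + 2) / l + γ * farProb P c K (2 ^ r) := by
    have := mul_le_mul_of_nonneg_left h5 (div_nonneg hγ.le hl2.le)
    refine this.trans (le_of_eq ?_)
    rw [mul_add]
    have := (Real.log_pos (by norm_num : (1 : ℝ) < 2)).ne'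
    field_simp
  change cent (prodW P Q) (fun v => K v.1) (fun v => (c v.1, x v.1 + y v.2)) ≤
    cent P K c * _ + _
  linarith

/-- The linear inverse inequality: if all windows of `y` have dimension at most `α < 1`, then the
entropy of `x` between scales `1` and `2 ^ (l * n)` contributes linearly to the gain. -/
theorem block_gain (α C δ : ℝ) (hα : α < 1) (hδ : 0 < δ) :
    ∃ l : ℕ, 0 < l ∧ ∃ ε : ℝ, 0 < ε ∧ ε ≤ 1 ∧ ∀ {Ω Ω' : Type} [Fintype Ω] [Fintype Ω'] (P : Ω → ℝ)
      (Q : Ω' → ℝ) (x : Ω → ℤ) (y : Ω' → ℤ), 0 ≤ P → ∑ a, P a = 1 → 0 ≤ Q → ∑ w, Q w = 1 →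
      (∀ u L : ℕ, 0 < u → 0 < L → cent Q (fun w => y w / (u : ℤ))
        (fun w => y w / ((u * L : ℕ) : ℤ)) ≤ α * Real.log L + C) →
      ∀ n : ℕ,
        ent Q y + ent P (fun a => x a / 2 ^ (l * n)) - ent Q (fun w => y w / 2 ^ (l * n)) - Real.log 2
          + ε * (ent P x - ent P (fun a => x a / 2 ^ (l * n)) - δ * (Real.log 2 * (l * n : ℕ)))
          ≤ ent (prodW P Q) (fun v => x v.1 + y v.2) := by
  obtain ⟨γ, hγ, hgain⟩ := shift_gain α (C + 2 * Real.log 2) hα
  obtain ⟨r, l, hl, hsc⟩ := exists_scales γ δ hγ hδ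
  have hlog := Real.log_pos (by norm_num : (1 : ℝ) < 2)
  refine ⟨l, hl, min (γ / (l * Real.log 2)) 1, lt_min (by positivity) one_pos, min_le_right _ _, ?_⟩
  intro Ω Ω' _ _ P Q x y hP hP1 hQ hQ1 hw n
  set PQ := prodW P Q
  have hPQ : 0 ≤ PQ := prodW_nonneg hP hQ
  have hPQ1 : ∑ v, PQ v = 1 := by rw [sum_prodW, hP1, hQ1, one_mul]
  set ε := γ / (l * Real.log 2)
  set s : Ω × Ω' → ℤ := fun v => x v.1 + y v.2
  let K : ℕ → Ω → ℤ := fun i a => x a / 2 ^ (l * i)
  have hK : ∀ i a, K (i + 1) a = K i a / 2 ^ l := fun i a => by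
    simp only [K]
    rw [Int.ediv_ediv_of_nonneg (by positivity), ← pow_add]
    congr 2
  have hg : ∀ W d : ℕ, 0 < W → W ≤ d →
      ent (prodW Q (unif (Fin W))) (fun v => y v.1 + (v.2 : ℕ)) + γ ≤
        ent (prodW (prodW Q (unif (Fin W))) (unif Bool))
          (fun v => (y v.1.1 + (v.1.2 : ℕ)) + if v.2 then (d : ℤ) else 0) := by
    intro W d hW hd
    have : Nonempty (Fin W) := ⟨⟨0, hW⟩⟩
    have h1 : ∑ v, prodW Q (unif (Fin W)) v = 1 := by rw [sum_prodW, hQ1, sum_unif, one_mul]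
    exact hgain (Ω := Ω' × Fin W) (prodW Q (unif (Fin W))) (fun v => y v.1 + (v.2 : ℕ)) d
      (prodW_nonneg hQ unif_nonneg) h1 (lt_of_lt_of_le hW hd)
      fun L hL => (window_smooth hQ hQ1 y α C hw W d hW hd L hL).trans (le_of_eq (by ring))
  have hstep : ∀ i, cent PQ (fun v => K i v.1) s ≤ cent PQ (fun v => K (i + 1) v.1) s +
      ((ent P (K i) - ent P (K (i + 1))) * (1 - ε) + γ * δ) := by
    intro i
    refine (cent_le_add hPQ _ (fun v => K (i + 1) v.1) s).trans (add_le_add le_rfl ?_)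
    have hu : 0 < 2 ^ (l * i) := by positivity
    have hb := block_step hP hP1 hQ hQ1 x y (2 ^ (l * i)) l r hu hl γ hγ
      (fun d hd => hg (2 ^ (l * i) * 2 ^ r) d (Nat.mul_pos hu (by positivity)) hd)
    have e1 : cent P (K i) (K (i + 1)) = ent P (K i) - ent P (K (i + 1)) := by
      have h' : ent P (fun a => (K i a, K (i + 1) a)) = ent P (K i) :=
        cent_congr_left hP fun v w _ => by
          simp only [Prod.mk.injEq]
          exact ⟨fun h => h.1, fun h => ⟨h, by rw [hK, hK, h]⟩⟩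
      rw [← h', ent_pair]; ring
    rw [← e1, show K (i + 1) = fun a => K i a / 2 ^ l from funext (hK i)]
    push_cast at hb
    refine le_trans ?_ (hb.trans (add_le_add le_rfl hsc))
    exact (cent_congr_right PQ fun v w => by simp [K, s, and_comm]).le
  have hiter : ∀ m, cent PQ (fun v => x v.1) s ≤ cent PQ (fun v => K m v.1) s +
      ((ent P x - ent P (K m)) * (1 - ε) + γ * δ * m) := by
    intro m
    induction m with
    | zero => simp [K]
    | succ m ih =>
      have := hstep m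
      push_cast
      linarith
  have hlast : cent PQ (fun v => K n v.1) s ≤ ent Q (fun w => y w / 2 ^ (l * n)) + Real.log 2 := by
    set M : ℤ := 2 ^ (l * n)
    have hM : 0 < M := by positivity
    refine (cent_le_add hPQ _ (fun v => y v.2 / M) s).trans (add_le_add ?_ ?_)
    · refine (cent_le_ent hPQ _ _).trans (le_of_eq ?_)
      exact (cent_prod_snd_fst hP hP1 hQ hQ1 (fun w => y w / M) (fun _ => ()))
    · refine (cent_le_log hPQ _ _ (fun _ => 2) (fun q => {q.2 / M - q.1, q.2 / M - q.1 - 1})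
        (fun v => ?_) (fun v => ?_)).trans (le_of_eq (by rw [← sum_mul, hPQ1, one_mul]))
      · simp only [K, s, mem_insert, mem_singleton]
        have a1 := Int.mul_ediv_add_emod (x v.1) M
        have a2 := Int.mul_ediv_add_emod (y v.2) M
        have a3 := Int.emod_lt_of_pos (x v.1) hM
        have a4 := Int.emod_lt_of_pos (y v.2) hM
        have a5 := Int.emod_nonneg (x v.1) hM.ne'
        have a6 := Int.emod_nonneg (y v.2) hM.ne'
        set p := x v.1 / M
        set q := y v.2 / M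
        have b1 : p + q ≤ (x v.1 + y v.2) / M := by
          rw [Int.le_ediv_iff_mul_le hM]; linarith
        have b2 : (x v.1 + y v.2) / M < p + q + 2 := by
          rw [Int.ediv_lt_iff_lt_mul hM]; linarith
        omega
      · exact_mod_cast card_le_two
  have hchain : ent Q y + ent P x = ent PQ s + cent PQ (fun v => x v.1) s := by
    rw [← ent_pair]
    have e : ent PQ (fun v => (x v.1, s v)) = ent PQ (fun v => (y v.2, x v.1)) :=
      cent_congr_left hPQ fun v w _ => by simp [s]; constructor <;> intro h <;> constructor <;>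
        linarith [h.1, h.2]
    rw [e, ent_pair]
    have e2 : ent PQ (fun v => x v.1) = ent P x := cent_prod_fst hQ1 P x (fun _ => ())
    have e3 : cent PQ (fun v => y v.2) (fun v => x v.1) = ent Q y :=
      cent_prod_snd_fst hP hP1 hQ hQ1 y x
    rw [e2, e3]; ring
  have h1 := hiter n
  have e : ε * (δ * (Real.log 2 * (l * n : ℕ))) = γ * δ * n := by
    simp only [ε]; push_cast; field_simp
  have hiter0 : ∀ m, cent PQ (fun v => x v.1) s ≤
      cent PQ (fun v => K m v.1) s + (ent P x - ent P (K m)) := by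
    intro m
    induction m with
    | zero => simp [K]
    | succ m ih =>
      have hh := cent_le_add' hPQ (fun v : Ω × Ω' => K m v.1) (fun v => K (m + 1) v.1) s
      have e1 : cent PQ (fun v => K m v.1) (fun v => K (m + 1) v.1) =
          cent P (K m) (K (m + 1)) := cent_prod_fst hQ1 P (K m) (K (m + 1))
      have h' : ent P (fun a => (K m a, K (m + 1) a)) = ent P (K m) :=
        cent_congr_left hP fun v w _ => by
          simp only [Prod.mk.injEq]
          exact ⟨fun h => h.1, fun h => ⟨h, by rw [hK, hK, h]⟩⟩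
      rw [ent_pair] at h'
      linarith
  have h0 := hiter0 n
  change _ ≤ ent PQ s
  have hεpos : 0 < ε := by positivity
  set θ := min ε 1 / ε with hθ
  have hθ0 : 0 ≤ θ := by positivity
  have hθ1 : θ ≤ 1 := (div_le_one hεpos).2 (min_le_left _ _)
  have hθe : θ * ε = min ε 1 := div_mul_cancel₀ _ hεpos.ne'
  have hc := add_le_add (mul_le_mul_of_nonneg_left h1 hθ0)
    (mul_le_mul_of_nonneg_left h0 (sub_nonneg.2 hθ1))
  rw [← hθe, mul_assoc θ]
  have e2 : θ * (ε * (δ * (Real.log 2 * (l * n : ℕ)))) = θ * (γ * δ * n) := by rw [e]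
  have : ent P (K n) = ent P (fun a => x a / 2 ^ (l * n)) := rfl
  linarith

end

end Vale.Agent.P114
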