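import Vale.Agent.P114.Scale
import Mathlib.MeasureTheory.Measure.Real
import Mathlib.MeasureTheory.Constructions.BorelSpace.Order
import Mathlib.MeasureTheory.Measure.Map
import Mathlib.Topology.Instances.Int
import Mathlib.MeasureTheory.Function.Floor
import Mathlib.MeasureTheory.Constructions.BorelSpace.Real

/-! # Entropy of the invariant measure on the children of a cell -/

namespace Vale.Agent.P114

noncomputable section

open scoped Classical ENNReal
open Finset MeasureTheory Filter

variable {ι : Type} [Fintype ι] {p r t : ι → ℝ} {a q T : ℝ} {μ : Measure ℝ}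
  [IsProbabilityMeasure μ]

theorem mass_snd {α β : Type*} [Fintype α] [Fintype β] (π : α × β → ℝ) (d : β) :
    mass π Prod.snd d = ∑ v, π (v, d) := by
  unfold mass
  rw [Fintype.sum_prod_type]
  refine sum_congr rfl fun v _ => ?_
  refine (sum_eq_single d ?_ ?_).trans (if_pos rfl)
  · exact fun e _ he => if_neg he
  · simp

theorem mass_fst {α β : Type*} [Fintype α] [Fintype β] (π : α × β → ℝ) (v : α) :
    mass π Prod.fst v = ∑ d, π (v, d) := by
  unfold mass
  rw [Fintype.sum_prod_type]
  refine (sum_eq_single v ?_ ?_).trans (sum_congr rfl fun d _ => if_pos rfl)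
  · exact fun e _ he => sum_eq_zero fun d _ => if_neg he
  · simp

theorem mass_swap {α β : Type*} [Fintype α] [Fintype β] (π : α × β → ℝ) (v : α) (d : β) :
    mass π (fun x => (x.2, x.1)) (d, v) = π (v, d) := by
  unfold mass
  refine (sum_eq_single (v, d) ?_ ?_).trans (if_pos rfl)
  · exact fun x _ hx => if_neg fun h => hx (Prod.ext (Prod.mk.inj h).2 (Prod.mk.inj h).1)
  · simp

/-- Invariance of a measure under the system. -/
def Inv (p r t : ι → ℝ) (μ : Measure ℝ) : Prop :=
  ∀ B : Set ℝ, MeasurableSet B → μ.real B = ∑ i, p i * μ.real ((fun x => r i * x + t i) ⁻¹' B)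

theorem inv_of_eq (hp : ∀ i, 0 ≤ p i)
    (hμ : μ = ∑ i, ENNReal.ofReal (p i) • μ.map (fun x => r i * x + t i)) : Inv p r t μ := by
  intro B hB
  have hm : ∀ i, Measurable fun x => r i * x + t i := fun i => by fun_prop
  conv_lhs => rw [hμ]
  rw [measureReal_def, Measure.finsetSum_apply]
  simp only [Measure.smul_apply, smul_eq_mul, Measure.map_apply (hm _) hB]
  rw [ENNReal.toReal_sum fun i _ => ENNReal.mul_ne_top ENNReal.ofReal_ne_top (measure_ne_top μ _)]
  exact sum_congr rfl fun i _ => by rw [ENNReal.toReal_mul, ENNReal.toReal_ofReal (hp i)]; rfl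

omit [IsProbabilityMeasure μ] in
theorem inv_word (hI : Inv p r t μ) : ∀ (n : ℕ) (B : Set ℝ), MeasurableSet B →
    μ.real B = ∑ w : Fin n → ι, wt p w *
      μ.real ((fun x => slope r w * x + trans r t w) ⁻¹' B)
  | 0, B, _ => by simp [wt, slope, trans]
  | n + 1, B, hB => by
    rw [hI B hB, ← (Fin.consEquiv (fun _ : Fin (n + 1) => ι)).sum_comp, Fintype.sum_prod_type]
    refine sum_congr rfl fun i _ => ?_
    have hm : Measurable fun x => r i * x + t i := by fun_prop
    rw [inv_word hI n _ (hm hB), mul_sum]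
    refine sum_congr rfl fun v _ => ?_
    simp only [Fin.consEquiv, Equiv.coe_fn_mk]
    rw [wt_succ, Fin.cons_zero, Fin.tail_cons, mul_assoc, ← Set.preimage_comp]
    congr 4
    funext x
    rw [slope_succ, trans, Fin.cons_zero, Fin.tail_cons, Function.comp_apply, smul_eq_mul]
    ring

theorem support_null (G : Good p r t a q T) (hI : Inv p r t μ) :
    μ.real {x : ℝ | radius q T < |x|} = 0 := by
  set R := radius q T
  have hq := G.q_pos
  have hmeas : ∀ s : ℝ, MeasurableSet {x : ℝ | s < |x|} := fun s =>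
    measurableSet_lt measurable_const continuous_abs.measurable
  have hstep : ∀ δ : ℝ, μ.real {x : ℝ | R + δ < |x|} ≤ μ.real {x : ℝ | R + δ / q < |x|} := by
    intro δ
    calc μ.real {x : ℝ | R + δ < |x|}
        = ∑ i, p i * μ.real ((fun x => r i * x + t i) ⁻¹' {x : ℝ | R + δ < |x|}) := hI _ (hmeas _)
      _ ≤ ∑ i, p i * μ.real {x : ℝ | R + δ / q < |x|} := by
          refine sum_le_sum fun i _ => mul_le_mul_of_nonneg_left
            (measureReal_mono fun x hx => ?_) (G.pos i).le
          simp only [Set.mem_preimage, Set.mem_ofPred_eq] at hx ⊢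
          have h1 : |r i * x + t i| ≤ q * |x| + T := by
            refine (abs_add_le _ _).trans (add_le_add ?_ (G.t_le i))
            rw [abs_mul]
            exact mul_le_mul_of_nonneg_right (G.le_q i) (abs_nonneg x)
          by_contra hcon
          push Not at hcon
          have h2 := mul_le_mul_of_nonneg_left hcon hq.le
          have e : q * (R + δ / q) = q * R + δ := by field_simp
          have e' : T + q * R = R := by
            have : (1 : ℝ) - q ≠ 0 := by linarith [G.q_lt]
            simp only [R, radius]; field_simp; ring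
          linarith
      _ = _ := by rw [← sum_mul, G.sum_one, one_mul]
  have hiter : ∀ (δ : ℝ) (n : ℕ),
      μ.real {x : ℝ | R + δ < |x|} ≤ μ.real {x : ℝ | R + δ / q ^ n < |x|} := by
    intro δ n
    induction n with
    | zero => simp
    | succ n ih =>
      refine ih.trans ((hstep _).trans (le_of_eq ?_))
      rw [div_div, ← pow_succ]
  have hpos : ∀ j : ℕ, μ {x : ℝ | R + 1 / ((j : ℝ) + 1) < |x|} = 0 := by
    intro j
    set δ := 1 / ((j : ℝ) + 1)
    have hδ : 0 < δ := by positivity
    have hanti : Antitone fun n : ℕ => {x : ℝ | R + δ / q ^ n < |x|} := by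
      intro m n hmn x hx
      simp only [Set.mem_ofPred_eq] at hx ⊢
      refine lt_of_le_of_lt ?_ hx
      refine add_le_add le_rfl (div_le_div_of_nonneg_left hδ.le (pow_pos hq n) ?_)
      exact pow_le_pow_of_le_one hq.le G.q_lt.le hmn
    have hlim := tendsto_measure_iInter_atTop (μ := μ)
      (fun n => (hmeas (R + δ / q ^ n)).nullMeasurableSet) hanti ⟨0, measure_ne_top μ _⟩
    have hempty : (⋂ n : ℕ, {x : ℝ | R + δ / q ^ n < |x|}) = ∅ := by
      refine Set.eq_empty_of_forall_notMem fun x hx => ?_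
      have h0 := (tendsto_pow_atTop_nhds_zero_of_lt_one hq.le G.q_lt)
      have hden : 0 < |x| + |R| + 1 := by positivity
      obtain ⟨n, hn⟩ := (h0.eventually_le_const (div_pos hδ hden)).exists
      have hx' : R + δ / q ^ n < |x| := Set.mem_iInter.1 hx n
      rw [le_div_iff₀ hden] at hn
      have : |x| + |R| + 1 ≤ δ / q ^ n := by
        rw [le_div_iff₀ (pow_pos hq n)]; linarith
      linarith [neg_abs_le R]
    rw [hempty, measure_empty] at hlim
    refine le_antisymm (ge_of_tendsto' hlim fun n => ?_) zero_le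
    have := hiter δ n
    rwa [measureReal_def, measureReal_def,
      ENNReal.toReal_le_toReal (measure_ne_top _ _) (measure_ne_top _ _)] at this
  have : μ {x : ℝ | R < |x|} = 0 := by
    refine measure_mono_null (fun x hx => ?_) (measure_iUnion_null hpos)
    simp only [Set.mem_ofPred_eq] at hx
    obtain ⟨j, hj⟩ := exists_nat_one_div_lt (sub_pos.2 hx)
    exact Set.mem_iUnion.2 ⟨j, by simp only [Set.mem_ofPred_eq]; linarith⟩
  simp [measureReal_def, this]

/-- The masses of the children `0, …, b - 1` of the cell seen through `x ↦ σ x + θ`. -/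
def chw (μ : Measure ℝ) (b : ℕ) (σ θ : ℝ) (d : Fin b) : ℝ :=
  μ.real {x : ℝ | ⌊σ * x + θ⌋ = (d : ℤ)}

omit [IsProbabilityMeasure μ] in
theorem chw_nonneg (b : ℕ) (σ θ : ℝ) : 0 ≤ chw μ b σ θ := fun _ => measureReal_nonneg

theorem measurableSet_floor_eq (σ θ : ℝ) (k : ℤ) : MeasurableSet {x : ℝ | ⌊σ * x + θ⌋ = k} :=
  (Int.measurable_floor.comp (by fun_prop)) (measurableSet_singleton k)

theorem sum_chw (b : ℕ) (σ θ : ℝ) : ∑ d, chw μ b σ θ d =
    μ.real {x : ℝ | 0 ≤ ⌊σ * x + θ⌋ ∧ ⌊σ * x + θ⌋ < (b : ℤ)} := by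
  have hu : {x : ℝ | 0 ≤ ⌊σ * x + θ⌋ ∧ ⌊σ * x + θ⌋ < (b : ℤ)} =
      ⋃ d ∈ (univ : Finset (Fin b)), {x : ℝ | ⌊σ * x + θ⌋ = (d : ℤ)} := by
    ext x
    simp only [Set.mem_ofPred_eq, Set.mem_iUnion, mem_univ, exists_prop, true_and]
    constructor
    · intro h
      exact ⟨⟨(⌊σ * x + θ⌋).toNat, by omega⟩, by simp [Int.toNat_of_nonneg h.1]⟩
    · rintro ⟨d, hd⟩
      have := d.isLt
      omega
  rw [hu, measureReal_biUnion_finset ?_ (fun d _ => measurableSet_floor_eq σ θ _)]
  · rfl
  · intro d _ d' _ hdd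
    refine Set.disjoint_left.2 fun x hx hx' => hdd (Fin.ext ?_)
    simp only [Set.mem_ofPred_eq] at hx hx'
    omega

theorem chw_full (G : Good p r t a q T) (hI : Inv p r t μ) (b : ℕ) (σ θ : ℝ)
    (h : ∀ x : ℝ, |x| ≤ radius q T → 0 ≤ σ * x + θ ∧ σ * x + θ < b) :
    ∑ d, chw μ b σ θ d = 1 := by
  rw [sum_chw]
  have hcompl : μ.real {x : ℝ | 0 ≤ ⌊σ * x + θ⌋ ∧ ⌊σ * x + θ⌋ < (b : ℤ)}ᶜ = 0 := by
    refine le_antisymm ((measureReal_mono fun x hx => ?_).trans (le_of_eq (support_null G hI)))
      measureReal_nonneg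
    simp only [Set.mem_compl_iff, Set.mem_ofPred_eq] at hx ⊢
    by_contra hcon
    push Not at hcon
    obtain ⟨h0, h1⟩ := h x hcon
    exact hx ⟨Int.floor_nonneg.2 h0, Int.floor_lt.2 (by exact_mod_cast h1)⟩
  have hms : MeasurableSet {x : ℝ | 0 ≤ ⌊σ * x + θ⌋ ∧ ⌊σ * x + θ⌋ < (b : ℤ)} := by
    have hm : Measurable fun x : ℝ => ⌊σ * x + θ⌋ := Int.measurable_floor.comp (by fun_prop)
    exact hm (MeasurableSet.inter (measurableSet_le measurable_const measurable_id)
      (measurableSet_lt measurable_id measurable_const))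
  have := measureReal_add_measureReal_compl (μ := μ) hms
  rw [hcompl, add_zero] at this
  rw [this]; simp

/-- A full family of children has at least the entropy of the scale. -/
theorem js_le_chw (G : Good p r t a q T) (hI : Inv p r t μ) (b : ℕ) (σ θ : ℝ)
    (hfull : ∑ d, chw μ b σ θ d = 1) :
    js p r t q σ ≤ ent (chw μ b σ θ) id + Real.log (2 * ((⌈radius q T⌉₊ : ℝ) + 1) + 1)
      + Good.c0 q T := by
  set R := radius q T
  set N := lev q σ
  set π : (Fin N → ι) × Fin b → ℝ := fun v => wt p v.1 *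
    μ.real ((fun x => slope r v.1 * x + trans r t v.1) ⁻¹' {x : ℝ | ⌊σ * x + θ⌋ = (v.2 : ℤ)})
  have hπ : 0 ≤ π := fun v => mul_nonneg (wt_nonneg (fun i => (G.pos i).le) _) measureReal_nonneg
  have hsnd : ∀ d, chw μ b σ θ d = mass π Prod.snd d := by
    intro d
    rw [mass_snd, chw, inv_word hI N _ (measurableSet_floor_eq σ θ _)]
  have hπ1 : ∑ v, π v = 1 := by
    rw [← hfull, Fintype.sum_prod_type, sum_comm]
    refine sum_congr rfl fun d _ => ?_
    rw [hsnd d, mass_snd]
  have hrow : ∀ v : Fin N → ι,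
      ∑ d : Fin b, μ.real ((fun x => slope r v * x + trans r t v) ⁻¹'
        {x : ℝ | ⌊σ * x + θ⌋ = (d : ℤ)}) ≤ 1 := by
    intro v
    have e : ∀ d : Fin b, μ.real ((fun x => slope r v * x + trans r t v) ⁻¹'
        {x : ℝ | ⌊σ * x + θ⌋ = (d : ℤ)}) = chw μ b (σ * slope r v) (σ * trans r t v + θ) d := by
      intro d
      simp only [chw, Set.preimage_ofPred_eq]
      congr 2; funext x; congr 2; ring
    simp only [e]
    rw [sum_chw]
    exact measureReal_le_one
  have hfst : ∀ v, wt p v = mass π Prod.fst v := by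
    have hle : ∀ v ∈ (univ : Finset (Fin N → ι)), mass π Prod.fst v ≤ wt p v := fun v _ => by
      rw [mass_fst]
      simp only [π, ← mul_sum]
      exact mul_le_of_le_one_right (wt_nonneg (fun i => (G.pos i).le) v) (hrow v)
    have hsum : ∑ v, mass π Prod.fst v = ∑ v : Fin N → ι, wt p v := by
      rw [sum_wt G.sum_one, ← hπ1, Fintype.sum_prod_type]
      exact sum_congr rfl fun v _ => mass_fst π v
    exact fun v => (((sum_eq_sum_iff_of_le hle).1 hsum) v (mem_univ v)).symm
  let X : (Fin N → ι) × Fin b → ℤ := fun v => ⌊σ * trans r t v.1 + θ⌋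
  let X' : (Fin N → ι) × Fin b → ℤ := fun v => if π v = 0 then (v.2 : ℤ) else X v
  have h1 : jN p r t N σ θ = ent π X :=
    (cent_map Prod.fst hfst (fun w => ⌊σ * trans r t w + θ⌋) (fun _ => ())).symm
  have h2 : ent (chw μ b σ θ) id = ent π Prod.snd :=
    (cent_map Prod.snd hsnd id (fun _ => ())).symm
  have h3 : ent π X = ent π X' := cent_congr_supp fun v hv => ⟨by simp [X', hv], rfl⟩
  have h4 : cent π X' Prod.snd ≤ Real.log (2 * ((⌈R⌉₊ : ℝ) + 1) + 1) := by
    set Rn : ℤ := (⌈R⌉₊ : ℤ) + 1 with hRn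
    refine (cent_le_log hπ X' Prod.snd (fun _ => 2 * ((⌈R⌉₊ : ℝ) + 1) + 1)
      (fun d => Finset.Icc ((d : ℤ) - Rn) ((d : ℤ) + Rn)) (fun v => ?_) (fun v => ?_)).trans
      (le_of_eq (by rw [← sum_mul, hπ1, one_mul]))
    · simp only [X', mem_Icc]
      by_cases hv : π v = 0
      · simp only [hv, if_true]; omega
      simp only [hv, if_false]
      obtain ⟨w, d⟩ := v
      have hne : μ.real ((fun x => slope r w * x + trans r t w) ⁻¹'
          {x : ℝ | ⌊σ * x + θ⌋ = (d : ℤ)}) ≠ 0 := fun h => hv (by simp only [π]; rw [h, mul_zero])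
      obtain ⟨x, hx, hxR⟩ : ∃ x, ⌊σ * (slope r w * x + trans r t w) + θ⌋ = (d : ℤ) ∧ |x| ≤ R := by
        by_contra hcon
        push Not at hcon
        refine hne (le_antisymm ((measureReal_mono fun x hx => ?_).trans
          (le_of_eq (support_null G hI))) measureReal_nonneg)
        exact hcon x hx
      have hb : |σ * (slope r w * x)| ≤ R := by
        rw [← mul_assoc, abs_mul, abs_mul]
        have h' := mul_le_mul ((mul_le_mul_of_nonneg_left (G.slope_le w) (abs_nonneg σ)).trans
          (G.lev_spec σ)) hxR (abs_nonneg _) zero_le_one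
        rwa [one_mul] at h'
      have hb' := abs_le.1 hb
      have a1 := Int.floor_le (σ * trans r t w + θ)
      have a2 := Int.lt_floor_add_one (σ * trans r t w + θ)
      have a3 := Int.floor_le (σ * (slope r w * x + trans r t w) + θ)
      have a4 := Int.lt_floor_add_one (σ * (slope r w * x + trans r t w) + θ)
      rw [hx] at a3 a4
      have a5 : (R : ℝ) ≤ (⌈R⌉₊ : ℝ) := Nat.le_ceil R
      simp only [X, hRn]
      constructor
      · rw [Int.le_iff_lt_add_one, ← Int.cast_lt (R := ℝ)]; push_cast at *; linarith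
      · rw [Int.le_iff_lt_add_one, ← Int.cast_lt (R := ℝ)]; push_cast at *; linarith
    · rw [Int.card_Icc, show (v.2 : ℤ) + Rn + 1 - ((v.2 : ℤ) - Rn) =
        ((2 * (⌈R⌉₊ + 1) + 1 : ℕ) : ℤ) by rw [hRn]; push_cast; ring, Int.toNat_natCast]
      push_cast; rfl
  have h5 := (G.close (σ := σ) le_rfl θ).2
  have h6 := ent_le_add hπ X' (Prod.snd : (Fin N → ι) × Fin b → Fin b)
  linarith

omit [IsProbabilityMeasure μ] in
theorem ent_mix (G : Good p r t a q T) (hI : Inv p r t μ) (b : ℕ) (σ θ : ℝ) :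
    ∑ i, p i * ent (chw μ b (σ * r i) (σ * t i + θ)) id ≤ ent (chw μ b σ θ) id := by
  set w := fun i => chw μ b (σ * r i) (σ * t i + θ)
  set π : ι × Fin b → ℝ := fun v => p v.1 * w v.1 v.2
  have hw : ∀ i, 0 ≤ w i := fun i => chw_nonneg _ _ _
  have hπ : 0 ≤ π := fun v => mul_nonneg (G.pos v.1).le (hw v.1 v.2)
  have hsnd : ∀ d, chw μ b σ θ d = mass π Prod.snd d := by
    intro d
    rw [mass_snd, chw, hI _ (measurableSet_floor_eq σ θ _)]
    refine sum_congr rfl fun i _ => ?_
    simp only [π, w, chw, Set.preimage_ofPred_eq]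
    congr 3; funext x; congr 2; ring
  have h : ent (chw μ b σ θ) id = ent π Prod.snd := (cent_map Prod.snd hsnd id (fun _ => ())).symm
  rw [h]
  refine le_trans ?_ (cent_le_ent hπ Prod.snd Prod.fst)
  refine le_of_eq ?_
  simp only [ent, cent, Fintype.sum_prod_type, mul_sum]
  refine sum_congr rfl fun i _ => sum_congr rfl fun d _ => ?_
  rcases eq_or_lt_of_le (hw i d) with h0 | h0
  · simp only [Pi.zero_apply, w] at h0
    simp [π, w, ← h0]
  have m1 : mass π Prod.fst i = p i * ∑ e, w i e := by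
    rw [mass_fst, mul_sum]
  have m2 : mass π (fun v => (v.2, v.1)) (d, i) = p i * w i d := mass_swap π i d
  have m3 : mass (w i) (fun e => (id e, ())) (id d, ()) = w i d := by simp [mass]
  have hs : 0 < ∑ e, w i e :=
    lt_of_lt_of_le h0 (single_le_sum (fun e _ => hw i e) (mem_univ d))
  change p i * (w i d * (Real.log (mass (w i) (fun _ => ()) ()) -
    Real.log (mass (w i) (fun e => (id e, ())) (id d, ())))) =
    π (i, d) * (Real.log (mass π Prod.fst i) - Real.log (mass π (fun v => (v.2, v.1)) (d, i)))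
  rw [mass_unit, m1, m2, m3, Real.log_mul (G.pos i).ne' hs.ne', Real.log_mul (G.pos i).ne' h0.ne']
  simp only [π]; ring

/-- The children in the middle of the cell carry at least the entropy of the scale. -/
theorem good_entropy (G : Good p r t a q T) (hI : Inv p r t μ) (b m : ℕ) {A : ℝ}
    (hA : A + Real.log (2 * ((⌈radius q T⌉₊ : ℝ) + 1) + 1) + 3 * Good.c0 q T + Real.log 4 ≤
      js p r t q (a * m / (2 * (radius q T + 1)))) (hm : 0 < m)
    (σ θ : ℝ) (hσ : a * m / (2 * (radius q T + 1)) ≤ |σ|) :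
    A * ∑ d : Fin b, (if m ≤ (d : ℕ) ∧ (d : ℕ) + m < b then chw μ b σ θ d else 0) ≤
      ent (chw μ b σ θ) id := by
  set R := radius q T
  have hR : 0 ≤ R := G.radius_nonneg
  have hR1 : 0 < 2 * (R + 1) := by linarith
  set σ0 := a * m / (2 * (R + 1))
  have hσ00 : 0 < σ0 := div_pos (mul_pos G.a_pos (by exact_mod_cast hm)) hR1
  have key : ∀ n : ℕ, ∀ σ θ : ℝ, σ0 ≤ |σ| → |σ| * (2 * (R + 1)) * q ^ n ≤ m →
      A * ∑ d : Fin b, (if m ≤ (d : ℕ) ∧ (d : ℕ) + m < b then chw μ b σ θ d else 0) ≤
        ent (chw μ b σ θ) id := by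
    intro n
    have base : ∀ σ θ : ℝ, σ0 ≤ |σ| → |σ| * (2 * (R + 1)) ≤ m →
        A * ∑ d : Fin b, (if m ≤ (d : ℕ) ∧ (d : ℕ) + m < b then chw μ b σ θ d else 0) ≤
          ent (chw μ b σ θ) id := by
      intro σ θ h0 h1
      set S := ∑ d : Fin b, (if m ≤ (d : ℕ) ∧ (d : ℕ) + m < b then chw μ b σ θ d else 0)
      have hent : 0 ≤ ent (chw μ b σ θ) id := ent_nonneg (chw_nonneg _ _ _) _
      rcases eq_or_ne S 0 with hS | hS
      · rw [hS, mul_zero]; exact hent
      obtain ⟨d, -, hd⟩ := exists_ne_zero_of_sum_ne_zero hS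
      have hgood : m ≤ (d : ℕ) ∧ (d : ℕ) + m < b := by
        by_contra h; exact hd (if_neg h)
      rw [if_pos hgood] at hd
      obtain ⟨x, hx, hxR⟩ : ∃ x, ⌊σ * x + θ⌋ = (d : ℤ) ∧ |x| ≤ R := by
        by_contra hcon
        push Not at hcon
        refine hd (le_antisymm ((measureReal_mono fun x hx => ?_).trans
          (le_of_eq (support_null G hI))) measureReal_nonneg)
        exact hcon x hx
      have hfull : ∑ e, chw μ b σ θ e = 1 := by
        refine chw_full G hI b σ θ fun y hy => ?_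
        have h2 : |σ * y - σ * x| ≤ m := by
          rw [← mul_sub, abs_mul]
          refine le_trans (mul_le_mul_of_nonneg_left ?_ (abs_nonneg σ)) h1
          linarith [(abs_sub y x).trans (add_le_add hy hxR)]
        have h2' := abs_le.1 h2
        have a1 := Int.floor_le (σ * x + θ)
        have a2 := Int.lt_floor_add_one (σ * x + θ)
        rw [hx] at a1 a2
        push_cast at a1 a2
        have g1 : (m : ℝ) ≤ (d : ℕ) := by exact_mod_cast hgood.1
        have g2 : ((d : ℕ) : ℝ) + m + 1 ≤ b := by exact_mod_cast hgood.2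
        constructor <;> linarith
      have hS1 : S ≤ 1 := by
        rw [← hfull]
        exact sum_le_sum fun e _ => by split_ifs; exacts [le_rfl, chw_nonneg _ _ _ e]
      have hS0 : 0 ≤ S := sum_nonneg fun e _ => by split_ifs; exacts [chw_nonneg _ _ _ e, le_rfl]
      have hJ := js_le_chw G hI b σ θ hfull
      have hc := G.compare_le (σ' := σ0) (σ := σ) (K := 1)
        (abs_pos.1 (lt_of_lt_of_le hσ00 h0)) (by rw [one_mul, abs_of_pos hσ00]; exact h0)
      rw [show (1 : ℝ) + 3 = 4 by norm_num] at hc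
      rcases le_or_gt A 0 with hA0 | hA0
      · exact (mul_nonpos_of_nonpos_of_nonneg hA0 hS0).trans hent
      · exact (mul_le_of_le_one_right hA0.le hS1).trans (by linarith)
    induction n with
    | zero => intro σ θ h0 h1; exact base σ θ h0 (by simpa using h1)
    | succ n ih =>
      intro σ θ h0 h1
      rcases le_or_gt (|σ| * (2 * (R + 1))) (m : ℝ) with hle | hgt
      · exact base σ θ h0 hle
      refine le_trans ?_ (ent_mix G hI b σ θ)
      have e : A * ∑ d : Fin b, (if m ≤ (d : ℕ) ∧ (d : ℕ) + m < b then chw μ b σ θ d else 0) =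
          ∑ i, p i * (A * ∑ d : Fin b, (if m ≤ (d : ℕ) ∧ (d : ℕ) + m < b then
            chw μ b (σ * r i) (σ * t i + θ) d else 0)) := by
        simp only [mul_sum]
        rw [sum_comm]
        refine sum_congr rfl fun d _ => ?_
        by_cases hg : m ≤ (d : ℕ) ∧ (d : ℕ) + m < b
        · simp only [if_pos hg]
          rw [chw, hI _ (measurableSet_floor_eq σ θ _), mul_sum]
          refine sum_congr rfl fun i _ => ?_
          simp only [chw, Set.preimage_ofPred_eq]
          rw [mul_left_comm]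
          congr 4; funext x; congr 2; ring
        · simp [if_neg hg]
      rw [e]
      refine sum_le_sum fun i _ => mul_le_mul_of_nonneg_left (ih _ _ ?_ ?_) (G.pos i).le
      · rw [abs_mul]
        refine le_trans ?_ (mul_le_mul_of_nonneg_left (G.a_le i) (abs_nonneg σ))
        have h' := (div_lt_iff₀ hR1).2 hgt
        have h'' := mul_le_mul_of_nonneg_left h'.le G.a_pos.le
        calc σ0 = a * ((m : ℝ) / (2 * (R + 1))) := mul_div_assoc _ _ _
          _ ≤ _ := by rw [mul_comm |σ|]; exact h''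
      · rw [abs_mul]
        rw [pow_succ] at h1
        have h' := mul_le_mul_of_nonneg_left (G.le_q i)
          (mul_nonneg (mul_nonneg (abs_nonneg σ) hR1.le) (pow_nonneg G.q_pos.le n))
        linarith
  obtain ⟨n, hn⟩ : ∃ n : ℕ, |σ| * (2 * (R + 1)) * q ^ n ≤ m := by
    have h := (tendsto_pow_atTop_nhds_zero_of_lt_one G.q_pos.le G.q_lt).const_mul
      (|σ| * (2 * (R + 1)))
    rw [mul_zero] at h
    exact (h.eventually_le_const (by exact_mod_cast hm)).exists
  exact key n σ θ hσ hn

end

end Vale.Agent.P114
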