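import Vale.Agent.P114.Cells
import Vale.Agent.P114.Meas.Mass
import Mathlib.MeasureTheory.OuterMeasure.BorelCantelli
import Mathlib.Data.Int.GCD
import Mathlib.Analysis.SpecialFunctions.Pow.Real

/-! # The lower bound for the dimension of the invariant measure -/

namespace Vale.Agent.P114

noncomputable section

open scoped Classical ENNReal
open Finset MeasureTheory Filter

variable {ι : Type} [Fintype ι] {p r t : ι → ℝ} {a q T : ℝ} {μ : Measure ℝ}
  [IsProbabilityMeasure μ]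

/-- The cell of level `k` of the grid shifted by `s`. -/
def cell (b : ℕ) (s : ℝ) (k : ℕ) (x : ℝ) : ℤ := ⌊(b : ℝ) ^ k * (x + s)⌋

/-- Whether the digit of `c` lies in the middle of the base `b` range. -/
def mid (b m : ℕ) (c : ℤ) : ℕ := if (m : ℤ) ≤ c % b ∧ c % b + m < b then 1 else 0

/-- The number of middle digits of `c` among the last `K`. -/
def cnt (b m K : ℕ) (c : ℤ) : ℕ := ∑ i ∈ range K, mid b m (c / (b : ℤ) ^ i)

theorem cnt_succ (b m K : ℕ) (hb : 0 < b) (c : ℤ) :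
    cnt b m (K + 1) c = cnt b m K (c / b) + mid b m c := by
  rw [cnt, sum_range_succ', cnt, pow_zero, Int.ediv_one]
  congr 1
  refine sum_congr rfl fun i _ => ?_
  rw [Int.ediv_ediv_of_nonneg (by exact_mod_cast hb.le), ← pow_succ']

theorem cell_div (b : ℕ) (hb : 0 < b) (s : ℝ) (k : ℕ) (x : ℝ) :
    cell b s (k + 1) x / (b : ℤ) = cell b s k x := by
  rw [cell, cell, ← Int.floor_div_natCast]
  congr 1
  have : (b : ℝ) ≠ 0 := by positivity
  field_simp; ring

theorem cell_div_pow (b : ℕ) (hb : 0 < b) (s : ℝ) (x : ℝ) : ∀ (i k : ℕ),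
    cell b s (k + i) x / (b : ℤ) ^ i = cell b s k x
  | 0, k => by simp
  | i + 1, k => by
    rw [pow_succ', ← Int.ediv_ediv_of_nonneg (by exact_mod_cast hb.le), ← add_assoc,
      cell_div b hb, cell_div_pow b hb s x i k]

/-- The mass of a cell. -/
def cellMass (μ : Measure ℝ) (b : ℕ) (s : ℝ) (k : ℕ) (c : ℤ) : ℝ :=
  μ.real {x : ℝ | cell b s k x = c}

omit [IsProbabilityMeasure μ] in
theorem cellMass_nonneg (b : ℕ) (s : ℝ) (k : ℕ) (c : ℤ) : 0 ≤ cellMass μ b s k c :=
  measureReal_nonneg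

theorem cellMass_child (b : ℕ) (s : ℝ) (k : ℕ) (c : ℤ) (d : Fin b) :
    cellMass μ b s (k + 1) ((b : ℤ) * c + (d : ℕ)) =
      chw μ b ((b : ℝ) ^ (k + 1)) ((b : ℝ) ^ (k + 1) * s - ((b : ℤ) * c : ℤ)) d := by
  simp only [cellMass, chw, cell]
  congr 2
  funext x
  rw [show (b : ℝ) ^ (k + 1) * x + ((b : ℝ) ^ (k + 1) * s - ((b : ℤ) * c : ℤ)) =
    (b : ℝ) ^ (k + 1) * (x + s) - ((b : ℤ) * c : ℤ) by ring, Int.floor_sub_intCast]
  simp only [eq_iff_iff]
  constructor <;> intro h <;> omega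

theorem sum_children (b : ℕ) (hb : 0 < b) (s : ℝ) (k : ℕ) (c : ℤ) :
    ∑ d, chw μ b ((b : ℝ) ^ (k + 1)) ((b : ℝ) ^ (k + 1) * s - ((b : ℤ) * c : ℤ)) d =
      cellMass μ b s k c := by
  rw [sum_chw, cellMass]
  congr 1
  ext x
  simp only [Set.mem_ofPred_eq]
  rw [show (b : ℝ) ^ (k + 1) * x + ((b : ℝ) ^ (k + 1) * s - ((b : ℤ) * c : ℤ)) =
    (b : ℝ) ^ (k + 1) * (x + s) - ((b : ℤ) * c : ℤ) by ring, Int.floor_sub_intCast,
    ← cell_div b hb s k x]
  change _ ↔ cell b s (k + 1) x / (b : ℤ) = c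
  have hb' : (0 : ℤ) < b := by exact_mod_cast hb
  have h1 := Int.mul_ediv_add_emod (cell b s (k + 1) x) (b : ℤ)
  have h2 := Int.emod_lt_of_pos (cell b s (k + 1) x) hb'
  have h3 := Int.emod_nonneg (cell b s (k + 1) x) hb'.ne'
  change 0 ≤ cell b s (k + 1) x - _ ∧ cell b s (k + 1) x - _ < (b : ℤ) ↔ _
  constructor
  · rintro ⟨a1, a2⟩
    by_contra hne
    rcases lt_or_gt_of_ne hne with hlt | hgt
    · have := mul_le_mul_of_nonneg_left (Int.add_one_le_iff.2 hlt) hb'.le
      rw [mul_add] at this; linarith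
    · have := mul_le_mul_of_nonneg_left (Int.add_one_le_iff.2 hgt) hb'.le
      rw [mul_add] at this; linarith
  · intro h
    rw [h] at h1
    constructor <;> linarith

theorem exp_le_quad {y : ℝ} (h : y ≤ 1) : Real.exp y ≤ 1 + y + y ^ 2 := by
  rcases le_or_gt (-1) y with h1 | h1
  · have := abs_le.1 (Real.abs_exp_sub_one_sub_id_le (abs_le.2 ⟨h1, h⟩))
    linarith [this.2]
  · have := Real.exp_le_one_iff.2 (by linarith : y ≤ 0)
    nlinarith

theorem log_sq_le {x : ℝ} (h0 : 0 ≤ x) (h1 : x ≤ 1) : x * Real.log x ^ 2 ≤ 4 := by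
  rcases eq_or_lt_of_le h0 with rfl | hx
  · simp
  have hs := Real.sqrt_pos.2 hx
  have h2 := Real.log_le_sub_one_of_pos (inv_pos.2 hs)
  rw [Real.log_inv, Real.log_sqrt h0] at h2
  have h3 : Real.log x ≤ 0 := Real.log_nonpos h0 h1
  have h4 : 0 ≤ (√x)⁻¹ := by positivity
  have h5 : Real.log x ^ 2 ≤ (2 * (√x)⁻¹) ^ 2 := by
    rw [← neg_sq]; exact pow_le_pow_left₀ (by linarith) (by linarith) 2
  calc x * Real.log x ^ 2 ≤ x * (2 * (√x)⁻¹) ^ 2 := mul_le_mul_of_nonneg_left h5 h0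
    _ = 4 := by rw [mul_pow, inv_pow, Real.sq_sqrt h0]; field_simp; norm_num

/-- One step of the exponential moment bound. -/
theorem moment_step {β : Type*} [Fintype β] (w : β → ℝ) (hw : 0 ≤ w) (g : β → ℝ)
    (hg0 : ∀ d, 0 ≤ g d) (hg1 : ∀ d, g d ≤ 1) {A s : ℝ} (hA : 0 ≤ A) (hs : 0 < s)
    (hs1 : s * A ≤ 1) (hent : A * ∑ d, w d * g d ≤ ent w id) :
    ∑ d, (w d) ^ (1 + s) * Real.exp (s * A * g d) ≤
      (∑ d, w d) ^ (1 + s) * Real.exp (s ^ 2 * (8 * Fintype.card β + 2 * A ^ 2)) := by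
  set S := ∑ d, w d
  rcases eq_or_lt_of_le (sum_nonneg fun d (_ : d ∈ univ) => hw d : 0 ≤ S) with hS | hS
  · have : ∀ d, w d = 0 := fun d =>
      (sum_eq_zero_iff_of_nonneg fun d _ => hw d).1 hS.symm d (mem_univ d)
    simp only [this, Real.zero_rpow (by linarith : (1 + s : ℝ) ≠ 0), zero_mul, sum_const_zero]
    positivity
  let ρ : β → ℝ := fun d => w d / S
  have hρ : ∀ d, 0 ≤ ρ d := fun d => div_nonneg (hw d) hS.le
  have hρ1 : ∀ d, ρ d ≤ 1 := fun d =>
    (div_le_one hS).2 (single_le_sum (fun e _ => hw e) (mem_univ d))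
  have hsum : ∑ d, ρ d = 1 := by simp only [ρ, ← sum_div]; exact div_self hS.ne'
  let y : β → ℝ := fun d => s * (Real.log (ρ d) + A * g d)
  have hterm : ∀ d, (w d) ^ (1 + s) * Real.exp (s * A * g d) ≤
      S ^ (1 + s) * (ρ d + ρ d * y d + ρ d * y d ^ 2) := by
    intro d
    rcases eq_or_lt_of_le (hw d) with h | h
    · simp only [Pi.zero_apply] at h
      simp [← h, ρ, Real.zero_rpow (by linarith : (1 + s : ℝ) ≠ 0)]
    have hρd : 0 < ρ d := div_pos h hS
    have hy : y d ≤ 1 := by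
      have := Real.log_nonpos (hρ d) (hρ1 d)
      have := mul_le_mul_of_nonneg_left (hg1 d) (mul_nonneg hs.le hA)
      simp only [y]; nlinarith
    have e : (w d) ^ (1 + s) * Real.exp (s * A * g d) = S ^ (1 + s) * (ρ d * Real.exp (y d)) := by
      rw [show w d = S * ρ d from (mul_div_cancel₀ _ hS.ne').symm, Real.mul_rpow hS.le (hρ d), mul_assoc]
      congr 1
      rw [Real.rpow_def_of_pos hρd]
      conv_rhs => rw [← Real.exp_log hρd]
      rw [← Real.exp_add, ← Real.exp_add]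
      congr 1
      simp only [y, Real.log_exp]; ring
    rw [e]
    refine mul_le_mul_of_nonneg_left ?_ (by positivity)
    have := mul_le_mul_of_nonneg_left (exp_le_quad hy) hρd.le
    linarith
  refine (sum_le_sum fun d _ => hterm d).trans ?_
  rw [← mul_sum]
  refine mul_le_mul_of_nonneg_left ?_ (by positivity)
  have hentw : ent w id = S * ∑ d, ρ d * -Real.log (ρ d) := by
    simp only [ent, cent, mul_sum, mass_unit]
    refine sum_congr rfl fun d _ => ?_
    have e : mass w (fun v => (id v, ())) (id d, ()) = w d := by simp [mass]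
    rw [e]
    rcases eq_or_lt_of_le (hw d) with h | h
    · simp only [Pi.zero_apply] at h; simp [ρ, ← h]
    · simp only [ρ]; rw [Real.log_div h.ne' hS.ne', ← mul_assoc, mul_div_cancel₀ _ hS.ne']; ring
  have hlin : ∑ d, ρ d * y d ≤ 0 := by
    have e1 : S * ∑ d, ρ d * y d = s * (-(S * ∑ d, ρ d * -Real.log (ρ d)) + A * ∑ d, w d * g d) := by
      simp only [mul_sum, ← sum_neg_distrib, ← sum_add_distrib]
      refine sum_congr rfl fun d _ => ?_
      have hSr : S * ρ d = w d := mul_div_cancel₀ _ hS.ne'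
      simp only [y]; linear_combination (s * A * g d) * hSr
    have : S * ∑ d, ρ d * y d ≤ 0 := by
      rw [e1, ← hentw]; exact mul_nonpos_of_nonneg_of_nonpos hs.le (by linarith)
    by_contra hc; push Not at hc
    nlinarith
  have hquad : ∑ d, ρ d * y d ^ 2 ≤ s ^ 2 * (8 * Fintype.card β + 2 * A ^ 2) := by
    have h1 : ∀ d, ρ d * y d ^ 2 ≤ s ^ 2 * (8 + 2 * A ^ 2 * ρ d) := by
      intro d
      have hl := log_sq_le (hρ d) (hρ1 d)
      have hga : (A * g d) ^ 2 ≤ A ^ 2 := by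
        rw [mul_pow]
        exact mul_le_of_le_one_right (sq_nonneg A) (pow_le_one₀ (hg0 d) (hg1 d))
      have h2 : (Real.log (ρ d) + A * g d) ^ 2 ≤ 2 * Real.log (ρ d) ^ 2 + 2 * A ^ 2 := by
        nlinarith [sq_nonneg (Real.log (ρ d) - A * g d)]
      have h3 := mul_le_mul_of_nonneg_left h2 (hρ d)
      simp only [y, mul_pow]
      rw [mul_left_comm]
      exact mul_le_mul_of_nonneg_left (by linarith) (sq_nonneg s)
    refine (sum_le_sum fun d _ => h1 d).trans (le_of_eq ?_)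
    rw [← mul_sum, sum_add_distrib, ← mul_sum, hsum, sum_const, card_univ, nsmul_eq_mul]
    ring
  rw [sum_add_distrib, sum_add_distrib, hsum]
  linarith [Real.add_one_le_exp (s ^ 2 * (8 * (Fintype.card β : ℝ) + 2 * A ^ 2))]

/-- The cells of level `K` which can be charged. -/
def cells (R : ℝ) (b : ℕ) : ℕ → Finset ℤ
  | 0 => Finset.Icc ⌊-R⌋ ⌊R + 1⌋
  | K + 1 => ((cells R b K) ×ˢ (univ : Finset (Fin b))).image fun x => (b : ℤ) * x.1 + (x.2 : ℕ)

theorem mem_cells {R : ℝ} {b : ℕ} (hb : 0 < b) {s : ℝ} (hs0 : 0 ≤ s) (hs1 : s ≤ 1) {x : ℝ}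
    (hx : |x| ≤ R) : ∀ K, cell b s K x ∈ cells R b K
  | 0 => by
    have := abs_le.1 hx
    simp only [cells, cell, pow_zero, one_mul, mem_Icc]
    exact ⟨Int.floor_le_floor (by linarith), Int.floor_le_floor (by linarith)⟩
  | K + 1 => by
    have hb' : (0 : ℤ) < b := by exact_mod_cast hb
    refine mem_image.2 ⟨(cell b s K x, ⟨(cell b s (K + 1) x % b).toNat, ?_⟩), ?_, ?_⟩
    · have := Int.emod_lt_of_pos (cell b s (K + 1) x) hb'
      omega
    · exact mem_product.2 ⟨mem_cells hb hs0 hs1 hx K, mem_univ _⟩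
    · simp only
      rw [Int.toNat_of_nonneg (Int.emod_nonneg _ hb'.ne'), ← cell_div b hb s K x]
      exact Int.mul_ediv_add_emod _ _

theorem mid_child (b m : ℕ) (c : ℤ) (d : Fin b) :
    mid b m ((b : ℤ) * c + (d : ℕ)) = if m ≤ (d : ℕ) ∧ (d : ℕ) + m < b then 1 else 0 := by
  have e : ((b : ℤ) * c + (d : ℕ)) % (b : ℤ) = (d : ℕ) := by
    rw [Int.mul_add_emod_self_left]
    exact Int.emod_eq_of_lt (by positivity) (by exact_mod_cast d.isLt)
  simp only [mid, e]
  congr 1
  simp only [eq_iff_iff]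
  constructor <;> intro h <;> omega

/-- The exponential moment of level `K`. -/
theorem moment_bound (b m : ℕ) (hb : 0 < b) (s θ A : ℝ) (hA : 0 ≤ A) (hθ : 0 < θ)
    (hθA : θ * A ≤ 1) (R : ℝ)
    (hgood : ∀ σ θ' : ℝ, (b : ℝ) ≤ |σ| →
      A * ∑ d : Fin b, (if m ≤ (d : ℕ) ∧ (d : ℕ) + m < b then chw μ b σ θ' d else 0) ≤
        ent (chw μ b σ θ') id) : ∀ K : ℕ,
    ∑ c ∈ cells R b K, cellMass μ b s K c ^ (1 + θ) * Real.exp (θ * A * cnt b m K c) ≤
      Real.exp (θ ^ 2 * (8 * b + 2 * A ^ 2)) ^ K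
  | 0 => by
    simp only [cnt, range_zero, sum_empty, Nat.cast_zero, mul_zero, Real.exp_zero, mul_one, pow_zero]
    refine (sum_le_sum fun c _ => ?_).trans ?_ (b := ∑ c ∈ cells R b 0, cellMass μ b s 0 c)
    · exact Real.rpow_le_self_of_le_one measureReal_nonneg measureReal_le_one (by linarith)
    · simp only [cellMass]
      rw [← measureReal_biUnion_finset]
      · exact measureReal_le_one
      · intro c _ c' _ hcc
        refine Set.disjoint_left.2 fun x hx hx' => hcc ?_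
        simp only [Set.mem_ofPred_eq] at hx hx'
        rw [← hx, hx']
      · intro c _
        exact (Int.measurable_floor.comp (by fun_prop)) (measurableSet_singleton c)
  | K + 1 => by
    rw [pow_succ]
    have hinj : ∀ x ∈ (cells R b K) ×ˢ (univ : Finset (Fin b)), ∀ y ∈ (cells R b K) ×ˢ (univ : Finset (Fin b)),
        (b : ℤ) * x.1 + (x.2 : ℕ) = (b : ℤ) * y.1 + (y.2 : ℕ) → x = y := by
      rintro ⟨c, d⟩ _ ⟨c', d'⟩ _ h
      have h1 : (((b : ℤ) * c + (d : ℕ)) % (b : ℤ)) = (((b : ℤ) * c' + (d' : ℕ)) % (b : ℤ)) :=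
        congrArg (· % (b : ℤ)) h
      simp only [Int.mul_add_emod_self_left] at h1
      rw [Int.emod_eq_of_lt (by positivity) (by exact_mod_cast d.isLt),
        Int.emod_eq_of_lt (by positivity) (by exact_mod_cast d'.isLt)] at h1
      have hd : d = d' := Fin.ext (by exact_mod_cast h1)
      subst hd
      have hc : c = c' := by
        have := add_right_cancel h
        exact mul_left_cancel₀ (by exact_mod_cast hb.ne') this
      rw [hc]
    simp only [cells]
    rw [sum_image hinj, sum_product]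
    refine le_trans ?_ (mul_le_mul_of_nonneg_right (moment_bound b m hb s θ A hA hθ hθA R hgood K)
      (Real.exp_nonneg _))
    rw [sum_mul]
    refine sum_le_sum fun c _ => ?_
    set σ := (b : ℝ) ^ (K + 1)
    set θ' := (b : ℝ) ^ (K + 1) * s - (((b : ℤ) * c : ℤ) : ℝ)
    set g : Fin b → ℝ := fun d => if m ≤ (d : ℕ) ∧ (d : ℕ) + m < b then 1 else 0
    have hbσ : (b : ℝ) ≤ |σ| := by
      rw [abs_of_nonneg (by positivity)]
      exact le_self_pow₀ (by exact_mod_cast hb) (by omega)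
    have hent : A * ∑ d, chw μ b σ θ' d * g d ≤ ent (chw μ b σ θ') id := by
      refine le_trans (le_of_eq ?_) (hgood σ θ' hbσ)
      congr 1
      exact sum_congr rfl fun d _ => by simp [g]
    have h := moment_step (chw μ b σ θ') (chw_nonneg _ _ _) g
      (fun d => by simp only [g]; split_ifs <;> norm_num)
      (fun d => by simp only [g]; split_ifs <;> norm_num) hA hθ hθA hent
    rw [sum_children b hb s K c, Fintype.card_fin] at h
    have e : ∀ d : Fin b, cellMass μ b s (K + 1) ((b : ℤ) * c + (d : ℕ)) ^ (1 + θ) *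
        Real.exp (θ * A * cnt b m (K + 1) ((b : ℤ) * c + (d : ℕ))) =
        chw μ b σ θ' d ^ (1 + θ) * Real.exp (θ * A * g d) * Real.exp (θ * A * cnt b m K c) := by
      intro d
      rw [cellMass_child, cnt_succ b m K hb, mid_child, mul_assoc (_ ^ (1 + θ)), ← Real.exp_add]
      have hdiv : ((b : ℤ) * c + (d : ℕ)) / (b : ℤ) = c := by
        rw [Int.mul_add_ediv_left _ _ (by exact_mod_cast hb.ne'),
          Int.ediv_eq_zero_of_lt (by positivity) (by exact_mod_cast d.isLt), add_zero]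
      rw [hdiv]
      congr 2
      simp only [g]
      push_cast
      split_ifs <;> ring
    simp only [e, ← sum_mul]
    have := mul_le_mul_of_nonneg_right h (Real.exp_nonneg (θ * A * cnt b m K c))
    linarith

/-- Shifts of the grid by multiples of `1 / S` cannot all be bad. -/
theorem exists_good_shift (S m : ℕ) (hS : 2 ≤ S) (hm : S ≤ m) (hmS : m % S = 1) (K : ℕ) (x : ℝ) :
    ∃ j : Fin S, ((1 - 1 / (S : ℝ)) * K) ≤
      (cnt ((2 * S + 1) * m) m K (cell ((2 * S + 1) * m) ((j : ℕ) / (S : ℝ)) K x) : ℝ) := by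
  set b := (2 * S + 1) * m with hbdef
  have hb : 0 < b := Nat.mul_pos (by omega) (by omega)
  have hbS : b % S = 1 := by
    rw [hbdef, Nat.mul_mod, hmS, show (2 * S + 1) % S = 1 % S by
      rw [Nat.add_mod, Nat.mul_mod_left, zero_add, Nat.mod_mod]]
    simp [Nat.one_mod_eq_one.2 (show S ≠ 1 by omega)]
  set bad : Fin S → ℕ → ℕ := fun j i =>
    1 - mid b m (cell b ((j : ℕ) / (S : ℝ)) (i + 1) x)
  have hone : ∀ i, ∀ j j' : Fin S, (j : ℕ) < j' → bad j i = 1 → bad j' i = 1 → False := by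
    intro i j j' hjj hj hj'
    obtain ⟨u, hu⟩ : ∃ u, b ^ i = S * u + 1 := ⟨b ^ i / S, by
      have h := Nat.div_add_mod (b ^ i) S
      rw [Nat.pow_mod, hbS, one_pow, Nat.one_mod_eq_one.2 (show S ≠ 1 by omega)] at h
      omega⟩
    have hcell : ∀ n : Fin S, cell b ((n : ℕ) / (S : ℝ)) (i + 1) x =
        ⌊(b : ℝ) ^ (i + 1) * x + (b : ℝ) * (n : ℕ) / S⌋ + (b : ℤ) * ((u : ℤ) * (n : ℕ)) := by
      intro n
      rw [cell, ← Int.floor_add_intCast]
      congr 1
      have hu' : (b : ℝ) ^ i = (S : ℝ) * u + 1 := by exact_mod_cast hu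
      have : (S : ℝ) ≠ 0 := by positivity
      rw [pow_succ, hu']
      push_cast
      field_simp; ring
    have hbad : ∀ n : Fin S, bad n i = 1 →
        ∃ v : ℤ, (b : ℤ) * v - m ≤ ⌊(b : ℝ) ^ (i + 1) * x + (b : ℝ) * (n : ℕ) / S⌋ ∧
          ⌊(b : ℝ) ^ (i + 1) * x + (b : ℝ) * (n : ℕ) / S⌋ < (b : ℤ) * v + m := by
      intro n hn
      simp only [bad, hcell] at hn
      set e := ⌊(b : ℝ) ^ (i + 1) * x + (b : ℝ) * (n : ℕ) / S⌋
      have hmid : ¬((m : ℤ) ≤ e % b ∧ e % b + m < b) := by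
        intro hh
        simp only [mid, Int.add_mul_emod_self_left] at hn
        rw [if_pos hh] at hn
        omega
      have h1 := Int.mul_ediv_add_emod e (b : ℤ)
      have h2 := Int.emod_lt_of_pos e (show (0 : ℤ) < b by exact_mod_cast hb)
      have h3 := Int.emod_nonneg e (show (b : ℤ) ≠ 0 by exact_mod_cast hb.ne')
      by_cases hlow : e % b < m
      · exact ⟨e / b, by linarith, by linarith⟩
      · refine ⟨e / b + 1, ?_, ?_⟩ <;> rw [mul_add, mul_one] <;> omega
    obtain ⟨v, hv1, hv2⟩ := hbad j hj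
    obtain ⟨v', hv1', hv2'⟩ := hbad j' hj'
    set e := ⌊(b : ℝ) ^ (i + 1) * x + (b : ℝ) * (j : ℕ) / S⌋
    set e' := ⌊(b : ℝ) ^ (i + 1) * x + (b : ℝ) * (j' : ℕ) / S⌋
    have hS0 : (0 : ℝ) < S := by exact_mod_cast (by omega : 0 < S)
    have hjr : (1 : ℝ) ≤ ((j' : ℕ) : ℝ) - (j : ℕ) := by
      have : ((j : ℕ) : ℝ) + 1 ≤ (j' : ℕ) := by exact_mod_cast hjj
      linarith
    have hjr' : ((j' : ℕ) : ℝ) - (j : ℕ) ≤ S - 1 := by
      have : ((j' : ℕ) : ℝ) + 1 ≤ S := by exact_mod_cast j'.isLt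
      linarith [(Nat.cast_nonneg (j : ℕ) : (0 : ℝ) ≤ _)]
    set δ := (b : ℝ) * (((j' : ℕ) : ℝ) - (j : ℕ)) / S
    have hmr : (S : ℝ) ≤ m := by exact_mod_cast hm
    have hbr : (b : ℝ) = (2 * S + 1) * m := by rw [hbdef]; push_cast; ring
    have hδ1 : 2 * (m : ℝ) + 1 ≤ δ := by
      rw [le_div_iff₀ hS0]
      have := mul_le_mul_of_nonneg_left hjr (Nat.cast_nonneg b)
      nlinarith
    have hδ2 : δ ≤ (b : ℝ) - 2 * m - 1 := by
      rw [div_le_iff₀ hS0]
      have := mul_le_mul_of_nonneg_left hjr' (Nat.cast_nonneg b)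
      nlinarith
    have a1 := Int.floor_le ((b : ℝ) ^ (i + 1) * x + (b : ℝ) * (j : ℕ) / S)
    have a2 := Int.lt_floor_add_one ((b : ℝ) ^ (i + 1) * x + (b : ℝ) * (j : ℕ) / S)
    have a3 := Int.floor_le ((b : ℝ) ^ (i + 1) * x + (b : ℝ) * (j' : ℕ) / S)
    have a4 := Int.lt_floor_add_one ((b : ℝ) ^ (i + 1) * x + (b : ℝ) * (j' : ℕ) / S)
    have hed : δ = (b : ℝ) * (j' : ℕ) / S - (b : ℝ) * (j : ℕ) / S := by
      simp only [δ]; ring
    have d1 : (2 * (m : ℤ)) < e' - e + 0 := by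
      rw [← Int.cast_lt (R := ℝ)]; push_cast; linarith
    have d2 : e' - e < (b : ℤ) - 2 * m := by
      rw [← Int.cast_lt (R := ℝ)]; push_cast; linarith
    rcases lt_trichotomy v v' with hvv | hvv | hvv
    · have := mul_le_mul_of_nonneg_left (Int.add_one_le_iff.2 hvv) (Int.natCast_nonneg b)
      rw [mul_add, mul_one] at this
      omega
    · subst hvv; omega
    · have := mul_le_mul_of_nonneg_left hvv.le (Int.natCast_nonneg b)
      omega
  have hsum : ∀ i, ∑ j, bad j i ≤ 1 := by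
    intro i
    by_contra hgt
    push Not at hgt
    have hle : ∀ j, bad j i ≤ 1 := fun j => Nat.sub_le 1 _
    have hcard : 1 < (univ.filter fun j => bad j i = 1).card := by
      refine lt_of_lt_of_le hgt (le_of_eq ?_)
      rw [card_filter]
      exact sum_congr rfl fun j _ => by have := hle j; split_ifs <;> omega
    obtain ⟨j, hj, j', hj', hne⟩ := one_lt_card.1 hcard
    simp only [mem_filter, mem_univ, true_and] at hj hj'
    rcases lt_or_gt_of_ne (fun h => hne (Fin.ext h) : (j : ℕ) ≠ j') with h | h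
    · exact hone i j j' h hj hj'
    · exact hone i j' j h hj' hj
  have hcnt : ∀ j : Fin S, cnt b m K (cell b ((j : ℕ) / (S : ℝ)) K x) + ∑ i ∈ range K, bad j i = K := by
    intro j
    rw [cnt, ← sum_range_reflect, ← sum_add_distrib]
    refine (sum_congr rfl fun i hi => ?_).trans (by simp : ∑ _i ∈ range K, 1 = K)
    have hi' := mem_range.1 hi
    have e : cell b ((j : ℕ) / (S : ℝ)) K x / (b : ℤ) ^ (K - 1 - i) =
        cell b ((j : ℕ) / (S : ℝ)) (i + 1) x := by
      have h := cell_div_pow b hb ((j : ℕ) / (S : ℝ)) x (K - 1 - i) (i + 1)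
      rwa [show i + 1 + (K - 1 - i) = K by omega] at h
    rw [e]
    simp only [bad]
    have : mid b m (cell b ((j : ℕ) / (S : ℝ)) (i + 1) x) ≤ 1 := by
      unfold mid; split_ifs <;> norm_num
    omega
  have htot : ∑ j : Fin S, ∑ i ∈ range K, bad j i ≤ K := by
    rw [sum_comm]
    exact (sum_le_sum fun i _ => hsum i).trans (by simp)
  have : Nonempty (Fin S) := ⟨⟨0, by omega⟩⟩
  obtain ⟨j, -, hj⟩ := exists_le_of_sum_le (s := (univ : Finset (Fin S)))
    (f := fun j => ((∑ i ∈ range K, bad j i : ℕ) : ℝ)) (g := fun _ => (K : ℝ) / S) univ_nonempty (by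
      rw [sum_const, card_univ, Fintype.card_fin, nsmul_eq_mul, mul_div_cancel₀ _ (by positivity)]
      exact_mod_cast htot)
  refine ⟨j, ?_⟩
  have h := hcnt j
  have : ((cnt b m K (cell b ((j : ℕ) / (S : ℝ)) K x) : ℕ) : ℝ) =
      (K : ℝ) - ((∑ i ∈ range K, bad j i : ℕ) : ℝ) := by
    rw [eq_sub_iff_add_eq]; exact_mod_cast h
  rw [this, sub_mul, one_mul, div_mul_eq_mul_div, one_mul]
  linarith

/-- Sets of positive measure have dimension at least the entropy dimension. -/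
theorem le_dimH_of_low (G : Good p r t a q T) (hI : Inv p r t μ) {D : ℝ}
    (hlow : Low p r t q D) {E : Set ℝ} (hEm : MeasurableSet E) (hE : μ E ≠ 0) :
    ENNReal.ofReal D ≤ dimH E := by
  refine le_of_forall_lt fun d hd => ?_
  obtain ⟨d', hdd', hd'D⟩ := ENNReal.lt_iff_exists_nnreal_btwn.1 hd
  refine lt_of_lt_of_le hdd' ?_
  rw [ENNReal.coe_nnreal_eq]
  set δ : ℝ := (d' : ℝ) with hδdef
  have hδD : δ < D := (ENNReal.ofReal_lt_ofReal_iff_of_nonneg d'.2).1 (by
    rwa [ENNReal.coe_nnreal_eq] at hd'D)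
  rcases eq_or_lt_of_le (show (0 : ℝ) ≤ δ from d'.2) with h0 | h0
  · rw [← h0, ENNReal.ofReal_zero]; exact zero_le
  set ε := (D - δ) / 8 with hε
  have hε0 : 0 < ε := by rw [hε]; linarith
  have hD0 : 0 < D := lt_trans h0 hδD
  -- the number of shifts
  obtain ⟨S, hS2, hSε⟩ : ∃ S : ℕ, 2 ≤ S ∧ D / S ≤ ε := by
    refine ⟨max 2 ⌈D / ε⌉₊, le_max_left _ _, ?_⟩
    rw [div_le_iff₀ (by positivity), ← div_le_iff₀' hε0]
    exact (Nat.le_ceil _).trans (by exact_mod_cast le_max_right 2 ⌈D / ε⌉₊)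
  set B := 2 * S + 1
  have hlB : 0 < Real.log B := Real.log_pos (by exact_mod_cast (by omega : 1 < B))
  obtain ⟨C1, hC1⟩ := hlow ε hε0
  set R := radius q T
  have hR : 0 ≤ R := G.radius_nonneg
  set C2 := C1 + |Real.log (a / (2 * (R + 1)))| * D + Real.log (2 * ((⌈R⌉₊ : ℝ) + 1) + 1) +
    3 * Good.c0 q T + Real.log 4 + D * Real.log B
  obtain ⟨l, hl⟩ := exists_nat_ge (max (max (C2 / (ε * Real.log B))
    (|Real.log (a / (2 * (R + 1)))| / Real.log B)) 1)
  set m := B ^ l
  set b := B * m with hbdef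
  have hBpos : 0 < B := Nat.succ_pos _
  have hm0 : 0 < m := Nat.pow_pos hBpos
  have hb0 : 0 < b := Nat.mul_pos hBpos hm0
  have hl1 : (1 : ℝ) ≤ l := (le_max_right _ _).trans hl
  have hl2 : C2 ≤ ε * Real.log B * l := by
    have := ((le_max_left _ _).trans (le_max_left _ _)).trans hl
    rw [div_le_iff₀ (by positivity)] at this; linarith
  have hl3 : |Real.log (a / (2 * (R + 1)))| ≤ Real.log B * l := by
    have := ((le_max_right _ _).trans (le_max_left _ _)).trans hl
    rw [div_le_iff₀ hlB] at this; linarith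
  set σ0 := a * m / (2 * (R + 1))
  have hlm : Real.log σ0 = Real.log (a / (2 * (R + 1))) + Real.log B * l := by
    rw [show σ0 = a / (2 * (R + 1)) * (m : ℝ) by simp only [σ0]; ring,
      Real.log_mul (div_pos G.a_pos (by linarith)).ne' (by exact_mod_cast hm0.ne')]
    simp only [m]; push_cast; rw [Real.log_pow]; ring
  have hσ0 : 1 ≤ σ0 := by
    have hpos : 0 < σ0 := div_pos (mul_pos G.a_pos (by exact_mod_cast hm0)) (by linarith)
    rw [← Real.log_nonneg_iff hpos, hlm]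
    linarith [neg_abs_le (Real.log (a / (2 * (R + 1))))]
  have hlb : Real.log b = Real.log B * (l + 1) := by
    rw [hbdef, Nat.cast_mul, Real.log_mul (by exact_mod_cast hBpos.ne') (by exact_mod_cast hm0.ne')]
    simp only [m]; push_cast; rw [Real.log_pow]; ring
  set A := (D - 2 * ε) * Real.log b with hAdef
  have hD2 : 0 < D - 2 * ε := by rw [hε]; linarith
  have hlbpos : 0 < Real.log b := by rw [hlb]; positivity
  have hA0 : 0 ≤ A := mul_nonneg hD2.le hlbpos.le
  have hA : A + Real.log (2 * ((⌈R⌉₊ : ℝ) + 1) + 1) + 3 * Good.c0 q T + Real.log 4 ≤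
      js p r t q σ0 := by
    have h := hC1 σ0 hσ0
    rw [hlm] at h
    rw [hAdef, hlb]
    have a1 : (D - ε) * |Real.log (a / (2 * (R + 1)))| ≤ |Real.log (a / (2 * (R + 1)))| * D := by
      rw [mul_comm |_| D]; exact mul_le_mul_of_nonneg_right (by linarith) (abs_nonneg _)
    have a2 := mul_le_mul_of_nonneg_left (neg_abs_le (Real.log (a / (2 * (R + 1)))))
      (show (0 : ℝ) ≤ D - ε by linarith)
    have a3 : 0 ≤ ε * Real.log B := by positivity
    simp only [C2] at hl2
    linarith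
  have hbR : a * m / (2 * (R + 1)) ≤ b := by
    rw [div_le_iff₀ (by linarith)]
    have h1 : a ≤ 1 := by
      obtain ⟨i⟩ := G.nonempty
      exact (G.a_le i).trans ((G.le_q i).trans G.q_lt.le)
    have h2 : (m : ℝ) ≤ b := by exact_mod_cast Nat.le_mul_of_pos_left m hBpos
    have h3 : (0 : ℝ) ≤ m := Nat.cast_nonneg m
    nlinarith
  have hgood : ∀ σ θ' : ℝ, (b : ℝ) ≤ |σ| →
      A * ∑ d : Fin b, (if m ≤ (d : ℕ) ∧ (d : ℕ) + m < b then chw μ b σ θ' d else 0) ≤
        ent (chw μ b σ θ') id :=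
    fun σ θ' hσ => good_entropy G hI b m hA hm0 σ θ' (hbR.trans hσ)
  set γ := A * (1 - 1 / (S : ℝ)) - ε * Real.log b with hγdef
  set C := 8 * (b : ℝ) + 2 * A ^ 2
  have hC : 0 < C := by positivity
  set θ := min (1 / (A + 1)) (ε * Real.log b / (2 * C))
  have hθ : 0 < θ := lt_min (by positivity) (by positivity)
  have hθA : θ * A ≤ 1 := by
    refine (mul_le_mul_of_nonneg_right (min_le_left _ _) hA0).trans ?_
    rw [div_mul_eq_mul_div, one_mul, div_le_one (by positivity)]; linarith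
  have hθC : θ ^ 2 * C - θ * (ε * Real.log b) ≤ -(θ * (ε * Real.log b) / 2) := by
    have h := min_le_right (1 / (A + 1)) (ε * Real.log b / (2 * C))
    rw [le_div_iff₀ (by positivity)] at h
    have := mul_le_mul_of_nonneg_left h hθ.le
    linarith
  have hSr : (2 : ℝ) ≤ S := by exact_mod_cast hS2
  have hδγ : δ * Real.log b ≤ γ := by
    rw [hγdef, hAdef]
    have h1 : (D - 2 * ε) * (1 / (S : ℝ)) ≤ ε := by
      refine le_trans ?_ hSε
      rw [mul_one_div]; exact div_le_div_of_nonneg_right (by linarith) (by linarith)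
    have h2 : δ ≤ (D - 2 * ε) - ε - ε := by rw [hε]; linarith
    have h3 := mul_le_mul_of_nonneg_right
      (show δ ≤ (D - 2 * ε) * (1 - 1 / (S : ℝ)) - ε by linarith) hlbpos.le
    linarith
  -- the exceptional sets
  set Bad : ℕ → Set ℝ := fun K => ⋃ j : Fin S, ⋃ c ∈ (cells R b K).filter (fun c =>
    Real.exp (-(γ * K)) < cellMass μ b ((j : ℕ) / (S : ℝ)) K c ∧
      (1 - 1 / (S : ℝ)) * K ≤ (cnt b m K c : ℝ)),
    {x | cell b ((j : ℕ) / (S : ℝ)) K x = c}
  have hmeas : ∀ (j : Fin S) K c, MeasurableSet {x : ℝ | cell b ((j : ℕ) / (S : ℝ)) K x = c} :=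
    fun j K c => (Int.measurable_floor.comp (by fun_prop)) (measurableSet_singleton c)
  have hBad : ∀ K, μ (Bad K) ≤ ENNReal.ofReal (S * Real.exp (-(θ * (ε * Real.log b) / 2)) ^ K) := by
    intro K
    refine (measure_iUnion_fintype_le μ _).trans ?_
    refine le_trans (sum_le_sum fun j _ => (measure_biUnion_finset_le _ _).trans (le_of_eq ?_)) ?_
      (b := ∑ j : Fin S, ENNReal.ofReal (∑ c ∈ (cells R b K).filter (fun c =>
        Real.exp (-(γ * K)) < cellMass μ b ((j : ℕ) / (S : ℝ)) K c ∧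
          (1 - 1 / (S : ℝ)) * K ≤ (cnt b m K c : ℝ)), cellMass μ b ((j : ℕ) / (S : ℝ)) K c))
    · rw [ENNReal.ofReal_sum_of_nonneg (fun c _ => ?_)]
      · exact sum_congr rfl fun c _ => (ofReal_measureReal (measure_ne_top μ _)).symm
      · exact measureReal_nonneg
    rw [← ENNReal.ofReal_sum_of_nonneg (fun j _ => sum_nonneg fun c _ => cellMass_nonneg _ _ _ c)]
    refine ENNReal.ofReal_le_ofReal (le_trans (sum_le_sum
      (g := fun _ : Fin S => Real.exp (-(θ * (ε * Real.log b) / 2)) ^ K) fun j _ => ?_) (le_of_eq ?_))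
    swap
    · rw [sum_const, card_univ, Fintype.card_fin, nsmul_eq_mul]
    set s := ((j : ℕ) : ℝ) / (S : ℝ)
    set E0 := θ * γ * K - θ * A * ((1 - 1 / (S : ℝ)) * K)
    have hpt : ∀ c ∈ (cells R b K).filter (fun c => Real.exp (-(γ * K)) < cellMass μ b s K c ∧
        (1 - 1 / (S : ℝ)) * K ≤ (cnt b m K c : ℝ)),
        cellMass μ b s K c ≤ Real.exp E0 *
          (cellMass μ b s K c ^ (1 + θ) * Real.exp (θ * A * cnt b m K c)) := by
      intro c hc
      obtain ⟨-, hc1, hc2⟩ := mem_filter.1 hc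
      set M := cellMass μ b s K c
      have hM : 0 < M := (Real.exp_pos _).trans hc1
      rw [Real.rpow_add hM, Real.rpow_one, mul_left_comm, mul_assoc M]
      refine le_mul_of_one_le_right hM.le ?_
      rw [Real.rpow_def_of_pos hM, ← Real.exp_add, ← Real.exp_add]
      refine Real.one_le_exp ?_
      have hlog : -(γ * K) ≤ Real.log M := (Real.le_log_iff_exp_le hM).2 hc1.le
      have g1 := mul_le_mul_of_nonneg_left hlog hθ.le
      have g2 := mul_le_mul_of_nonneg_left hc2 (mul_nonneg hθ.le hA0)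
      simp only [E0]
      linarith
    refine (sum_le_sum hpt).trans ?_
    rw [← mul_sum]
    refine (mul_le_mul_of_nonneg_left ((sum_le_sum_of_subset_of_nonneg (filter_subset _ _)
      fun c _ _ => mul_nonneg (Real.rpow_nonneg measureReal_nonneg _) (Real.exp_nonneg _)).trans
      (moment_bound b m hb0 s θ A hA0 hθ hθA R hgood K)) (Real.exp_nonneg _)).trans ?_
    rw [← Real.exp_nat_mul, ← Real.exp_nat_mul, ← Real.exp_add]
    refine Real.exp_le_exp.2 ?_
    simp only [E0, hγdef]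
    have := mul_le_mul_of_nonneg_left hθC (Nat.cast_nonneg (α := ℝ) K)
    linarith
  set ρ := Real.exp (-(θ * (ε * Real.log b) / 2))
  have hρ1 : ρ < 1 := Real.exp_lt_one_iff.2 (by
    have : 0 < θ * (ε * Real.log b) := by positivity
    linarith)
  have hsum : ∑' K, μ (Bad K) ≠ ∞ := by
    refine ne_top_of_le_ne_top ?_ (ENNReal.tsum_le_tsum hBad)
    rw [← ENNReal.ofReal_tsum_of_nonneg (fun K => by positivity)
      ((summable_geometric_of_lt_one (Real.exp_nonneg _) hρ1).mul_left _)]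
    exact ENNReal.ofReal_ne_top
  have hAE : ∀ᵐ x ∂μ, ∀ᶠ K in atTop, x ∉ Bad K := ae_eventually_notMem hsum
  have hnull : μ {x : ℝ | R < |x|} = 0 :=
    (measureReal_eq_zero_iff (measure_ne_top _ _)).1 (support_null G hI)
  set E' : ℕ → Set ℝ := fun K0 => (E ∩ {x : ℝ | |x| ≤ R}) ∩ ⋂ K ≥ K0, (Bad K)ᶜ
  have hBadm : ∀ K, MeasurableSet (Bad K) := fun K =>
    MeasurableSet.iUnion fun j => Finset.measurableSet_biUnion _ fun c _ => hmeas j K c
  have hE'm : ∀ K0, MeasurableSet (E' K0) := fun K0 =>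
    (hEm.inter (measurableSet_le continuous_abs.measurable measurable_const)).inter
      (MeasurableSet.iInter fun K => MeasurableSet.iInter fun _ => (hBadm K).compl)
  obtain ⟨K0, hK0⟩ : ∃ K0, μ (E' K0) ≠ 0 := by
    by_contra hall
    push Not at hall
    refine hE (le_antisymm ((measure_mono_ae ?_).trans_eq (measure_iUnion_null hall)) zero_le)
    have hR' : ∀ᵐ x ∂μ, |x| ≤ R := by
      rw [ae_iff]; simpa [not_le] using hnull
    filter_upwards [hAE, hR'] with x hx hxR hxE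
    obtain ⟨K0, hK0⟩ := eventually_atTop.1 hx
    exact Set.mem_iUnion.2 ⟨K0, ⟨hxE, hxR⟩, Set.mem_iInter₂.2 fun K hK => hK0 K hK⟩
  have hSm : S ≤ m := by
    calc S ≤ B ^ 1 := by rw [pow_one]; omega
      _ ≤ m := Nat.pow_le_pow_right hBpos (by exact_mod_cast hl1)
  have hmS : m % S = 1 := by
    simp only [m, B]
    rw [Nat.pow_mod, show (2 * S + 1) % S = 1 % S by
      rw [Nat.add_mod, Nat.mul_mod_left, zero_add, Nat.mod_mod],
      Nat.one_mod_eq_one.2 (show S ≠ 1 by omega), one_pow,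
      Nat.one_mod_eq_one.2 (show S ≠ 1 by omega)]
  have hball : ∀ K ≥ K0, ∀ (x : ℝ) (ρ' : ℝ), ρ' ≤ ((b : ℝ) ^ K)⁻¹ →
      (μ.restrict (E' K0)) (Metric.ball x ρ') ≤ ENNReal.ofReal (3 * S * Real.exp (-(γ * K))) := by
    intro K hK x ρ' hρ'
    rw [Measure.restrict_apply measurableSet_ball]
    let near : Fin S × Fin 3 → ℤ := fun v =>
      cell b ((v.1 : ℕ) / (S : ℝ)) K x + ((v.2 : ℕ) : ℤ) - 1
    let U : Fin S × Fin 3 → Set ℝ := fun v =>
      if cellMass μ b ((v.1 : ℕ) / (S : ℝ)) K (near v) ≤ Real.exp (-(γ * K)) then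
        {y | cell b ((v.1 : ℕ) / (S : ℝ)) K y = near v} else ∅
    have hsub : Metric.ball x ρ' ∩ E' K0 ⊆ ⋃ v, U v := by
      rintro y ⟨hyb, ⟨hyE, hyR⟩, hyB⟩
      obtain ⟨j, hj⟩ := exists_good_shift S m hS2 hSm hmS K y
      set s := ((j : ℕ) : ℝ) / (S : ℝ)
      have hs1 : s ≤ 1 := by
        rw [div_le_one (by positivity)]; exact_mod_cast j.isLt.le
      have hsmall : cellMass μ b s K (cell b s K y) ≤ Real.exp (-(γ * K)) := by
        by_contra hbig
        push Not at hbig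
        refine Set.mem_iInter₂.1 hyB K hK (Set.mem_iUnion.2 ⟨j, Set.mem_biUnion (x := cell b s K y)
          (mem_filter.2 ⟨mem_cells hb0 (by positivity) hs1 hyR K, hbig, hj⟩) rfl⟩)
      have hd : |(b : ℝ) ^ K * (y + s) - (b : ℝ) ^ K * (x + s)| < 1 := by
        rw [← mul_sub, add_sub_add_right_eq_sub, abs_mul, abs_of_pos (by positivity)]
        rw [Metric.mem_ball, Real.dist_eq] at hyb
        calc (b : ℝ) ^ K * |y - x| < (b : ℝ) ^ K * ((b : ℝ) ^ K)⁻¹ :=
              mul_lt_mul_of_pos_left (hyb.trans_le hρ') (by positivity)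
          _ = 1 := mul_inv_cancel₀ (by positivity)
      have hd' := abs_lt.1 hd
      have a1 := Int.floor_le ((b : ℝ) ^ K * (y + s))
      have a2 := Int.lt_floor_add_one ((b : ℝ) ^ K * (y + s))
      have a3 := Int.floor_le ((b : ℝ) ^ K * (x + s))
      have a4 := Int.lt_floor_add_one ((b : ℝ) ^ K * (x + s))
      have b1 : cell b s K y < cell b s K x + 2 := by
        rw [← Int.cast_lt (R := ℝ)]; simp only [cell]; push_cast; linarith
      have b2 : cell b s K x < cell b s K y + 2 := by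
        rw [← Int.cast_lt (R := ℝ)]; simp only [cell]; push_cast; linarith
      refine Set.mem_iUnion.2 ⟨(j, ⟨(cell b s K y - cell b s K x + 1).toNat, by omega⟩), ?_⟩
      have hn : near (j, ⟨(cell b s K y - cell b s K x + 1).toNat, by omega⟩) = cell b s K y := by
        simp only [near]
        change cell b s K x + ((cell b s K y - cell b s K x + 1).toNat : ℤ) - 1 = _
        omega
      simp only [U]
      rw [hn, if_pos hsmall]
      exact rfl
    refine (measure_mono hsub).trans ((measure_iUnion_fintype_le μ _).trans ?_)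
    refine (sum_le_sum fun v _ => show μ (U v) ≤ ENNReal.ofReal (Real.exp (-(γ * K))) from ?_).trans
      (le_of_eq ?_)
    · simp only [U]
      split_ifs with h
      · rw [← ofReal_measureReal]; exact ENNReal.ofReal_le_ofReal h
      · simp
    · rw [sum_const, card_univ, Fintype.card_prod, Fintype.card_fin, Fintype.card_fin, nsmul_eq_mul,
        ← ENNReal.ofReal_natCast, ← ENNReal.ofReal_mul (by positivity)]
      congr 1
      push_cast; ring
  have hbr : (1 : ℝ) < b := by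
    have : 2 ≤ b := le_trans (by omega : 2 ≤ B) (Nat.le_mul_of_pos_right B hm0)
    exact_mod_cast (by omega : 1 < b)
  refine le_trans (Meas.le_dimH_of_ball_le (μ.restrict (E' K0)) (hE'm K0)
    (by rwa [Measure.restrict_apply_self]) (K := 3 * S * (b : ℝ) ^ δ) (r₀ := ((b : ℝ) ^ (K0 + 1))⁻¹)
    h0 (by positivity) (by positivity) fun x _ ρ' hρ' hρ0 => ?_)
    (dimH_mono (Set.inter_subset_left.trans Set.inter_subset_left))
  have hex : ∃ K : ℕ, ((b : ℝ) ^ (K + 1))⁻¹ ≤ ρ' := by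
    obtain ⟨n, hn⟩ := pow_unbounded_of_one_lt ρ'⁻¹ hbr
    exact ⟨n, (inv_le_comm₀ (by positivity) hρ').2 (hn.le.trans (pow_le_pow_right₀ hbr.le (by omega)))⟩
  set K := Nat.find hex
  have hKge : K0 + 1 ≤ K := by
    by_contra hlt
    push Not at hlt
    have h := Nat.find_spec hex
    have : ((b : ℝ) ^ (K0 + 1))⁻¹ ≤ ((b : ℝ) ^ (K + 1))⁻¹ :=
      inv_anti₀ (by positivity) (pow_le_pow_right₀ hbr.le (by omega))
    linarith
  have hρK : ρ' ≤ ((b : ℝ) ^ K)⁻¹ := by
    have := Nat.find_min hex (show K - 1 < K by omega)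
    push Not at this
    rw [show K - 1 + 1 = K by omega] at this
    exact this.le
  refine (hball K (by omega) x ρ' hρK).trans (ENNReal.ofReal_le_ofReal ?_)
  rw [mul_assoc (3 * (S : ℝ))]
  refine mul_le_mul_of_nonneg_left ?_ (by positivity)
  rw [← Real.mul_rpow (by positivity) hρ'.le]
  have hspec : ((b : ℝ) ^ (K + 1))⁻¹ ≤ ρ' := Nat.find_spec hex
  have h1 : ((b : ℝ) ^ K)⁻¹ ≤ (b : ℝ) * ρ' := by
    have h' := mul_le_mul_of_nonneg_left hspec (Nat.cast_nonneg b)
    refine le_trans (le_of_eq ?_) h'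
    rw [pow_succ]; field_simp
  refine le_trans ?_ (Real.rpow_le_rpow (by positivity) h1 h0.le)
  rw [Real.rpow_def_of_pos (by positivity)]
  refine Real.exp_le_exp.2 ?_
  rw [Real.log_inv, Real.log_pow]
  have := mul_le_mul_of_nonneg_left hδγ (Nat.cast_nonneg (α := ℝ) K)
  linarith

end

end Vale.Agent.P114
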