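import Mathlib.Analysis.SpecialFunctions.Log.Basic
import Mathlib.Algebra.BigOperators.Field
import Mathlib.Data.Fintype.BigOperators

/-! # Conditional Shannon entropy on a finite weighted set -/

namespace Vale.Agent.P114

noncomputable section

open scoped Classical
open Finset

variable {Ω Ω' α β γ δ : Type*} [Fintype Ω] [Fintype Ω']

/-- The weight of the fibre `X = a`. -/
def mass (P : Ω → ℝ) (X : Ω → α) (a : α) : ℝ := ∑ ω, if X ω = a then P ω else 0

/-- Conditional entropy (in nats) of `X` given `Y` for the weights `P`. -/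
def cent (P : Ω → ℝ) (X : Ω → α) (Y : Ω → β) : ℝ :=
  ∑ ω, P ω * (Real.log (mass P Y (Y ω)) -
    Real.log (mass P (fun v => (X v, Y v)) (X ω, Y ω)))

/-- Entropy (in nats), homogeneous of degree one in the weights. -/
def ent (P : Ω → ℝ) (X : Ω → α) : ℝ := cent P X (fun _ => ())

variable {P : Ω → ℝ}

@[simp] theorem mass_unit (P : Ω → ℝ) : mass P (fun _ => ()) () = ∑ v, P v := by
  simp [mass]

theorem mass_nonneg (hP : 0 ≤ P) (X : Ω → α) (a : α) : 0 ≤ mass P X a :=
  sum_nonneg fun ω _ => by split_ifs; exacts [hP ω, le_rfl]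

theorem le_mass (hP : 0 ≤ P) (X : Ω → α) (ω : Ω) : P ω ≤ mass P X (X ω) := by
  have := single_le_sum (f := fun v => if X v = X ω then P v else 0)
    (fun v _ => by split_ifs; exacts [hP v, le_rfl]) (mem_univ ω)
  simpa [mass] using this

theorem mass_pos (hP : 0 ≤ P) (X : Ω → α) {ω : Ω} (h : 0 < P ω) : 0 < mass P X (X ω) :=
  lt_of_lt_of_le h (le_mass hP X ω)

theorem mass_mono (hP : 0 ≤ P) {X : Ω → α} {Y : Ω → β} {a : α} {b : β}
    (h : ∀ v, X v = a → Y v = b) : mass P X a ≤ mass P Y b :=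
  sum_le_sum fun v _ => by
    by_cases hv : X v = a
    · simp [hv, h v hv]
    · simp only [hv, if_false]; split_ifs; exacts [hP v, le_rfl]

theorem mass_congr {X : Ω → α} {Y : Ω → β} {a : α} {b : β}
    (h : ∀ v, X v = a ↔ Y v = b) : mass P X a = mass P Y b :=
  sum_congr rfl fun v _ => by simp [h v]

theorem sum_mul_comp [DecidableEq α] (P : Ω → ℝ) (X : Ω → α) (f : α → ℝ) :
    ∑ ω, P ω * f (X ω) = ∑ a ∈ univ.image X, mass P X a * f a := by
  simp only [mass, sum_mul]
  rw [sum_comm]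
  refine sum_congr rfl fun ω _ => ?_
  simp [ite_mul]

theorem sum_mass [DecidableEq α] (P : Ω → ℝ) (X : Ω → α) : ∑ a ∈ univ.image X, mass P X a = ∑ ω, P ω := by
  have := sum_mul_comp P X (fun _ => 1)
  simpa using this.symm

/-- Gibbs' inequality. -/
theorem gibbs [DecidableEq α] (hP : 0 ≤ P) (X : Ω → α) (q : α → ℝ) (hq0 : ∀ a ∈ univ.image X, 0 ≤ q a)
    (hq : ∀ ω, 0 < P ω → 0 < q (X ω)) (hs : ∑ a ∈ univ.image X, q a ≤ ∑ ω, P ω) :
    ∑ ω, P ω * (Real.log (q (X ω)) - Real.log (mass P X (X ω))) ≤ 0 := by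
  have h1 : ∀ ω, P ω * (Real.log (q (X ω)) - Real.log (mass P X (X ω)))
      ≤ P ω * (q (X ω) / mass P X (X ω)) - P ω := by
    intro ω
    rcases eq_or_lt_of_le (hP ω) with h | h
    · simp only [Pi.zero_apply] at h; rw [← h]; simp
    · have hm := mass_pos hP X h
      rw [← Real.log_div (hq ω h).ne' hm.ne']
      have := mul_le_mul_of_nonneg_left
        (Real.log_le_sub_one_of_pos (div_pos (hq ω h) hm)) h.le
      linarith
  refine (sum_le_sum fun ω _ => h1 ω).trans ?_
  rw [sum_sub_distrib, sum_mul_comp P X (fun a => q a / mass P X a)]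
  have h2 : ∑ a ∈ univ.image X, mass P X a * (q a / mass P X a) ≤ ∑ a ∈ univ.image X, q a := by
    refine sum_le_sum fun a ha => ?_
    rcases eq_or_lt_of_le (mass_nonneg hP X a) with h | h
    · rw [← h]; simpa using hq0 a ha
    · rw [mul_div_cancel₀ _ h.ne']
  linarith

theorem cent_nonneg (hP : 0 ≤ P) (X : Ω → α) (Y : Ω → β) : 0 ≤ cent P X Y :=
  sum_nonneg fun ω _ => by
    rcases eq_or_lt_of_le (hP ω) with h | h
    · simp only [Pi.zero_apply] at h; rw [← h]; simp
    · refine mul_nonneg h.le (sub_nonneg.2 (Real.log_le_log (mass_pos hP _ h) ?_))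
      exact mass_mono hP fun v hv => (Prod.mk.inj hv).2

theorem ent_nonneg (hP : 0 ≤ P) (X : Ω → α) : 0 ≤ ent P X := cent_nonneg hP _ _

theorem cent_chain (P : Ω → ℝ) (X : Ω → α) (Y : Ω → β) (Z : Ω → γ) :
    cent P (fun v => (X v, Y v)) Z = cent P Y Z + cent P X (fun v => (Y v, Z v)) := by
  simp only [cent, ← sum_add_distrib]
  refine sum_congr rfl fun ω _ => ?_
  have : mass P (fun v => ((X v, Y v), Z v)) ((X ω, Y ω), Z ω)
      = mass P (fun v => (X v, (Y v, Z v))) (X ω, (Y ω, Z ω)) :=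
    mass_congr fun v => by simp [and_assoc]
  rw [this]; ring

theorem cent_mono_left (hP : 0 ≤ P) {X : Ω → α} {X' : Ω → δ} {Y : Ω → β}
    (h : ∀ v w, X v = X w → Y v = Y w → X' v = X' w) : cent P X' Y ≤ cent P X Y :=
  sum_le_sum fun ω _ => by
    rcases eq_or_lt_of_le (hP ω) with h0 | h0
    · simp only [Pi.zero_apply] at h0; rw [← h0]; simp
    · refine mul_le_mul_of_nonneg_left (sub_le_sub_left (Real.log_le_log (mass_pos hP _ h0) ?_) _)
        h0.le
      refine mass_mono hP fun v hv => ?_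
      obtain ⟨h1, h2⟩ := Prod.mk.inj hv
      simp [h v ω h1 h2, h2]

theorem cent_congr_left (hP : 0 ≤ P) {X : Ω → α} {X' : Ω → δ} {Y : Ω → β}
    (h : ∀ v w, Y v = Y w → (X v = X w ↔ X' v = X' w)) : cent P X Y = cent P X' Y :=
  le_antisymm (cent_mono_left hP fun v w a b => (h v w b).2 a)
    (cent_mono_left hP fun v w a b => (h v w b).1 a)

theorem cent_congr_right (P : Ω → ℝ) {X : Ω → α} {Y : Ω → β} {Y' : Ω → γ}
    (h : ∀ v w, Y v = Y w ↔ Y' v = Y' w) : cent P X Y = cent P X Y' :=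
  sum_congr rfl fun ω _ => by
    have e1 : mass P Y (Y ω) = mass P Y' (Y' ω) := mass_congr fun v => h v ω
    have e2 : mass P (fun v => (X v, Y v)) (X ω, Y ω) = mass P (fun v => (X v, Y' v)) (X ω, Y' ω) :=
      mass_congr fun v => by simp only [Prod.mk.injEq, h v ω]
    rw [e1, e2]

theorem sum_mass_pair [DecidableEq γ] (P : Ω → ℝ) (Y : Ω → β) (Z : Ω → γ) (y : β) :
    ∑ z ∈ univ.image Z, mass P (fun v => (Y v, Z v)) (y, z) = mass P Y y := by
  simp only [mass]
  rw [sum_comm]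
  refine sum_congr rfl fun v _ => ?_
  by_cases h : Y v = y <;> simp [h]

/-- Conditioning on more reduces conditional entropy. -/
theorem cent_pair_right_le (hP : 0 ≤ P) (X : Ω → α) (Y : Ω → β) (Z : Ω → γ) :
    cent P X (fun v => (Y v, Z v)) ≤ cent P X Y := by
  let W : Ω → α × β × γ := fun v => (X v, Y v, Z v)
  let q : α × β × γ → ℝ := fun a => mass P (fun v => (X v, Y v)) (a.1, a.2.1)
    * (mass P (fun v => (Y v, Z v)) a.2 / mass P Y a.2.1)
  have hq0 : ∀ a, 0 ≤ q a := fun a =>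
    mul_nonneg (mass_nonneg hP _ _) (div_nonneg (mass_nonneg hP _ _) (mass_nonneg hP _ _))
  have hg := gibbs hP W q (fun a _ => hq0 a)
    (fun ω h => mul_pos (mass_pos hP (fun v => (X v, Y v)) h)
      (div_pos (mass_pos hP (fun v => (Y v, Z v)) h) (mass_pos hP Y h))) ?_
  · have e : ∑ ω, P ω * (Real.log (q (W ω)) - Real.log (mass P W (W ω)))
        = cent P X (fun v => (Y v, Z v)) - cent P X Y := by
      simp only [cent, ← sum_sub_distrib]
      refine sum_congr rfl fun ω _ => ?_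
      rcases eq_or_lt_of_le (hP ω) with h | h
      · simp only [Pi.zero_apply] at h; rw [← h]; simp
      · simp only [q, W]
        rw [Real.log_mul (mass_pos hP (fun v => (X v, Y v)) h).ne'
            (div_pos (mass_pos hP (fun v => (Y v, Z v)) h) (mass_pos hP Y h)).ne',
          Real.log_div (mass_pos hP (fun v => (Y v, Z v)) h).ne' (mass_pos hP Y h).ne']
        ring
    linarith
  · let e : (α × β) × γ ↪ α × β × γ := (Equiv.prodAssoc α β γ).toEmbedding
    have hsub : univ.image W ⊆ ((univ.image fun v => (X v, Y v)) ×ˢ univ.image Z).map e := by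
      intro a ha
      obtain ⟨v, -, rfl⟩ := mem_image.1 ha
      exact mem_map.2 ⟨((X v, Y v), Z v), mem_product.2 ⟨mem_image_of_mem (fun v => (X v, Y v))
        (mem_univ v), mem_image_of_mem Z (mem_univ v)⟩, rfl⟩
    refine (sum_le_sum_of_subset_of_nonneg hsub fun a _ _ => hq0 a).trans ?_
    rw [sum_map, sum_product, ← sum_mass P (fun v => (X v, Y v))]
    refine sum_le_sum fun a _ => ?_
    simp only [q, e, Equiv.coe_toEmbedding, Equiv.prodAssoc_apply, Prod.mk.eta]
    rw [← mul_sum, ← sum_div, sum_mass_pair]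
    rcases eq_or_lt_of_le (mass_nonneg hP Y a.2) with h | h
    · rw [← h]; simpa using mass_nonneg hP _ _
    · rw [div_self h.ne', mul_one]

theorem cent_anti_right (hP : 0 ≤ P) {X : Ω → α} {Y : Ω → β} {Y' : Ω → γ}
    (h : ∀ v w, Y' v = Y' w → Y v = Y w) : cent P X Y' ≤ cent P X Y := by
  have e : cent P X Y' = cent P X (fun v => (Y v, Y' v)) :=
    cent_congr_right P fun v w => ⟨fun a => by simp [a, h v w a], fun a => (Prod.mk.inj a).2⟩
  rw [e]; exact cent_pair_right_le hP X Y Y'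

theorem cent_le_ent (hP : 0 ≤ P) (X : Ω → α) (Y : Ω → β) : cent P X Y ≤ ent P X :=
  cent_anti_right hP fun _ _ _ => rfl

theorem ent_pair (P : Ω → ℝ) (X : Ω → α) (Y : Ω → β) :
    ent P (fun v => (X v, Y v)) = ent P Y + cent P X Y := by
  rw [ent, cent_chain, ← ent]
  congr 1
  exact cent_congr_right P fun v w => by simp

theorem cent_le_add (hP : 0 ≤ P) (X : Ω → α) (Y : Ω → β) (Z : Ω → γ) :
    cent P X Z ≤ cent P Y Z + cent P X (fun v => (Y v, Z v)) := by
  rw [← cent_chain]
  exact cent_mono_left hP fun v w a _ => (Prod.mk.inj a).1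

theorem cent_le_add' (hP : 0 ≤ P) (X : Ω → α) (Y : Ω → β) (Z : Ω → γ) :
    cent P X Z ≤ cent P Y Z + cent P X Y :=
  (cent_le_add hP X Y Z).trans (add_le_add le_rfl (cent_pair_right_le hP X Y Z))

theorem ent_le_add (hP : 0 ≤ P) (X : Ω → α) (Y : Ω → β) :
    ent P X ≤ ent P Y + cent P X Y := cent_le_add' hP X Y _

/-- If given `Y` the variable `X` takes at most `M (Y)` values, the conditional entropy is at
most the average of `log M`. -/
theorem cent_le_log (hP : 0 ≤ P) (X : Ω → α) (Y : Ω → β) (M : β → ℝ) (S : β → Finset α)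
    (hS : ∀ ω, X ω ∈ S (Y ω)) (hM : ∀ ω, ((S (Y ω)).card : ℝ) ≤ M (Y ω)) :
    cent P X Y ≤ ∑ ω, P ω * Real.log (M (Y ω)) := by
  have hMpos : ∀ ω, 0 < M (Y ω) := fun ω =>
    lt_of_lt_of_le (by exact_mod_cast card_pos.2 ⟨_, hS ω⟩) (hM ω)
  let W : Ω → α × β := fun v => (X v, Y v)
  let q : α × β → ℝ := fun a => mass P Y a.2 / M a.2
  have hq0 : ∀ a ∈ univ.image W, 0 ≤ q a := by
    intro a ha
    obtain ⟨v, -, rfl⟩ := mem_image.1 ha
    exact div_nonneg (mass_nonneg hP _ _) (hMpos v).le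
  have hg := gibbs hP W q hq0 (fun ω h => div_pos (mass_pos hP Y h) (hMpos ω)) ?_
  · have e : ∑ ω, P ω * (Real.log (q (W ω)) - Real.log (mass P W (W ω)))
        = cent P X Y - ∑ ω, P ω * Real.log (M (Y ω)) := by
      simp only [cent, ← sum_sub_distrib]
      refine sum_congr rfl fun ω _ => ?_
      rcases eq_or_lt_of_le (hP ω) with h | h
      · simp only [Pi.zero_apply] at h; rw [← h]; simp
      · simp only [q, W]
        rw [Real.log_div (mass_pos hP Y h).ne' (hMpos ω).ne']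
        ring
    linarith
  · rw [← sum_mass P Y, ← sum_fiberwise_of_maps_to (t := univ.image Y) (g := Prod.snd) (f := q)
      (fun a ha => by obtain ⟨v, -, rfl⟩ := mem_image.1 ha; simp [W])]
    refine sum_le_sum fun y hy => ?_
    obtain ⟨v, -, rfl⟩ := mem_image.1 hy
    have hc : (((univ.image W).filter fun a => a.2 = Y v).card : ℝ) ≤ M (Y v) := by
      refine le_trans ?_ (hM v)
      exact_mod_cast card_le_card_of_injOn Prod.fst
        (fun a ha => by
          obtain ⟨h1, h2⟩ := mem_filter.1 ha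
          obtain ⟨u, -, rfl⟩ := mem_image.1 h1
          simpa [W, ← h2] using hS u)
        (fun a ha b hb hab => by
          simp only [coe_filter, Set.mem_ofPred_eq] at ha hb
          exact Prod.ext hab (ha.2.trans hb.2.symm))
    rw [sum_congr rfl fun a ha => show q a = mass P Y (Y v) / M (Y v) by
      simp only [q, (mem_filter.1 ha).2], sum_const, nsmul_eq_mul]
    calc _ ≤ M (Y v) * (mass P Y (Y v) / M (Y v)) :=
          mul_le_mul_of_nonneg_right hc (div_nonneg (mass_nonneg hP _ _) (hMpos v).le)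
      _ = mass P Y (Y v) := mul_div_cancel₀ _ (hMpos v).ne'

theorem mass_restrict [DecidableEq γ] (P : Ω → ℝ) (U : Ω → γ) (u : γ) (Z : Ω → α) (z : α) :
    mass (fun v => if U v = u then P v else 0) Z z = mass P (fun v => (Z v, U v)) (z, u) := by
  refine sum_congr rfl fun v _ => ?_
  by_cases h1 : Z v = z <;> by_cases h2 : U v = u <;> simp [h1, h2]

theorem mass_smul (c : ℝ) (P : Ω → ℝ) (Z : Ω → α) (z : α) :
    mass (fun v => c * P v) Z z = c * mass P Z z := by
  simp [mass, mul_sum, mul_ite]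

/-- Restricting to the fibres of `U`. -/
theorem sum_cent_restrict [DecidableEq γ] (P : Ω → ℝ) (X : Ω → α) (Y : Ω → β) (U : Ω → γ) :
    ∑ u ∈ univ.image U, cent (fun v => if U v = u then P v else 0) X Y
      = cent P X (fun v => (Y v, U v)) := by
  simp only [cent, mass_restrict]
  rw [sum_comm]
  refine sum_congr rfl fun ω _ => ?_
  rw [sum_eq_single_of_mem (U ω) (mem_image_of_mem _ (mem_univ _))]
  · rw [if_pos rfl]
    rw [mass_congr (X := fun v => ((X v, Y v), U v)) (Y := fun v => (X v, Y v, U v))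
      (b := (X ω, Y ω, U ω)) fun v => by simp [and_assoc]]
  · intro u _ hu
    rw [if_neg (Ne.symm hu), zero_mul]

theorem cent_smul (c : ℝ) (P : Ω → ℝ) (hP : 0 ≤ P) (X : Ω → α) (Y : Ω → β) :
    cent (fun v => c * P v) X Y = c * cent P X Y := by
  rcases eq_or_ne c 0 with rfl | hc
  · simp [cent]
  simp only [cent, mul_sum, mass_smul]
  refine sum_congr rfl fun ω _ => ?_
  rcases eq_or_lt_of_le (hP ω) with h | h
  · simp only [Pi.zero_apply] at h; rw [← h]; simp
  · rw [Real.log_mul hc (mass_pos hP Y h).ne',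
      Real.log_mul hc (mass_pos hP (fun v => (X v, Y v)) h).ne']
    ring

theorem mass_comp {Q : Ω' → ℝ} (f : Ω' → Ω) (h : ∀ v, P v = mass Q f v) (Z : Ω → α) (z : α) :
    mass Q (fun v => Z (f v)) z = mass P Z z := by
  simp only [mass, h]
  calc ∑ w, (if Z (f w) = z then Q w else 0)
      = ∑ w, ∑ v, if f w = v then (if Z v = z then Q w else 0) else 0 := by simp
    _ = ∑ v, ∑ w, if f w = v then (if Z v = z then Q w else 0) else 0 := sum_comm
    _ = _ := sum_congr rfl fun v _ => by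
      by_cases hv : Z v = z <;> simp [hv]

/-- Transport along a map that pushes the weights forward. -/
theorem cent_map {Q : Ω' → ℝ} (f : Ω' → Ω) (h : ∀ v, P v = mass Q f v)
    (X : Ω → α) (Y : Ω → β) :
    cent Q (fun v => X (f v)) (fun v => Y (f v)) = cent P X Y := by
  simp only [cent]
  rw [show ∑ ω, P ω * (Real.log (mass P Y (Y ω)) -
      Real.log (mass P (fun v => (X v, Y v)) (X ω, Y ω))) = ∑ ω, ∑ w, if f w = ω then Q w *
      (Real.log (mass P Y (Y (f w))) -
        Real.log (mass P (fun v => (X v, Y v)) (X (f w), Y (f w)))) else 0 from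
    sum_congr rfl fun v _ => by
      rw [h v, mass, sum_mul]
      exact sum_congr rfl fun w _ => by by_cases hw : f w = v <;> simp [hw]]
  rw [sum_comm]
  refine sum_congr rfl fun w _ => ?_
  rw [sum_ite_eq univ (f w), if_pos (mem_univ _), mass_comp f h Y,
    mass_comp f h (fun v => (X v, Y v))]

/-- Product weights. -/
def prodW (P : Ω → ℝ) (Q : Ω' → ℝ) : Ω × Ω' → ℝ := fun v => P v.1 * Q v.2

omit [Fintype Ω] [Fintype Ω'] in
theorem prodW_nonneg {Q : Ω' → ℝ} (hP : 0 ≤ P) (hQ : 0 ≤ Q) : 0 ≤ prodW P Q :=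
  fun v => mul_nonneg (hP v.1) (hQ v.2)

theorem sum_prodW (P : Ω → ℝ) (Q : Ω' → ℝ) :
    ∑ v, prodW P Q v = (∑ v, P v) * ∑ w, Q w := by
  simp [prodW, Fintype.sum_prod_type, mul_sum, sum_mul]
  exact sum_comm

theorem mass_prodW_fst (P : Ω → ℝ) (Q : Ω' → ℝ) (X : Ω → α) (a : α) :
    mass (prodW P Q) (fun v => X v.1) a = mass P X a * ∑ w, Q w := by
  simp only [mass, prodW, Fintype.sum_prod_type, sum_mul]
  refine sum_congr rfl fun v _ => ?_
  split_ifs <;> simp [mul_sum]

theorem mass_prodW_fst' {Q : Ω' → ℝ} (hQ : ∑ w, Q w = 1) (P : Ω → ℝ) (v : Ω) :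
    P v = mass (prodW P Q) Prod.fst v := by
  rw [show (Prod.fst : Ω × Ω' → Ω) = fun x => id x.1 from rfl, mass_prodW_fst, hQ, mul_one]
  simp [mass]

theorem cent_prod_fst {Q : Ω' → ℝ} (hQ : ∑ w, Q w = 1) (P : Ω → ℝ) (X : Ω → α) (Y : Ω → β) :
    cent (prodW P Q) (fun v => X v.1) (fun v => Y v.1) = cent P X Y :=
  cent_map Prod.fst (mass_prodW_fst' hQ P) X Y

theorem mass_prodW_slice (P : Ω → ℝ) (Q : Ω' → ℝ) (W : Ω × Ω' → α) (a : α) (ω : Ω) :
    mass (prodW P Q) (fun v => (W v, v.1)) (a, ω) = P ω * mass Q (fun w => W (ω, w)) a := by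
  simp only [mass, Fintype.sum_prod_type, prodW, mul_sum]
  rw [sum_eq_single_of_mem ω (mem_univ _) (fun b _ hb => sum_eq_zero fun w _ => by simp [hb])]
  exact sum_congr rfl fun w _ => by simp [mul_ite]

theorem cent_prod_slice (hP : 0 ≤ P) {Q : Ω' → ℝ} (hQ : 0 ≤ Q) (W : Ω × Ω' → α) :
    cent (prodW P Q) W Prod.fst = ∑ ω, P ω * ent Q (fun w => W (ω, w)) := by
  simp only [ent, cent, Fintype.sum_prod_type, mul_sum]
  refine sum_congr rfl fun ω _ => sum_congr rfl fun w _ => ?_
  simp only [prodW]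
  rcases eq_or_lt_of_le (hP ω) with h | h
  · simp only [Pi.zero_apply] at h; rw [← h]; simp
  rcases eq_or_lt_of_le (hQ w) with h' | h'
  · simp only [Pi.zero_apply] at h'; rw [← h']; simp
  have h1 : mass (prodW P Q) Prod.fst ((ω, w) : Ω × Ω').1 = P ω * ∑ u, Q u := by
    rw [show (Prod.fst : Ω × Ω' → Ω) = fun x => id x.1 from rfl, mass_prodW_fst]
    simp [mass]
  have h2 : 0 < ∑ u, Q u := lt_of_lt_of_le h' (single_le_sum (fun u _ => hQ u) (mem_univ w))
  have h3 : mass Q (fun u => (W (ω, u), ())) (W (ω, w), ()) = mass Q (fun u => W (ω, u)) (W (ω, w)) :=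
    mass_congr fun u => by simp
  change P ω * Q w * (Real.log (mass (prodW P Q) Prod.fst ((ω, w) : Ω × Ω').1) -
    Real.log (mass (prodW P Q) (fun v => (W v, v.1)) (W (ω, w), ω))) = _
  rw [h1, mass_prodW_slice, h3, mass_unit Q, Real.log_mul h.ne' h2.ne',
    Real.log_mul h.ne' (mass_pos hQ (fun u => W (ω, u)) h').ne']
  ring

end

end Vale.Agent.P114
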