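import Vale.Agent.P114.Ent
import Mathlib.Tactic.Linarith
import Mathlib.Tactic.Ring
import Mathlib.Tactic.FieldSimp
import Mathlib.Analysis.Real.Sqrt

/-! # Further entropy facts: products, perturbations -/

namespace Vale.Agent.P114

noncomputable section

open scoped Classical
open Finset

variable {Ω Ω' α β γ δ : Type*} [Fintype Ω] [Fintype Ω'] {P : Ω → ℝ} {Q : Ω' → ℝ}

theorem cent_congr_supp {X X' : Ω → α} {Y Y' : Ω → β}
    (h : ∀ v, P v ≠ 0 → X v = X' v ∧ Y v = Y' v) : cent P X Y = cent P X' Y' := by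
  have h1 : ∀ b, mass P Y b = mass P Y' b := fun b => sum_congr rfl fun v _ => by
    by_cases hv : P v = 0
    · simp [hv]
    · simp [(h v hv).2]
  have h2 : ∀ a, mass P (fun v => (X v, Y v)) a = mass P (fun v => (X' v, Y' v)) a := fun a =>
    sum_congr rfl fun v _ => by
      by_cases hv : P v = 0
      · simp [hv]
      · simp [(h v hv).1, (h v hv).2]
  refine sum_congr rfl fun v _ => ?_
  by_cases hv : P v = 0
  · simp [hv]
  · rw [h1, h2, (h v hv).1, (h v hv).2]

theorem cent_equiv (e : Ω' ≃ Ω) (h : ∀ w, Q w = P (e w)) (X : Ω → α) (Y : Ω → β) :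
    cent Q (fun w => X (e w)) (fun w => Y (e w)) = cent P X Y := by
  refine cent_map e (fun v => ?_) X Y
  rw [mass, sum_eq_single (e.symm v)]
  · simp [h]
  · exact fun w _ hw => if_neg fun hh => hw (by simp [← hh])
  · simp

theorem mass_prodW_pair (P : Ω → ℝ) (Q : Ω' → ℝ) (X : Ω → α) (Y : Ω' → β) (a : α) (b : β) :
    mass (prodW P Q) (fun v => (X v.1, Y v.2)) (a, b) = mass P X a * mass Q Y b := by
  rw [mass, mass, mass, sum_mul_sum, Fintype.sum_prod_type]
  simp only [prodW]
  refine sum_congr rfl fun v _ => sum_congr rfl fun w _ => ?_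
  by_cases h1 : X v = a <;> by_cases h2 : Y w = b <;> simp [h1, h2]

/-- Conditioning on an independent variable changes nothing. -/
theorem cent_prod_fst_snd (hP : 0 ≤ P) (hQ : 0 ≤ Q) (hQ1 : ∑ w, Q w = 1) (X : Ω → α)
    (Y : Ω → β) : cent (prodW P Q) (fun v => X v.1) (fun v => (Y v.1, v.2)) = cent P X Y := by
  simp only [cent, Fintype.sum_prod_type]
  refine sum_congr rfl fun v _ => ?_
  rcases eq_or_lt_of_le (hP v) with h | h
  · simp only [Pi.zero_apply] at h; simp [prodW, ← h]
  have hw : ∀ w : Ω', mass Q (fun u => u) w = Q w := fun w => by simp [mass]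
  have e : ∀ w : Ω', prodW P Q (v, w) * (Real.log (mass (prodW P Q) (fun u => (Y u.1, u.2)) (Y v, w))
      - Real.log (mass (prodW P Q) (fun u => (X u.1, (Y u.1, u.2))) (X v, (Y v, w))))
      = Q w * (P v * (Real.log (mass P Y (Y v)) -
          Real.log (mass P (fun u => (X u, Y u)) (X v, Y v)))) := by
    intro w
    rcases eq_or_lt_of_le (hQ w) with h' | h'
    · simp only [Pi.zero_apply] at h'; simp [prodW, ← h']
    have e1 : mass (prodW P Q) (fun u => (Y u.1, u.2)) (Y v, w) = mass P Y (Y v) * Q w := by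
      rw [mass_prodW_pair P Q Y (fun u => u), hw]
    have e2 : mass (prodW P Q) (fun u => (X u.1, (Y u.1, u.2))) (X v, (Y v, w))
        = mass P (fun u => (X u, Y u)) (X v, Y v) * Q w := by
      rw [mass_congr (Y := fun u : Ω × Ω' => ((X u.1, Y u.1), u.2)) (b := ((X v, Y v), w))
        fun u => by simp [and_assoc], mass_prodW_pair P Q (fun u => (X u, Y u)) (fun u => u), hw]
    rw [e1, e2, Real.log_mul (mass_pos hP Y h).ne' h'.ne',
      Real.log_mul (mass_pos hP (fun u => (X u, Y u)) h).ne' h'.ne']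
    simp only [prodW]; ring
  rw [sum_congr rfl fun w _ => e w, ← sum_mul, hQ1, one_mul]

/-- The entropy of an independent variable is unchanged by conditioning. -/
theorem cent_prod_snd_fst (hP : 0 ≤ P) (hP1 : ∑ v, P v = 1) (hQ : 0 ≤ Q) (hQ1 : ∑ w, Q w = 1)
    (Z : Ω' → α) (Y : Ω → β) :
    cent (prodW P Q) (fun v => Z v.2) (fun v => Y v.1) = ent Q Z := by
  have hu : ∀ w : Ω', mass Q (fun u => (Z u, ())) (Z w, ()) = mass Q Z (Z w) := fun w =>
    mass_congr fun u => by simp
  simp only [ent, cent, Fintype.sum_prod_type, hu, mass_unit, hQ1, Real.log_one]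
  rw [sum_comm]
  refine sum_congr rfl fun w _ => ?_
  rcases eq_or_lt_of_le (hQ w) with h' | h'
  · simp only [Pi.zero_apply] at h'; simp [prodW, ← h']
  have e : ∀ v : Ω, prodW P Q (v, w) * (Real.log (mass (prodW P Q) (fun u => Y u.1) (Y v))
      - Real.log (mass (prodW P Q) (fun u => (Z u.2, Y u.1)) (Z w, Y v)))
      = P v * (Q w * (0 - Real.log (mass Q Z (Z w)))) := by
    intro v
    rcases eq_or_lt_of_le (hP v) with h | h
    · simp only [Pi.zero_apply] at h; simp [prodW, ← h]
    rw [mass_prodW_fst, hQ1, mul_one, mass_congr (Y := fun u : Ω × Ω' => (Y u.1, Z u.2))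
      (b := (Y v, Z w)) fun u => by simp [and_comm], mass_prodW_pair,
      Real.log_mul (mass_pos hP Y h).ne' (mass_pos hQ Z h').ne']
    simp only [prodW]; ring
  rw [sum_congr rfl fun v _ => e v, ← sum_mul, hP1, one_mul]

theorem negmul_le {p : ℝ} (hp : 0 ≤ p) : p * (0 - Real.log p) ≤ 2 * √p := by
  rcases eq_or_lt_of_le hp with rfl | h
  · simp
  have h1 := Real.log_le_sub_one_of_pos (inv_pos.2 (Real.sqrt_pos.2 h))
  rw [Real.log_inv, Real.log_sqrt hp] at h1
  have h2 := mul_le_mul_of_nonneg_left h1 (by linarith : (0 : ℝ) ≤ 2 * p)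
  have h3 : 2 * p * ((√p)⁻¹ - 1) = 2 * √p - 2 * p := by
    rw [mul_sub, mul_one]; congr 1
    have h' := (Real.sqrt_pos.2 h).ne'
    field_simp
    linear_combination -Real.sq_sqrt hp
  linarith

/-- Entropy of an indicator of an unlikely event. -/
theorem ent_indicator_le (hP : 0 ≤ P) (hP1 : ∑ v, P v = 1) (E : Ω → Bool) {e : ℝ}
    (he : ∑ v, (if E v then P v else 0) ≤ e) (he1 : e ≤ 1) : ent P E ≤ 3 * √e := by
  set p := ∑ v, (if E v then P v else 0) with hp
  have hp0 : 0 ≤ p := sum_nonneg fun v _ => by split_ifs; exacts [hP v, le_rfl]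
  have ht : ∀ b, mass P (fun v => (E v, ())) (b, ()) = mass P E b := fun b =>
    mass_congr fun v => by simp
  have hf : mass P E true = p := sum_congr rfl fun v _ => by cases E v <;> simp
  have hg : mass P E false = 1 - p := by
    rw [eq_sub_iff_add_eq, ← hP1, ← hf, mass, mass, ← sum_add_distrib]
    exact sum_congr rfl fun v _ => by cases E v <;> simp
  have : ent P E = p * (0 - Real.log p) + (1 - p) * (0 - Real.log (1 - p)) := by
    simp only [ent, cent, mass_unit, hP1, Real.log_one, ht]
    rw [sum_mul_comp P E (fun b => 0 - Real.log (mass P E b))]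
    rw [sum_subset (subset_univ _) fun b _ hb => ?_, Fintype.sum_bool, hf, hg]
    have : mass P E b = 0 := sum_eq_zero fun v _ => if_neg fun h => hb (mem_image.2 ⟨v, by simp, h⟩)
    simp [this]
  rw [this]
  have h1 := negmul_le hp0
  have h2 : (1 - p) * (0 - Real.log (1 - p)) ≤ p := by
    rcases eq_or_lt_of_le (he.trans he1) with h | h
    · rw [show p = 1 from h]; simp
    have := Real.log_le_sub_one_of_pos (inv_pos.2 (by linarith : 0 < 1 - p))
    rw [Real.log_inv] at this
    have h4 := mul_le_mul_of_nonneg_left this (by linarith : 0 ≤ 1 - p)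
    rw [mul_sub, mul_inv_cancel₀ (by linarith : (1 - p) ≠ 0)] at h4
    linarith
  have h3 := Real.sqrt_le_sqrt he
  have h5 : p ≤ √p := by
    have := Real.sq_sqrt hp0
    nlinarith [Real.sqrt_nonneg p, Real.sqrt_le_one.2 (he.trans he1)]
  linarith

/-- If the observation `A` differs from `A'` with probability at most `e`, the conditional
entropies differ by little. -/
theorem cent_perturb (hP : 0 ≤ P) (hP1 : ∑ v, P v = 1) (K : Ω → α) (c : Ω → β) (A A' : Ω → γ)
    (E : Ω → Bool) (hE : ∀ v, E v = false → A v = A' v) {e M : ℝ} (he1 : e ≤ 1) (hM1 : 1 ≤ M)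
    (he : ∑ v, (if E v then P v else 0) ≤ e) (S : β → Finset α) (hS : ∀ v, K v ∈ S (c v))
    (hM : ∀ v, ((S (c v)).card : ℝ) ≤ M) :
    cent P K (fun v => (c v, A v)) ≤
      cent P K (fun v => (c v, A' v)) + e * Real.log M + 3 * √e := by
  set R : Bool → Ω → ℝ := fun b v => if E v = b then P v else 0
  have hR : ∀ b, 0 ≤ R b := fun b v => by simp only [R, Pi.zero_apply]; split_ifs; exacts [hP v, le_rfl]
  have h1 : cent P K (fun v => (c v, A v))
      ≤ cent P E (fun v => (c v, A v)) + cent P K (fun v => ((c v, A v), E v)) := by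
    refine (cent_le_add hP K E _).trans (add_le_add le_rfl (le_of_eq ?_))
    exact cent_congr_right P fun v w => by simp [and_comm]
  have h2 : cent P E (fun v => (c v, A v)) ≤ 3 * √e :=
    (cent_le_ent hP _ _).trans (ent_indicator_le hP hP1 E he he1)
  have hsum : ∀ (Y : Ω → β × γ), cent P K (fun v => (Y v, E v))
      = cent (R true) K Y + cent (R false) K Y := by
    intro Y
    rw [← sum_cent_restrict P K Y E, sum_subset (subset_univ _) fun b _ hb => ?_, Fintype.sum_bool]
    have : ∀ v, (if E v = b then P v else 0) = 0 := fun v =>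
      if_neg fun h => hb (mem_image.2 ⟨v, by simp, h⟩)
    simp [cent, this]
  have h3 : cent (R false) K (fun v => (c v, A v)) = cent (R false) K (fun v => (c v, A' v)) :=
    cent_congr_supp fun v hv => by
      have : E v = false := by by_contra h; exact hv (if_neg h)
      simp [hE v this]
  have h4 : cent (R true) K (fun v => (c v, A v)) ≤ e * Real.log M := by
    refine (cent_le_log (hR true) K _ (fun _ => M) (fun y => S y.1) hS hM).trans ?_
    rw [← sum_mul]
    exact mul_le_mul_of_nonneg_right he (Real.log_nonneg hM1)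
  have h5 := hsum (fun v => (c v, A' v))
  have h6 := cent_nonneg (hR true) K (fun v => (c v, A' v))
  have h7 := cent_pair_right_le hP K (fun v => (c v, A' v)) E
  rw [hsum] at h1
  linarith

end

end Vale.Agent.P114
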