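import Vale.Agent.P114.Words
import Mathlib.Analysis.SpecificLimits.Basic
import Mathlib.Algebra.Order.Archimedean.Basic

/-! # Entropy at a scale and the dimension -/

namespace Vale.Agent.P114

noncomputable section

open scoped Classical
open Finset Filter

variable {ι : Type} [Fintype ι] {p r t : ι → ℝ} {a q T : ℝ}

/-- Bounds on the data of an iterated function system. -/
structure Good (p r t : ι → ℝ) (a q T : ℝ) : Prop where
  pos : ∀ i, 0 < p i
  sum_one : ∑ i, p i = 1
  a_pos : 0 < a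
  a_le : ∀ i, a ≤ |r i|
  le_q : ∀ i, |r i| ≤ q
  q_lt : q < 1
  T_nonneg : 0 ≤ T
  t_le : ∀ i, |t i| ≤ T

/-- A bound for all translation parts. -/
def radius (q T : ℝ) : ℝ := T / (1 - q)

/-- Entropy of the level-`n` translations at scale `σ`, shifted by `θ`. -/
def jN (p r t : ι → ℝ) (n : ℕ) (σ θ : ℝ) : ℝ :=
  ent (wt (n := n) p) (fun w => ⌊σ * trans r t w + θ⌋)

/-- A level which resolves the scale `σ`. -/
def lev (q σ : ℝ) : ℕ := if h : ∃ n : ℕ, |σ| * q ^ n ≤ 1 then Nat.find h else 0

/-- Entropy at scale `σ`. -/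
def js (p r t : ι → ℝ) (q σ : ℝ) : ℝ := jN p r t (lev q σ) σ 0

namespace Good

theorem nonempty (G : Good p r t a q T) : Nonempty ι := by
  by_contra h
  have := G.sum_one
  rw [not_nonempty_iff] at h
  simp at this

theorem q_pos (G : Good p r t a q T) : 0 < q := by
  obtain ⟨i⟩ := G.nonempty
  linarith [G.a_pos, G.a_le i, G.le_q i]

theorem p_nonneg (G : Good p r t a q T) : (0 : ι → ℝ) ≤ p := fun i => (G.pos i).le

theorem wt_nn (G : Good p r t a q T) {n : ℕ} : (0 : (Fin n → ι) → ℝ) ≤ wt p :=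
  wt_nonneg fun i => (G.pos i).le

theorem radius_nonneg (G : Good p r t a q T) : 0 ≤ radius q T :=
  div_nonneg G.T_nonneg (by linarith [G.q_lt])

theorem trans_le (G : Good p r t a q T) : ∀ {n : ℕ} (w : Fin n → ι), |trans r t w| ≤ radius q T
  | 0, w => by simpa [trans] using G.radius_nonneg
  | n + 1, w => by
    have h1 := trans_le G (Fin.tail w)
    rw [trans, smul_eq_mul]
    refine (abs_add_le _ _).trans ?_
    rw [abs_mul]
    have h2 := mul_le_mul (G.le_q (w 0)) h1 (abs_nonneg _) G.q_pos.le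
    have h3 := G.t_le (w 0)
    have e : T + q * radius q T = radius q T := by
      have : (1 : ℝ) - q ≠ 0 := by linarith [G.q_lt]
      rw [radius]; field_simp; ring
    linarith

theorem slope_le (G : Good p r t a q T) {n : ℕ} (w : Fin n → ι) : |slope r w| ≤ q ^ n := by
  rw [slope, abs_prod]
  refine (prod_le_prod (fun i _ => abs_nonneg _) (fun i _ => G.le_q (w i))).trans ?_
  simp

theorem slope_pos (G : Good p r t a q T) {n : ℕ} (w : Fin n → ι) : 0 < |slope r w| := by
  rw [slope, abs_prod]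
  exact prod_pos fun i _ => lt_of_lt_of_le G.a_pos (G.a_le (w i))

theorem slope_le_one (G : Good p r t a q T) {n : ℕ} (w : Fin n → ι) : |slope r w| ≤ 1 :=
  (G.slope_le w).trans (pow_le_one₀ G.q_pos.le G.q_lt.le)

theorem lev_spec (G : Good p r t a q T) (σ : ℝ) : |σ| * q ^ lev q σ ≤ 1 := by
  have hex : ∃ n : ℕ, |σ| * q ^ n ≤ 1 := by
    have h := (tendsto_pow_atTop_nhds_zero_of_lt_one G.q_pos.le G.q_lt).const_mul |σ|
    rw [mul_zero] at h
    exact (h.eventually_le_const one_pos).exists
  rw [lev, dif_pos hex]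
  exact Nat.find_spec hex

theorem lev_min (G : Good p r t a q T) {σ : ℝ} {n : ℕ} (h : |σ| * q ^ n ≤ 1) : lev q σ ≤ n := by
  rw [lev, dif_pos ⟨n, h⟩]
  exact Nat.find_min' _ h

theorem lev_mono (G : Good p r t a q T) {σ σ' : ℝ} (h : |σ| ≤ |σ'|) : lev q σ ≤ lev q σ' :=
  G.lev_min ((mul_le_mul_of_nonneg_right h (pow_nonneg G.q_pos.le _)).trans (G.lev_spec σ'))

/-- The constant of the approximation of scales. -/
def c0 (q T : ℝ) : ℝ := Real.log (1 + 2 * radius q T + 3)

theorem close (G : Good p r t a q T) {n : ℕ} {σ : ℝ} (hn : lev q σ ≤ n) (θ : ℝ) :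
    jN p r t n σ θ ≤ js p r t q σ + c0 q T ∧ js p r t q σ ≤ jN p r t n σ θ + c0 q T := by
  obtain ⟨N, rfl⟩ := Nat.exists_eq_add_of_le hn
  rw [add_comm]
  set m := lev q σ
  have hM : ∀ v : (Fin m → ι) × (Fin N → ι),
      |σ * trans r t (joinEquiv ι N m v) + θ - (1 * (σ * trans r t v.1) + θ)| ≤ radius q T ∧
      |σ * trans r t v.1 - (1 * (σ * trans r t (joinEquiv ι N m v) + θ) + -θ)| ≤ radius q T := by
    rintro ⟨u, w⟩
    have h1 : |σ * (slope r u * trans r t w)| ≤ radius q T := by
      rw [← mul_assoc, abs_mul, abs_mul]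
      have := mul_le_mul ((mul_le_mul_of_nonneg_left (G.slope_le u) (abs_nonneg σ)).trans
        (G.lev_spec σ)) (G.trans_le w) (abs_nonneg _) zero_le_one
      rwa [one_mul] at this
    rw [trans_join, smul_eq_mul]
    constructor
    · convert h1 using 2; ring
    · rw [abs_sub_comm]; convert h1 using 2; ring
  have hP : 0 ≤ prodW (wt (n := m) p) (wt (n := N) p) := prodW_nonneg G.wt_nn G.wt_nn
  have hP1 : ∑ v, prodW (wt (n := m) p) (wt (n := N) p) v = 1 := by
    rw [sum_prodW, sum_wt G.sum_one, sum_wt G.sum_one, one_mul]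
  have e1 : ent (prodW (wt (n := m) p) (wt (n := N) p))
      (fun v => ⌊σ * trans r t (joinEquiv ι N m v) + θ⌋) = jN p r t (N + m) σ θ :=
    cent_join p N m (fun w => ⌊σ * trans r t w + θ⌋) (fun _ => ())
  have e2 : ent (prodW (wt (n := m) p) (wt (n := N) p))
      (fun v => ⌊σ * trans r t v.1⌋) = js p r t q σ := by
    have e := cent_prod_fst (sum_wt G.sum_one N) (wt (n := m) p)
      (fun w => ⌊σ * trans r t w⌋) (fun _ => ())
    simp only [js, jN, add_zero, ent]
    exact e
  constructor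
  · have := ent_floor_le hP hP1 (fun v => σ * trans r t (joinEquiv ι N m v) + θ)
      (fun v => σ * trans r t v.1) 1 θ (radius q T) fun v => (hM v).1
    rw [e1, e2, abs_one] at this
    exact this
  · have := ent_floor_le hP hP1 (fun v => σ * trans r t v.1)
      (fun v => σ * trans r t (joinEquiv ι N m v) + θ) 1 (-θ) (radius q T) fun v => (hM v).2
    rw [e1, e2, abs_one] at this
    exact this

theorem c0_nonneg (G : Good p r t a q T) : 0 ≤ c0 q T :=
  Real.log_nonneg (by linarith [G.radius_nonneg])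

theorem js_nonneg (G : Good p r t a q T) (σ : ℝ) : 0 ≤ js p r t q σ := ent_nonneg G.wt_nn _

theorem js_le_log (G : Good p r t a q T) (σ : ℝ) :
    js p r t q σ ≤ Real.log (2 * (|σ| * radius q T) + 3) :=
  ent_floor_bound G.wt_nn (sum_wt G.sum_one _) _ _ fun w => by
    rw [add_zero, abs_mul]; exact mul_le_mul_of_nonneg_left (G.trans_le w) (abs_nonneg σ)

theorem compare (G : Good p r t a q T) {σ σ' : ℝ} (hσ : σ ≠ 0) :
    js p r t q σ' ≤ js p r t q σ + Real.log (|σ'| / |σ| + 3) + 2 * c0 q T := by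
  set n := max (lev q σ) (lev q σ')
  have h1 := (G.close (le_max_left (lev q σ) (lev q σ')) 0).1
  have h2 := (G.close (le_max_right (lev q σ) (lev q σ')) 0).2
  have h3 := ent_floor_le G.wt_nn (sum_wt G.sum_one n) (fun w => σ' * trans r t w + 0)
    (fun w => σ * trans r t w + 0) (σ' / σ) 0 0 fun w => by simp [field]
  rw [abs_div, mul_zero, add_zero] at h3
  simp only [jN] at h1 h2
  linarith

theorem compare_le (G : Good p r t a q T) {σ σ' : ℝ} (hσ : σ ≠ 0) {K : ℝ} (h : |σ'| ≤ K * |σ|) :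
    js p r t q σ' ≤ js p r t q σ + (Real.log (K + 3) + 2 * c0 q T) := by
  have := G.compare (σ' := σ') hσ
  have h' : |σ'| / |σ| ≤ K := (div_le_iff₀ (abs_pos.2 hσ)).2 h
  have := Real.log_le_log (add_pos_of_nonneg_of_pos (by positivity) (by norm_num : (0 : ℝ) < 3))
    (by linarith : |σ'| / |σ| + 3 ≤ K + 3)
  linarith

/-- The entropy gained between scales `σ / L` and `σ` increases with `σ`, up to a constant. -/
theorem inc (G : Good p r t a q T) {σ σ' L : ℝ} (hσ : σ ≠ 0) (hσσ : |σ| ≤ |σ'|) (hL : 1 ≤ L) :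
    js p r t q σ - js p r t q (σ / L) ≤ js p r t q σ' - js p r t q (σ' / L) +
      (4 * c0 q T + Real.log (1 / a + 3) + 2 * Real.log 4) := by
  set B := js p r t q σ - js p r t q (σ / L) - 2 * c0 q T - Real.log (1 / a + 3) - Real.log 4
    with hB
  have hL0 : 0 < L := by linarith
  have hlevL : ∀ s : ℝ, lev q (s / L) ≤ lev q s := fun s => G.lev_mono (by
    rw [abs_div, abs_of_pos hL0]; exact div_le_self (abs_nonneg s) hL)
  have key : ∀ k : ℕ, ∀ s : ℝ, a * |σ| ≤ |s| → |s| * q ^ k ≤ |σ| → ∀ θ : ℝ, ∀ n,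
      lev q σ + k ≤ n → B ≤ cent (wt (n := n) p) (fun w => ⌊s * trans r t w + θ⌋)
        (fun w => ⌊(s * trans r t w + θ) / L⌋) := by
    intro k
    have base : ∀ s : ℝ, a * |σ| ≤ |s| → |s| ≤ |σ| → ∀ θ : ℝ, ∀ n, lev q σ ≤ n →
        B ≤ cent (wt (n := n) p) (fun w => ⌊s * trans r t w + θ⌋)
          (fun w => ⌊(s * trans r t w + θ) / L⌋) := by
      intro s hs1 hs2 θ n hn
      have hs0 : s ≠ 0 := abs_pos.1 (lt_of_lt_of_le (mul_pos G.a_pos (abs_pos.2 hσ)) hs1)
      have h1 := ent_le_add G.wt_nn (fun w => ⌊s * trans r t (n := n) w + θ⌋)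
        (fun w => ⌊(s * trans r t w + θ) / L⌋)
      have h2 := (G.close hn 0).2
      have h3 := ent_floor_le G.wt_nn (sum_wt G.sum_one n) (fun w => σ * trans r t w + 0)
        (fun w => s * trans r t w + θ) (σ / s) (-(σ / s * θ)) 0 fun w => by
          simp only [abs_le, field]; constructor <;> ring_nf <;> rfl
      have h4 : Real.log (|σ / s| + 2 * 0 + 3) ≤ Real.log (1 / a + 3) := by
        refine Real.log_le_log (by positivity) ?_
        rw [mul_zero, add_zero, abs_div]
        have : |σ| / |s| ≤ 1 / a := by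
          rw [div_le_div_iff₀ (abs_pos.2 hs0) G.a_pos]; linarith
        linarith
      have h5 := ent_floor_le G.wt_nn (sum_wt G.sum_one n) (fun w => (s * trans r t w + θ) / L)
        (fun w => σ / L * trans r t w + 0) (s / σ) (θ / L) 0 fun w => by
          simp only [abs_le, field]; constructor <;> ring_nf <;> rfl
      have h6 := (G.close ((hlevL σ).trans hn) 0).1
      have h7 : Real.log (|s / σ| + 2 * 0 + 3) ≤ Real.log 4 := by
        refine Real.log_le_log (by positivity) ?_
        rw [mul_zero, add_zero, abs_div]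
        have : |s| / |σ| ≤ 1 := (div_le_one (abs_pos.2 hσ)).2 hs2
        linarith
      simp only [jN] at h2 h6
      linarith
    induction k with
    | zero => intro s hs1 hs2; exact base s hs1 (by simpa using hs2)
    | succ k ih =>
      intro s hs1 hs2 θ n hn
      rcases le_or_gt |s| |σ| with hle | hgt
      · exact base s hs1 hle θ n (by omega)
      obtain ⟨n, rfl⟩ : ∃ n', n = n' + 1 := ⟨n - 1, by omega⟩
      rw [← cent_cons p n]
      refine le_trans ?_ (cent_pair_right_le (prodW_nonneg G.p_nonneg G.wt_nn) _ _ Prod.fst)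
      rw [cent_slice G.p_nonneg G.wt_nn]
      refine le_trans (le_of_eq (by rw [← sum_mul, G.sum_one, one_mul]))
        (sum_le_sum fun i _ => mul_le_mul_of_nonneg_left ?_ (G.pos i).le)
      have e : ∀ w : Fin n → ι, s * trans r t (Fin.cons i w : Fin (n + 1) → ι) + θ =
          s * r i * trans r t w + (s * t i + θ) := by
        intro w
        rw [trans, Fin.cons_zero, Fin.tail_cons, smul_eq_mul]; ring
      simp only [e]
      refine ih (s * r i) ?_ ?_ _ n (by omega)
      · rw [abs_mul, mul_comm a]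
        exact mul_le_mul hgt.le (G.a_le i) G.a_pos.le (abs_nonneg _)
      · rw [abs_mul]
        have := mul_le_mul_of_nonneg_left (G.le_q i) (abs_nonneg s)
        have := pow_nonneg G.q_pos.le k
        rw [pow_succ] at hs2
        nlinarith
  obtain ⟨k, hk⟩ : ∃ k : ℕ, |σ'| * q ^ k ≤ |σ| := by
    have h := (tendsto_pow_atTop_nhds_zero_of_lt_one G.q_pos.le G.q_lt).const_mul |σ'|
    rw [mul_zero] at h
    exact (h.eventually_le_const (abs_pos.2 hσ)).exists
  have ha1 : a * |σ| ≤ |σ'| := by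
    obtain ⟨i⟩ := G.nonempty
    have : a ≤ 1 := (G.a_le i).trans ((G.le_q i).trans G.q_lt.le)
    nlinarith [abs_nonneg σ]
  set n := max (lev q σ + k) (lev q σ')
  have h0 := key k σ' ha1 hk 0 n (le_max_left _ _)
  have h1 := (G.close (le_max_right (lev q σ + k) (lev q σ')) 0).1
  have h2 := (G.close ((hlevL σ').trans (le_max_right (lev q σ + k) (lev q σ'))) 0).2
  simp only [jN] at h1 h2
  set F : (Fin n → ι) → ℤ := fun w => ⌊σ' * trans r t w + 0⌋
  set Gc : (Fin n → ι) → ℤ := fun w => ⌊(σ' * trans r t w + 0) / L⌋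
  have h3 : ent (wt p) (fun w => (F w, Gc w)) = ent (wt p) Gc + cent (wt p) F Gc := ent_pair _ _ _
  have h4 : ent (wt p) (fun w => (Gc w, F w)) = ent (wt p) F + cent (wt p) Gc F := ent_pair _ _ _
  have h5 : ent (wt p) (fun w => (F w, Gc w)) = ent (wt p) (fun w => (Gc w, F w)) :=
    cent_congr_left G.wt_nn fun v w _ => by simp [and_comm]
  have h6 : cent (wt p) Gc F ≤ Real.log 4 := by
    refine (cent_floor_le G.wt_nn _ _ (1 / L) 0 0 fun w => by simp [field]).trans ?_
    rw [sum_wt G.sum_one, one_mul, mul_zero, add_zero, abs_of_pos (by positivity : (0 : ℝ) < 1 / L)]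
    exact Real.log_le_log (by positivity) (by linarith [(div_le_one hL0).2 hL])
  have h7 : Gc = fun w => ⌊σ' / L * trans r t w + 0⌋ :=
    funext fun w => by simp only [Gc]; ring_nf
  rw [← h7] at h2
  linarith

end Good

/-- `js` grows at rate at most `D` per logarithmic unit of scale. -/
def Win (p r t : ι → ℝ) (q D C : ℝ) : Prop :=
  ∀ σ L : ℝ, σ ≠ 0 → 1 ≤ L → js p r t q (L * σ) ≤ js p r t q σ + D * Real.log L + C

/-- The dimension `D` is attained. -/
def Low (p r t : ι → ℝ) (q D : ℝ) : Prop :=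
  ∀ ε > 0, ∃ C, ∀ L : ℝ, 1 ≤ L → (D - ε) * Real.log L - C ≤ js p r t q L

theorem dim_exists (p r : ι → ℝ) (a q T : ℝ) : ∃ C, ∀ t : ι → ℝ, Good p r t a q T →
    ∃ D, 0 ≤ D ∧ D ≤ 1 ∧ Win p r t q D C ∧ Low p r t q D := by
  set c := Good.c0 q T
  set C1 := 4 * c + Real.log (1 / a + 3) + 2 * Real.log 4 with hC1
  set C2 := C1 + Real.log (2 * radius q T + 3) with hC2
  refine ⟨|C1| + Real.log 4 + 2 * c, fun t G => ?_⟩
  have hR := G.radius_nonneg
  have hc : 0 ≤ c := G.c0_nonneg
  have hl4 : 0 ≤ Real.log 4 := Real.log_nonneg (by norm_num)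
  have hC10 : 0 ≤ C1 := by
    have : 0 ≤ Real.log (1 / a + 3) :=
      Real.log_nonneg (by linarith [(one_div_pos.2 G.a_pos).le])
    linarith
  set J := js p r t q
  let S : Set ℝ := {x | ∃ L : ℝ, 2 ≤ L ∧ x = (J L - C2) / Real.log L}
  have hSle : ∀ x ∈ S, x ≤ 1 := by
    rintro x ⟨L, hL, rfl⟩
    have hl : 0 < Real.log L := Real.log_pos (by linarith)
    rw [div_le_one hl]
    have h := G.js_le_log L
    have h' : Real.log (2 * (|L| * radius q T) + 3) ≤ Real.log L + Real.log (2 * radius q T + 3) := by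
      rw [← Real.log_mul (by positivity) (by positivity), abs_of_pos (by linarith)]
      exact Real.log_le_log (by positivity) (by nlinarith)
    simp only [J]
    linarith
  have hne : S.Nonempty := ⟨_, 2, le_rfl, rfl⟩
  have hbdd : BddAbove S := ⟨1, hSle⟩
  set D := sSup S
  have hup : ∀ L : ℝ, 2 ≤ L → J L ≤ D * Real.log L + C2 := by
    intro L hL
    have := le_csSup hbdd (show (J L - C2) / Real.log L ∈ S from ⟨L, hL, rfl⟩)
    rw [div_le_iff₀ (Real.log_pos (by linarith))] at this
    linarith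
  have hD1 : D ≤ 1 := csSup_le hne hSle
  have hD0 : 0 ≤ D := by
    by_contra hneg
    push Not at hneg
    obtain ⟨L, hL, hLlog⟩ : ∃ L : ℝ, 2 ≤ L ∧ C2 / -D + 1 ≤ Real.log L :=
      ⟨max 2 (Real.exp (C2 / -D + 1)), le_max_left _ _,
        (Real.le_log_iff_exp_le (lt_max_of_lt_left two_pos)).2 (le_max_right _ _)⟩
    have h1 := hup L hL
    have h2 : 0 ≤ J L := G.js_nonneg L
    have h3 : C2 / -D < Real.log L := by linarith
    rw [div_lt_iff₀ (by linarith)] at h3
    linarith
  have iter : ∀ σ L : ℝ, σ ≠ 0 → 1 ≤ L → ∀ n : ℕ,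
      J σ + n * (J (L * σ) - J σ - C1) ≤ J (L ^ n * σ) := by
    intro σ L hσ hL n
    induction n with
    | zero => simp
    | succ n ih =>
      have hLn : (1 : ℝ) ≤ L ^ n := one_le_pow₀ hL
      have h := G.inc (σ := L * σ) (σ' := L ^ (n + 1) * σ) (L := L)
        (mul_ne_zero (by linarith) hσ) (by
          rw [abs_mul, abs_mul, abs_of_pos (by linarith : 0 < L),
            abs_of_pos (by positivity : 0 < L ^ (n + 1))]
          refine mul_le_mul_of_nonneg_right ?_ (abs_nonneg σ)
          rw [pow_succ]; nlinarith) hL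
      have e1 : L * σ / L = σ := by field_simp
      have e2 : L ^ (n + 1) * σ / L = L ^ n * σ := by rw [pow_succ]; field_simp
      rw [e1, e2] at h
      push_cast
      simp only [J, c] at *
      linarith
  refine ⟨D, hD0, hD1, ?_, ?_⟩
  · intro σ L hσ hL
    rcases eq_or_lt_of_le hL with rfl | hL1
    · simp only [one_mul, Real.log_one, mul_zero, add_zero, J]
      linarith [abs_nonneg C1]
    have hlL := Real.log_pos hL1
    have key : ∀ n : ℕ, 2 ≤ L ^ n * |σ| →
        (n : ℝ) * (J (L * σ) - J σ - C1 - D * Real.log L) ≤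
          D * Real.log |σ| + C2 + (Real.log 4 + 2 * c) := by
      intro n hn
      have h1 := iter σ L hσ hL n
      have habs : |L ^ n * σ| = L ^ n * |σ| := by rw [abs_mul, abs_of_pos (by positivity)]
      have h2 : J (L ^ n * σ) ≤ J (L ^ n * |σ|) + (Real.log (1 + 3) + 2 * c) :=
        G.compare_le (by positivity) (by
          rw [habs, abs_of_pos (by positivity : 0 < L ^ n * |σ|), one_mul])
      have h3 := hup _ hn
      rw [Real.log_mul (by positivity) (abs_ne_zero.2 hσ), Real.log_pow] at h3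
      have h4 : 0 ≤ J σ := G.js_nonneg σ
      norm_num at h2
      linarith
    by_contra hcon
    push Not at hcon
    have hc' : 0 < J (L * σ) - J σ - C1 - D * Real.log L := by
      simp only [J]; linarith [le_abs_self C1]
    have hev1 : ∀ᶠ n : ℕ in atTop, 2 ≤ L ^ n * |σ| :=
      ((tendsto_pow_atTop_atTop_of_one_lt hL1).atTop_mul_const (abs_pos.2 hσ)).eventually_ge_atTop 2
    have hev2 : ∀ᶠ n : ℕ in atTop, D * Real.log |σ| + C2 + (Real.log 4 + 2 * c) <
        (n : ℝ) * (J (L * σ) - J σ - C1 - D * Real.log L) :=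
      (tendsto_natCast_atTop_atTop.atTop_mul_const hc').eventually_gt_atTop _
    obtain ⟨n, hn1, hn2⟩ := (hev1.and hev2).exists
    linarith [key n hn1]
  · intro ε hε
    obtain ⟨x, ⟨L, hL, rfl⟩, hx⟩ := exists_lt_of_lt_csSup hne (sub_lt_self D hε)
    have hlL : 0 < Real.log L := Real.log_pos (by linarith)
    have hb : 0 ≤ max (J L - C2) 0 := le_max_right _ _
    refine ⟨max (J L - C2) 0 + (Real.log 4 + 2 * c), fun X hX => ?_⟩
    set n := ⌊Real.log X / Real.log L⌋₊
    have hn1 : (n : ℝ) * Real.log L ≤ Real.log X :=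
      (le_div_iff₀ hlL).1 (Nat.floor_le (div_nonneg (Real.log_nonneg hX) hlL.le))
    have hn2 : Real.log X < (n + 1 : ℝ) * Real.log L :=
      (div_lt_iff₀ hlL).1 (Nat.lt_floor_add_one _)
    have hLn : L ^ n ≤ X := by
      rw [← Real.log_le_log_iff (by positivity) (by linarith), Real.log_pow]; exact hn1
    have hJ1 : J 1 ≤ Real.log (2 * radius q T + 3) := by
      have := G.js_le_log 1
      simpa [J] using this
    have h1 := iter 1 L one_ne_zero (by linarith) n
    rw [mul_one, mul_one] at h1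
    have h2 : J (L ^ n) ≤ J X + (Real.log (1 + 3) + 2 * c) := G.compare_le (by linarith)
      (by rw [one_mul, abs_of_pos (by positivity : (0 : ℝ) < L ^ n),
        abs_of_pos (by linarith : 0 < X)]; exact hLn)
    norm_num at h2
    have h3 : (n : ℝ) * (J L - C2) ≤ J X + (Real.log 4 + 2 * c) := by
      have h0 : 0 ≤ J 1 := G.js_nonneg 1
      have : (n : ℝ) * (J L - C2) ≤ n * (J L - J 1 - C1) :=
        mul_le_mul_of_nonneg_left (by linarith) (Nat.cast_nonneg n)
      linarith
    rw [lt_div_iff₀ hlL] at hx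
    rcases le_or_gt 0 (J L - C2) with hpos | hpos
    · rw [max_eq_left hpos]
      have a1 : (D - ε) * Real.log L * Real.log X ≤ (J L - C2) * Real.log X :=
        mul_le_mul_of_nonneg_right hx.le (Real.log_nonneg hX)
      have a2 : (J L - C2) * Real.log X ≤ (J L - C2) * ((n + 1 : ℝ) * Real.log L) :=
        mul_le_mul_of_nonneg_left hn2.le hpos
      have a3 : (D - ε) * Real.log X ≤ (J L - C2) * (n + 1) := by
        refine le_of_mul_le_mul_right (a := Real.log L) ?_ hlL
        linarith
      linarith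
    · have hneg : D - ε < 0 := by
        by_contra hh; push Not at hh
        linarith [mul_nonneg hh hlL.le]
      have := mul_nonpos_of_nonpos_of_nonneg hneg.le (Real.log_nonneg hX)
      have : 0 ≤ J X := G.js_nonneg X
      rw [max_eq_right hpos.le]
      linarith

end

end Vale.Agent.P114
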