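import Vale.Agent.P114.Block
import Vale.Agent.P114.Scale

/-! # The entropy gain of one coarse step of the system -/

namespace Vale.Agent.P114

noncomputable section

open scoped Classical
open Finset

variable {ι : Type} [Fintype ι] {p r t : ι → ℝ} {a q T : ℝ}

/-- The Lyapunov exponent in nats. -/
def lyap (p r : ι → ℝ) : ℝ := ∑ i, p i * -Real.log |r i|

theorem sum_wt_log (G : Good p r t a q T) : ∀ m : ℕ,
    ∑ w : Fin m → ι, wt p w * -Real.log |slope r w| = m * lyap p r
  | 0 => by simp [slope, wt]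
  | m + 1 => by
    rw [← (Fin.consEquiv (fun _ : Fin (m + 1) => ι)).sum_comp, Fintype.sum_prod_type]
    have e : ∀ i (v : Fin m → ι),
        wt p (Fin.cons i v : Fin (m + 1) → ι) * -Real.log |slope r (Fin.cons i v : Fin (m + 1) → ι)| =
          p i * -Real.log |r i| * wt p v + p i * (wt p v * -Real.log |slope r v|) := by
      intro i v
      rw [wt_succ, slope_succ, Fin.cons_zero, Fin.tail_cons, abs_mul,
        Real.log_mul (lt_of_lt_of_le G.a_pos (G.a_le i)).ne' (G.slope_pos v).ne']
      ring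
    simp only [Fin.consEquiv, Equiv.coe_fn_mk, e, sum_add_distrib, ← mul_sum, sum_wt G.sum_one,
      mul_one, sum_wt_log G m, ← sum_mul, G.sum_one]
    rw [lyap]; push_cast; ring

theorem sum_restrict {Ω γ : Type*} [Fintype Ω] (P : Ω → ℝ) (X : Ω → γ) (u : γ) :
    ∑ v, (if X v = u then P v else 0) = mass P X u := rfl

/-- The linear inverse inequality, applied to a level of the system. -/
theorem key_gain (p r : ι → ℝ) (a q T α δ Cw : ℝ) (hα : α < 1) (hδ : 0 < δ) :
    ∃ ε : ℝ, 0 < ε ∧ ε ≤ 1 ∧ ∃ C, ∀ t : ι → ℝ, Good p r t a q T → ∀ D : ℝ, D ≤ α →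
      Win p r t q D Cw → ∀ (m : ℕ) (σ : ℝ), 0 < σ → (∀ w : Fin m → ι, 1 ≤ σ * |slope r w|) →
      (1 - ε) * cent (wt (n := m) p) (fun w => ⌊trans r t w / |slope r w|⌋) (fun w => slope r w) +
        ε * cent (wt (n := m) p) (fun w => ⌊σ * trans r t w⌋) (fun w => slope r w) ≤
      D * (m * lyap p r) + ε * δ * Real.log σ + C := by
  set c := Good.c0 q T
  set R := radius q T
  obtain ⟨l, hl, ε, hε, hε1, hblock⟩ := block_gain α (Cw + 2 * c) δ hα hδ
  set l2 := (l : ℝ) * Real.log 2
  refine ⟨ε, hε, hε1, 2 * Real.log 2 + 2 * c + Cw + (Real.log 4 + 2 * c) + Real.log (2 * R + 3) +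
    ε * δ * l2 + Real.log ((2 : ℝ) ^ l + 3), fun t G D hD hW m σ hσ hlarge => ?_⟩
  have hR : 0 ≤ R := G.radius_nonneg
  have hlog2 := Real.log_pos (by norm_num : (1 : ℝ) < 2)
  set Pm := wt (n := m) p
  set N := lev q σ
  set Q := wt (n := N) p
  have hPm : 0 ≤ Pm := G.wt_nn
  have hPm1 : ∑ w, Pm w = 1 := sum_wt G.sum_one m
  have hQ : 0 ≤ Q := G.wt_nn
  have hQ1 : ∑ w, Q w = 1 := sum_wt G.sum_one N
  set PQ := prodW Pm Q
  have hPQ : 0 ≤ PQ := prodW_nonneg hPm hQ
  have hPQ1 : ∑ v, PQ v = 1 := by rw [sum_prodW, hPm1, hQ1, one_mul]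
  let x : (Fin m → ι) → ℤ := fun w => ⌊σ * trans r t w⌋
  let sl : (Fin m → ι) → ℝ := fun w => slope r w
  let Z : (Fin m → ι) → ℤ := fun w => ⌊trans r t w / |slope r w|⌋
  let S : (Fin m → ι) × (Fin N → ι) → ℤ := fun v => x v.1 + ⌊σ * sl v.1 * trans r t v.2⌋
  -- the whole is at most the scale entropy
  have h1 : cent PQ S (fun v => sl v.1) ≤ js p r t q σ + c + Real.log 2 := by
    let F : (Fin m → ι) × (Fin N → ι) → ℤ := fun v => ⌊σ * trans r t (joinEquiv ι N m v) + 0⌋
    refine (cent_le_ent hPQ _ _).trans ((ent_le_add hPQ S F).trans (add_le_add ?_ ?_))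
    · refine le_trans (le_of_eq ?_) (G.close (σ := σ) (Nat.le_add_right N m) 0).1
      exact cent_join p N m (fun w => ⌊σ * trans r t w + 0⌋) (fun _ => ())
    · refine (cent_le_log hPQ S F (fun _ => 2) (fun k => {k, k - 1}) (fun v => ?_) (fun v => ?_)).trans
        (le_of_eq (by rw [← sum_mul, hPQ1, one_mul]))
      · obtain ⟨u, w⟩ := v
        simp only [mem_insert, mem_singleton, S, F, x, sl, trans_join, smul_eq_mul, add_zero,
          mul_add, ← mul_assoc]
        have a1 := Int.le_floor_add (σ * trans r t u) (σ * slope r u * trans r t w)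
        have a2 := Int.le_floor_add_floor (σ * trans r t u) (σ * slope r u * trans r t w)
        omega
      · exact_mod_cast card_le_two
  -- one slope class
  have h2 : ∀ ρ ∈ univ.image sl,
      mass Pm sl ρ * (js p r t q (σ * ρ) - c - Real.log (2 * R + 3) - Real.log 2 -
          Real.log ((2 : ℝ) ^ l + 3) - ε * δ * (Real.log σ + l2)) +
        ((1 - ε) * cent (fun w => if sl w = ρ then Pm w else 0) Z (fun _ => ()) +
          ε * cent (fun w => if sl w = ρ then Pm w else 0) x (fun _ => ())) ≤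
      cent (fun v => if sl v.1 = ρ then PQ v else 0) S (fun _ => ()) := by
    intro ρ hρ
    obtain ⟨w0, -, hw0⟩ := mem_image.1 hρ
    have hρ1 : |ρ| ≤ 1 := hw0 ▸ G.slope_le_one w0
    have hρ0 : 0 < |ρ| := hw0 ▸ G.slope_pos w0
    have hσρ : 1 ≤ σ * |ρ| := hw0 ▸ hlarge w0
    set P0 : (Fin m → ι) → ℝ := fun w => if sl w = ρ then Pm w else 0
    have hP0 : 0 ≤ P0 := fun w => by
      simp only [P0, Pi.zero_apply]; split_ifs; exacts [hPm w, le_rfl]
    set M := mass Pm sl ρ
    have hM : 0 < M := by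
      subst hw0
      exact mass_pos hPm sl (prod_pos fun i _ => G.pos (w0 i))
    have hM0 : ∑ w, P0 w = M := rfl
    set P : (Fin m → ι) → ℝ := fun w => M⁻¹ * P0 w with hPdef
    have hP : 0 ≤ P := fun w => mul_nonneg (inv_nonneg.2 hM.le) (hP0 w)
    have hP1 : ∑ w, P w = 1 := by
      simp only [hPdef, ← mul_sum, hM0, inv_mul_cancel₀ hM.ne']
    let y : (Fin N → ι) → ℤ := fun w => ⌊σ * ρ * trans r t w⌋
    have hey : |ent Q y - js p r t q (σ * ρ)| ≤ c := by
      have hlev : lev q (σ * ρ) ≤ N := G.lev_mono (by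
        rw [abs_mul]; exact mul_le_of_le_one_right (abs_nonneg σ) hρ1)
      have := G.close hlev 0
      simp only [jN, add_zero] at this
      rw [abs_le]
      constructor
      · linarith [this.2]
      · linarith [this.1]
    have hwin : ∀ u L : ℕ, 0 < u → 0 < L → cent Q (fun w => y w / (u : ℤ))
        (fun w => y w / ((u * L : ℕ) : ℤ)) ≤ α * Real.log L + (Cw + 2 * c) := by
      intro u L hu hL
      have e1 : ∀ k : ℕ, (fun w => y w / (k : ℤ)) = fun w => ⌊σ * ρ / k * trans r t w + 0⌋ :=
        fun k => funext fun w => by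
          simp only [y]
          rw [← Int.floor_div_natCast, add_zero]
          congr 1; ring
      have e2 : ent Q (fun w => (y w / (u : ℤ), y w / ((u * L : ℕ) : ℤ))) =
          ent Q (fun w => y w / (u : ℤ)) := cent_congr_left hQ fun v w _ => by
        simp only [Prod.mk.injEq]
        refine ⟨fun h => h.1, fun h => ⟨h, ?_⟩⟩
        push_cast
        rw [← Int.ediv_ediv_of_nonneg (by positivity), ← Int.ediv_ediv_of_nonneg (by positivity), h]
      rw [ent_pair] at e2
      have hu1 : (1 : ℝ) ≤ u := by exact_mod_cast hu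
      have hL1 : (1 : ℝ) ≤ L := by exact_mod_cast hL
      have hlev : ∀ k : ℕ, 0 < k → lev q (σ * ρ / k) ≤ N := fun k hk => G.lev_mono (by
        have hk1 : (1 : ℝ) ≤ k := by exact_mod_cast hk
        rw [abs_div, abs_mul, abs_of_pos (by linarith : (0 : ℝ) < k), div_le_iff₀ (by linarith)]
        exact mul_le_mul_of_nonneg_left (hρ1.trans hk1) (abs_nonneg σ))
      have c1 := (G.close (hlev u hu) 0).1
      have c2 := (G.close (hlev (u * L) (Nat.mul_pos hu hL)) 0).2
      simp only [jN] at c1 c2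
      rw [e1, e1] at e2 ⊢
      have hw := hW (σ * ρ / (u * L : ℕ)) L
        (div_ne_zero (mul_ne_zero hσ.ne' (abs_pos.1 hρ0)) (by exact_mod_cast (Nat.mul_pos hu hL).ne'))
        hL1
      rw [show (L : ℝ) * (σ * ρ / (u * L : ℕ)) = σ * ρ / u by push_cast; field_simp] at hw
      have : D * Real.log L ≤ α * Real.log L :=
        mul_le_mul_of_nonneg_right hD (Real.log_nonneg hL1)
      linarith
    have hex : ∃ n : ℕ, σ * |ρ| ≤ 2 ^ (l * n) := by
      obtain ⟨n, hn⟩ := pow_unbounded_of_one_lt (σ * |ρ|) (one_lt_two : (1 : ℝ) < 2)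
      exact ⟨n, hn.le.trans (pow_le_pow_right₀ one_le_two (Nat.le_mul_of_pos_left n hl))⟩
    set n := Nat.find hex
    have hn : σ * |ρ| ≤ 2 ^ (l * n) := Nat.find_spec hex
    have hn' : (2 : ℝ) ^ (l * n) ≤ σ * |ρ| * 2 ^ l := by
      rcases Nat.eq_zero_or_pos n with h0 | h0
      · rw [h0, mul_zero, pow_zero]
        exact le_trans hσρ (le_mul_of_one_le_right (by linarith) (one_le_pow₀ one_le_two))
      · have := Nat.find_min hex (show n - 1 < n by omega)
        push Not at this
        calc (2 : ℝ) ^ (l * n) = 2 ^ (l * (n - 1)) * 2 ^ l := by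
              rw [← pow_add, ← mul_add_one l (n - 1), show n - 1 + 1 = n by omega]
          _ ≤ _ := mul_le_mul_of_nonneg_right this.le (by positivity)
    have hb := hblock P Q x y hP hP1 hQ hQ1 hwin n
    set Mz := (2 : ℤ) ^ (l * n) with hMz
    have hfd : ∀ v : ℝ, ⌊v⌋ / Mz = ⌊v / (2 : ℝ) ^ (l * n)⌋ := fun v => by
      rw [hMz, show (2 : ℤ) ^ (l * n) = ((2 ^ (l * n) : ℕ) : ℤ) by simp, ← Int.floor_div_natCast]
      simp
    have hy : ent Q (fun w => y w / Mz) ≤ Real.log (2 * R + 3) := by
      simp only [y, hfd]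
      refine ent_floor_bound hQ hQ1 _ _ fun w => ?_
      rw [abs_div, abs_mul, abs_mul, abs_of_pos hσ,
        abs_of_pos (by positivity : (0 : ℝ) < 2 ^ (l * n)), div_le_iff₀ (by positivity), mul_comm R]
      exact mul_le_mul hn (G.trans_le w) (abs_nonneg _) (by positivity)
    have hx : ent P Z ≤ ent P (fun w => x w / Mz) + Real.log ((2 : ℝ) ^ l + 3) := by
      simp only [x, hfd]
      have hcongr : ent P Z = ent P (fun w => ⌊trans r t w / |ρ|⌋) := cent_congr_supp fun w hw => by
        have : sl w = ρ := by by_contra h; exact hw (by simp [P, P0, h])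
        simp [Z, ← this, sl]
      rw [hcongr]
      have := ent_floor_le hP hP1 (fun w => trans r t w / |ρ|)
        (fun w => σ * trans r t w / 2 ^ (l * n)) (2 ^ (l * n) / (σ * |ρ|)) 0 0 fun w => by
          rw [add_zero, show 2 ^ (l * n) / (σ * |ρ|) * (σ * trans r t w / 2 ^ (l * n)) =
            trans r t w / |ρ| by field_simp, sub_self, abs_zero]
      refine this.trans (add_le_add le_rfl (Real.log_le_log (by positivity) ?_))
      rw [mul_zero, add_zero, abs_of_pos (by positivity)]
      have : (2 : ℝ) ^ (l * n) / (σ * |ρ|) ≤ 2 ^ l := by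
        rw [div_le_iff₀ (by positivity)]; linarith
      linarith
    have hln : Real.log 2 * ((l * n : ℕ) : ℝ) ≤ Real.log σ + l2 := by
      have h := Real.log_le_log (by positivity) hn'
      rw [Real.log_pow, Real.log_mul (by positivity) (by positivity), Real.log_pow,
        Real.log_mul hσ.ne' hρ0.ne'] at h
      have : Real.log |ρ| ≤ 0 := Real.log_nonpos hρ0.le hρ1
      simp only [l2]; linarith
    have hlhs : cent (fun v => if sl v.1 = ρ then PQ v else 0) S (fun _ => ()) =
        M * ent (prodW P Q) (fun v => x v.1 + y v.2) := by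
      have e : (fun v : (Fin m → ι) × (Fin N → ι) => if sl v.1 = ρ then PQ v else 0) =
          fun v => M * prodW P Q v := funext fun v => by
        simp only [PQ, prodW, P, P0]
        by_cases h : sl v.1 = ρ
        · rw [if_pos h, if_pos h]; field_simp
        · simp [h]
      rw [e, cent_smul M _ (prodW_nonneg hP hQ), ent]
      congr 1
      refine cent_congr_supp fun v hv => ⟨?_, rfl⟩
      have : sl v.1 = ρ := by by_contra h; exact hv (by simp [prodW, P, P0, h])
      simp only [S, y, this]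
    have hP0eq : ∀ X : (Fin m → ι) → ℤ, cent P0 X (fun _ => ()) = M * ent P X := fun X => by
      have : P0 = fun w => M * P w := funext fun w => by simp only [P]; field_simp
      rw [this, cent_smul M P hP]; rfl
    rw [hlhs, hP0eq, hP0eq]
    have g1 := (abs_le.1 hey).1
    have g2 : (1 - ε) * ent P Z ≤
        (1 - ε) * ent P (fun w => x w / Mz) + Real.log ((2 : ℝ) ^ l + 3) := by
      have := mul_le_mul_of_nonneg_left hx (sub_nonneg.2 hε1)
      have hl0 : 0 ≤ Real.log ((2 : ℝ) ^ l + 3) := Real.log_nonneg (by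
        linarith [pow_nonneg (zero_le_two : (0 : ℝ) ≤ 2) l])
      nlinarith
    have g3 := mul_le_mul_of_nonneg_left hln (by positivity : 0 ≤ ε * δ)
    have hin : (js p r t q (σ * ρ) - c - Real.log (2 * R + 3) - Real.log 2 -
        Real.log ((2 : ℝ) ^ l + 3) - ε * δ * (Real.log σ + l2)) +
        ((1 - ε) * ent P Z + ε * ent P x) ≤ ent (prodW P Q) (fun v => x v.1 + y v.2) := by linarith
    have := mul_le_mul_of_nonneg_left hin hM.le
    linarith
  have h3 := sum_le_sum h2
  have eS : ∑ ρ ∈ univ.image sl, cent (fun v => if sl v.1 = ρ then PQ v else 0) S (fun _ => ())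
      = cent PQ S (fun v => sl v.1) := by
    have hsub : univ.image (fun v : (Fin m → ι) × (Fin N → ι) => sl v.1) ⊆ univ.image sl := by
      intro z hz
      obtain ⟨v, -, rfl⟩ := mem_image.1 hz
      exact mem_image_of_mem sl (mem_univ v.1)
    rw [← sum_subset hsub fun z _ hz => ?_, sum_cent_restrict PQ S (fun _ => ()) (fun v => sl v.1)]
    · exact cent_congr_right PQ fun v w => by simp
    · have : ∀ v, (if sl v.1 = z then PQ v else 0) = 0 := fun v =>
        if_neg fun h => hz (mem_image.2 ⟨v, by simp, h⟩)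
      simp [cent, this]
  have eC : ∀ X : (Fin m → ι) → ℤ,
      ∑ ρ ∈ univ.image sl, cent (fun w => if sl w = ρ then Pm w else 0) X (fun _ => ())
        = cent Pm X sl := fun X => by
    rw [sum_cent_restrict Pm X (fun _ => ()) sl]
    exact cent_congr_right Pm fun v w => by simp
  rw [eS] at h3
  rw [sum_add_distrib, sum_add_distrib, ← mul_sum, ← mul_sum, eC, eC] at h3
  rw [← sum_mul_comp Pm sl (fun ρ => js p r t q (σ * ρ) - c - Real.log (2 * R + 3) - Real.log 2 -
    Real.log ((2 : ℝ) ^ l + 3) - ε * δ * (Real.log σ + l2))] at h3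
  have h4 : ∀ w : Fin m → ι,
      js p r t q σ - D * -Real.log |slope r w| - Cw - (Real.log 4 + 2 * c) ≤
        js p r t q (σ * slope r w) := by
    intro w
    have hs := G.slope_pos w
    have hs0 : slope r w ≠ 0 := abs_pos.1 hs
    have := hW (σ * slope r w) (1 / |slope r w|) (mul_ne_zero hσ.ne' hs0)
      ((one_le_div hs).2 (G.slope_le_one w))
    have h' := G.compare_le (σ := 1 / |slope r w| * (σ * slope r w)) (σ' := σ) (K := 1)
      (mul_ne_zero (by positivity) (mul_ne_zero hσ.ne' hs0)) (by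
        rw [abs_mul, abs_mul, abs_div, abs_one, abs_abs, one_mul]; field_simp; rfl)
    rw [Real.log_div one_ne_zero hs.ne', Real.log_one, zero_sub] at this
    rw [show (1 : ℝ) + 3 = 4 by norm_num] at h'
    linarith
  have h5 := sum_le_sum fun w (_ : w ∈ univ) => mul_le_mul_of_nonneg_left
    (sub_le_sub_right (sub_le_sub_right (sub_le_sub_right (sub_le_sub_right
      (sub_le_sub_right (h4 w) c) (Real.log (2 * R + 3))) (Real.log 2))
      (Real.log ((2 : ℝ) ^ l + 3))) (ε * δ * (Real.log σ + l2))) (hPm w)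
  have e7 := sum_wt_log G m
  simp only [mul_sub, sum_sub_distrib, ← sum_mul, hPm1, one_mul] at h5
  have e8 : ∑ w, Pm w * (D * -Real.log |slope r w|) = D * (m * lyap p r) := by
    rw [← e7, mul_sum]; exact sum_congr rfl fun w _ => by ring
  rw [e8] at h5
  simp only [mul_sub, sum_sub_distrib, ← sum_mul, hPm1, one_mul] at h3
  change (1 - ε) * cent Pm Z sl + ε * cent Pm x sl ≤ _
  linarith

end

end Vale.Agent.P114
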