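import Vale.Agent.P114.Meas.Upper
import Vale.Agent.P114.Gain

/-!
# P114: the upper bound with finite weights

If the entropy of the level-`m` maps is less than `s m lyap`, some set of positive measure has
dimension at most `s`.
-/

open MeasureTheory ProbabilityTheory Set Filter
open scoped ENNReal

namespace Vale.Agent.P114

noncomputable section

variable {ι : Type} [Fintype ι]

theorem blockMap_eq (r t : ι → ℝ) : ∀ (m : ℕ) (ω : ℕ → ι),
    Meas.blockMap r t m ω = (slope r (fun j : Fin m => ω j), trans r t (fun j : Fin m => ω j))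
  | 0, ω => by simp [Meas.blockMap, Meas.slope, Meas.trans, slope, trans]
  | m + 1, ω => by
    have h := blockMap_eq r t m (Meas.shift ω)
    have h1 := congrArg Prod.fst h
    have h2 := congrArg Prod.snd h
    simp only [Meas.blockMap] at h1 h2
    refine Prod.ext ?_ ?_
    · show Meas.slope r ω (m + 1) = slope r (fun j : Fin (m + 1) => ω j)
      rw [Meas.slope_succ, slope_succ, h1]
      rfl
    · show Meas.trans r t ω (m + 1) = trans r t (fun j : Fin (m + 1) => ω j)
      rw [trans, show Meas.trans r t ω (m + 1) =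
          t (ω 0) + r (ω 0) * Meas.trans r t (Meas.shift ω) m by
        simp only [Meas.trans, Finset.sum_range_succ', Meas.slope_succ, Finset.mul_sum, mul_assoc]
        simp [Meas.slope, Meas.shift, add_comm], h2]
      rfl

variable [MeasurableSpace ι] [MeasurableSingletonClass ι]

theorem real_cylinder (ν : Measure ι) [IsProbabilityMeasure ν] (m : ℕ) (w : Fin m → ι) :
    ((Meas.seqMeasure ν).map fun ω (j : Fin m) => ω j).real {w} = ∏ j, ν.real {w j} := by
  have hm : Measurable fun (ω : ℕ → ι) (j : Fin m) => ω j := by fun_prop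
  rw [map_measureReal_apply hm (measurableSet_singleton w)]
  rcases Nat.eq_zero_or_pos m with rfl | hpos
  · have e : (fun (ω : ℕ → ι) (j : Fin 0) => ω j) ⁻¹' {w} = univ :=
      eq_univ_of_forall fun ω => funext fun j => j.elim0
    simp [e]
  set w' : ℕ → ι := fun n => if h : n < m then w ⟨n, h⟩ else w ⟨0, hpos⟩ with hw'
  have e : (fun (ω : ℕ → ι) (j : Fin m) => ω j) ⁻¹' {w} =
      Set.pi (Finset.range m : Set ℕ) fun n => {w' n} := by
    ext ω
    simp only [mem_preimage, Set.mem_singleton_iff, Set.mem_pi, Finset.coe_range, Set.mem_Iio]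
    constructor
    · intro h n hn
      rw [hw', ← h]
      simp [hn]
    · intro h
      funext j
      have := h j j.2
      simpa [hw', j.2] using this
  rw [e, measureReal_def, Meas.seqMeasure, Measure.infinitePi_pi _ fun n _ => measurableSet_singleton _,
    ENNReal.toReal_prod, ← Fin.prod_univ_eq_prod_range (fun n => (ν {w' n}).toReal) m]
  refine Finset.prod_congr rfl fun j _ => ?_
  simp [hw', j.2, measureReal_def]

/-- Integrals of functions of the first `m` letters. -/
theorem integral_word (ν : Measure ι) [IsProbabilityMeasure ν] (m : ℕ) (f : (Fin m → ι) → ℝ) :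
    ∫ ω, f (fun j => ω j) ∂Meas.seqMeasure ν = ∑ w : Fin m → ι, (∏ j, ν.real {w j}) * f w := by
  have hm : Measurable fun (ω : ℕ → ι) (j : Fin m) => ω j := by fun_prop
  rw [← integral_map hm.aemeasurable (measurable_of_countable f).aestronglyMeasurable,
    integral_fintype (Integrable.of_finite)]
  simp only [smul_eq_mul, real_cylinder]

omit [MeasurableSpace ι] [MeasurableSingletonClass ι] in
/-- A set of positive measure and dimension at most `s`, with finite weights. -/
theorem exists_small_dim [Nonempty ι] {p r t : ι → ℝ} (hp : ∀ i, 0 < p i) (hp1 : ∑ i, p i = 1)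
    (hr : ∀ i, r i ≠ 0) (hr1 : ∀ i, |r i| < 1) (μ : Measure ℝ) [IsProbabilityMeasure μ]
    (hμ : μ = ∑ i, ENNReal.ofReal (p i) • μ.map (fun x => r i * x + t i)) {m : ℕ} (hm : 1 ≤ m)
    {s : ℝ} (hs0 : 0 < s)
    (hs : ent (wt (n := m) p) (fun w => (slope r w, trans r t w)) < s * (m * lyap p r)) :
    ∃ E : Set ℝ, MeasurableSet E ∧ μ E ≠ 0 ∧ dimH E ≤ ENNReal.ofReal s := by
  classical
  letI : MeasurableSpace ι := ⊤
  haveI : MeasurableSingletonClass ι := ⟨fun _ => MeasurableSpace.measurableSet_top⟩
  set ν : Measure ι := ∑ i, ENNReal.ofReal (p i) • Measure.dirac i with hνdef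
  have hνi : ∀ i, ν {i} = ENNReal.ofReal (p i) := by
    intro i
    simp [hνdef, Measure.finsetSum_apply, Measure.dirac_apply' _ (measurableSet_singleton i),
      Set.indicator_apply]
  haveI : IsProbabilityMeasure ν := ⟨by
    simp [hνdef, Measure.finsetSum_apply, ← ENNReal.ofReal_sum_of_nonneg fun i _ => (hp i).le, hp1]⟩
  have hν : ∀ i, ν {i} ≠ 0 := fun i => by simp [hνi, hp i]
  have hreal : ∀ i, ν.real {i} = p i := fun i => by simp [measureReal_def, hνi, (hp i).le]
  have hlaw : μ = Meas.law ν (Meas.coding r t) := Meas.eq_law t hr1 ν (by simpa [hνi] using hμ)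
  have hword : ∀ f : (Fin m → ι) → ℝ,
      ∫ ω, f (fun j => ω j) ∂Meas.seqMeasure ν = ∑ w : Fin m → ι, wt p w * f w := fun f => by
    rw [integral_word]
    simp [wt, hreal]
  have hmass : ∀ g : ℝ × ℝ, Meas.mapProb r t ν m g =
      mass (wt (n := m) p) (fun w => (slope r w, trans r t w)) g := by
    intro g
    have hs' : MeasurableSet (Meas.blockMap r t m ⁻¹' {g}) :=
      Meas.measurable_blockMap r t m (measurableSet_singleton g)
    rw [Meas.mapProb, ← integral_indicator_one hs']
    have e : (fun ω => (Meas.blockMap r t m ⁻¹' {g}).indicator (1 : (ℕ → ι) → ℝ) ω) = fun ω =>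
        (fun w : Fin m → ι => if (slope r w, trans r t w) = g then (1 : ℝ) else 0)
          (fun j => ω j) := by
      funext ω
      simp [Set.indicator_apply, blockMap_eq]
    rw [show (∫ ω, (Meas.blockMap r t m ⁻¹' {g}).indicator 1 ω ∂Meas.seqMeasure ν) = _ from
      congrArg (fun F => ∫ ω, F ω ∂Meas.seqMeasure ν) e, hword]
    simp only [mass, mul_ite, mul_one, mul_zero]
    exact Finset.sum_congr rfl fun x _ => by split_ifs <;> rfl
  have hent : Meas.blockEntropy r t ν m =
      ent (wt (n := m) p) (fun w => (slope r w, trans r t w)) := by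
    rw [Meas.blockEntropy]
    simp only [blockMap_eq, hmass]
    rw [hword fun w => -Real.log (mass (wt (n := m) p) (fun w => (slope r w, trans r t w))
      (slope r w, trans r t w))]
    simp only [ent, cent, mass_unit, sum_wt hp1, Real.log_one, zero_sub]
    refine Finset.sum_congr rfl fun w _ => ?_
    rw [mass_congr (X := fun v => ((slope r v, trans r t v), ()))
      (Y := fun v => (slope r v, trans r t v)) (b := (slope r w, trans r t w)) fun v => by simp]
  have hsl : ∫ ω, -Real.log |Meas.slope r ω m| ∂Meas.seqMeasure ν = m * lyap p r := by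
    have e : (fun ω => -Real.log |Meas.slope r ω m|) = fun ω =>
        (fun w : Fin m → ι => ∑ j, -Real.log |r (w j)|) (fun j => ω j) := by
      funext ω
      rw [show Meas.slope r ω m = slope r (fun j : Fin m => ω j) from
        congrArg Prod.fst (blockMap_eq r t m ω), slope, Finset.abs_prod,
        Real.log_prod fun j _ => abs_ne_zero.2 (hr _)]
      simp
    have hf : ∀ j : Fin m, ∫ ω, -Real.log |r (ω (j : ℕ))| ∂Meas.seqMeasure ν = lyap p r := by
      intro j
      have hmp := measurePreserving_eval_infinitePi (fun _ : ℕ => ν) (j : ℕ)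
      have hmeas : Measurable fun i => -Real.log |r i| := measurable_of_countable _
      calc ∫ ω, -Real.log |r (ω (j : ℕ))| ∂Meas.seqMeasure ν
          = ∫ i, -Real.log |r i| ∂(Meas.seqMeasure ν).map (fun ω => ω (j : ℕ)) :=
            (integral_map hmp.measurable.aemeasurable hmeas.aestronglyMeasurable).symm
        _ = ∫ i, -Real.log |r i| ∂ν := by rw [Meas.seqMeasure, hmp.map_eq]
        _ = _ := by rw [integral_fintype Integrable.of_finite]; simp [hreal, lyap]
    have hint : ∀ j : Fin m,
        Integrable (fun ω : ℕ → ι => -Real.log |r (ω (j : ℕ))|) (Meas.seqMeasure ν) := fun j => by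
      have hmeas : Measurable fun i => -Real.log |r i| := measurable_of_countable _
      exact ((measurePreserving_eval_infinitePi (fun _ : ℕ => ν) (j : ℕ)).integrable_comp
        hmeas.aestronglyMeasurable).2 Integrable.of_finite
    rw [e]
    show ∫ ω, ∑ j : Fin m, -Real.log |r (ω (j : ℕ))| ∂Meas.seqMeasure ν = _
    rw [integral_finsetSum _ fun j _ => hint j, Finset.sum_congr rfl fun j _ => hf j]
    simp
  obtain ⟨E, hE, hpos, hdim⟩ :=
    Meas.exists_pos_dimH_le t ν hr hr1 hν hm hs0 (by rw [hent, hsl]; exact hs)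
  exact ⟨E, hE, hlaw ▸ hpos, hdim⟩

end

end Vale.Agent.P114
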