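import Vale.Agent.P114.Induct
import Vale.Agent.P114.DimLower
import Vale.Agent.P114.UpperFinite
import Mathlib.FieldTheory.IntermediateField.Adjoin.Basic
import Mathlib.LinearAlgebra.Dimension.Free
import Mathlib.Topology.MetricSpace.HausdorffDimension

/-!
# P114: from a lower bound on the entropy dimension to the dimension of the measure
-/

namespace Vale.Agent.P114.Formula

noncomputable section

open scoped Classical ENNReal
open Finset MeasureTheory

variable {ι : Type} [Fintype ι]

/-- The composition along a word `w`, namely `φ_{w 0} ∘ ⋯ ∘ φ_{w (n-1)}`. -/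
def compose (r t : ι → ℝ) : {n : ℕ} → (Fin n → ι) → ℝ → ℝ
  | 0, _ => fun x => x
  | _ + 1, w => fun x => r (w 0) * compose r t (Fin.tail w) x + t (w 0)

/-- The probability that the random composition `G_n` equals `g`. -/
def mapProb (p r t : ι → ℝ) (n : ℕ) (g : ℝ → ℝ) : ℝ :=
  ∑ w : Fin n → ι, if compose r t w = g then ∏ k, p (w k) else 0

/-- The Shannon entropy, base 2, of the random composition `G_n`. -/
def entropyG (p r t : ι → ℝ) (n : ℕ) : ℝ :=
  ∑ g ∈ (univ : Finset (Fin n → ι)).image (fun w => compose r t w),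
    -(mapProb p r t n g * Real.logb 2 (mapProb p r t n g))

/-- The random-walk entropy rate. -/
def hRW (p r t : ι → ℝ) : ℝ := ⨅ n : ℕ, entropyG p r t (n + 1) / ((n + 1 : ℕ) : ℝ)

/-- The Lyapunov exponent. -/
def chi (p r : ι → ℝ) : ℝ := -∑ i, p i * Real.logb 2 |r i|

/-- The lower Hausdorff dimension of a measure. -/
def lowerDim (μ : Measure ℝ) : ℝ≥0∞ :=
  ⨅ (E : Set ℝ) (_ : MeasurableSet E) (_ : 0 < μ E), dimH E

/-- The self-similar measure exists, and every probability measure satisfying the self-similarity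
equation has lower Hausdorff dimension `min 1 (hRW / chi)`. -/
def IsSelfSimilarFormula (p r t : ι → ℝ) : Prop :=
  (∃ μ : Measure ℝ, IsProbabilityMeasure μ ∧
      μ = ∑ i, ENNReal.ofReal (p i) • μ.map (fun x => r i * x + t i)) ∧
    ∀ μ : Measure ℝ, IsProbabilityMeasure μ →
      μ = ∑ i, ENNReal.ofReal (p i) • μ.map (fun x => r i * x + t i) →
        lowerDim μ = ENNReal.ofReal (min 1 (hRW p r t / chi p r))

open Vale.Agent.P114

omit [Fintype ι] in
theorem compose_eq (r t : ι → ℝ) : ∀ {n : ℕ} (w : Fin n → ι) (x : ℝ),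
    compose r t w x = P114.slope r w * x + P114.trans r t w
  | 0, w, x => by simp [compose, P114.slope, P114.trans]
  | n + 1, w, x => by
    change r (w 0) * compose r t (Fin.tail w) x + t (w 0) = _
    rw [compose_eq r t (Fin.tail w) x, Vale.Agent.P114.slope_succ, P114.trans, smul_eq_mul]; ring

omit [Fintype ι] in
theorem compose_eq_iff (r t : ι → ℝ) {n : ℕ} (v w : Fin n → ι) :
    compose r t v = compose r t w ↔ (P114.slope r v, P114.trans r t v) = (P114.slope r w, P114.trans r t w) := by
  constructor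
  · intro h
    have h0 := congrFun h 0
    have h1 := congrFun h 1
    simp only [compose_eq, mul_zero, zero_add, mul_one] at h0 h1
    exact Prod.ext (by linarith) h0
  · intro h
    obtain ⟨h1, h2⟩ := Prod.mk.inj h
    funext x
    rw [compose_eq, compose_eq, h1, h2]

theorem entropyG_eq {p r t : ι → ℝ} (hp : ∀ i, 0 ≤ p i) (hp1 : ∑ i, p i = 1) (n : ℕ) :
    entropyG p r t n =
      ent (wt (n := n) p) (fun w => (P114.slope r w, P114.trans r t w)) / Real.log 2 := by
  have e : ent (wt (n := n) p) (fun w => (P114.slope r w, P114.trans r t w)) =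
      ∑ g ∈ (univ : Finset (Fin n → ι)).image (fun w => compose r t w),
        mapProb p r t n g * -Real.log (mapProb p r t n g) := by
    have hc : ent (wt (n := n) p) (fun w => (P114.slope r w, P114.trans r t w)) =
        ent (wt (n := n) p) (fun w => compose r t w) :=
      cent_congr_left (wt_nonneg hp) fun v w _ => (compose_eq_iff r t v w).symm
    have hm : ∀ g, mass (wt (n := n) p) (fun w => compose r t w) g = mapProb p r t n g := by
      intro g
      simp only [mass, mapProb, wt]
    rw [hc, ← sum_congr rfl fun g _ => show mass (wt (n := n) p) (fun w => compose r t w) g *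
      -Real.log (mapProb p r t n g) = mapProb p r t n g * -Real.log (mapProb p r t n g) by rw [hm],
      ← sum_mul_comp (wt (n := n) p) (fun w => compose r t w)
        (fun g => -Real.log (mapProb p r t n g))]
    simp only [ent, cent, mass_unit, sum_wt hp1, Real.log_one]
    refine sum_congr rfl fun w _ => ?_
    rw [mass_congr (Y := fun w : Fin n → ι => compose r t w) (b := compose r t w) fun v => by simp,
      hm]
    ring
  rw [e, entropyG, sum_div]
  refine sum_congr rfl fun g _ => ?_
  rw [Real.logb]; ring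

theorem chi_eq (p r : ι → ℝ) : chi p r = lyap p r / Real.log 2 := by
  rw [chi, lyap, sum_div, ← sum_neg_distrib]
  refine sum_congr rfl fun i _ => ?_
  rw [Real.logb]; ring

theorem hRW_eq {p r t : ι → ℝ} (hp : ∀ i, 0 ≤ p i) (hp1 : ∑ i, p i = 1) :
    hRW p r t = (⨅ n : ℕ, ent (wt (n := n + 1) p) (fun w => (P114.slope r w, P114.trans r t w)) /
      ((n + 1 : ℕ) : ℝ)) / Real.log 2 := by
  rw [hRW, div_eq_mul_inv _ (Real.log 2),
    Real.iInf_mul_of_nonneg (inv_nonneg.2 (Real.log_nonneg one_le_two))]
  refine iInf_congr fun n => ?_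
  rw [entropyG_eq hp hp1]; ring

/-- For algebraic ratios the entropy rate modulo the trivial subspace is bounded by the dimension. -/
theorem exists_dim [Nonempty ι] {p r t : ι → ℝ} (hp : ∀ i, 0 < p i) (hp1 : ∑ i, p i = 1)
    (hr0 : ∀ i, r i ≠ 0) (hr1 : ∀ i, |r i| < 1) (halg : ∀ i, IsAlgebraic ℚ (r i)) :
    ∃ a q T D : ℝ, Good p r t a q T ∧ Low p r t q D ∧
      min (lyap p r) (⨅ n : ℕ, ent (wt (n := n + 1) p) (fun w => (P114.slope r w, P114.trans r t w)) /
        ((n + 1 : ℕ) : ℝ)) ≤ D * lyap p r := by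
  let F := IntermediateField.adjoin ℚ (Set.range r)
  haveI : FiniteDimensional ℚ F :=
    IntermediateField.finiteDimensional_adjoin (by
      rintro x ⟨i, rfl⟩; exact (halg i).isIntegral)
  haveI : NumberField F := { to_charZero := inferInstance, to_finiteDimensional := inferInstance }
  let emb : F →+* ℝ := algebraMap F ℝ
  let rF : ι → F := fun i => ⟨r i, IntermediateField.subset_adjoin ℚ _ ⟨i, rfl⟩⟩
  let S : Submodule F ℝ := Submodule.span F (Set.range t)
  haveI : FiniteDimensional F S := FiniteDimensional.span_of_finite F (Set.finite_range t)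
  let B := Module.finBasis F S
  let τ : Fin (Module.finrank F S) → ℝ := fun j => (B j : ℝ)
  let tS : ι → S := fun i => ⟨t i, Submodule.subset_span ⟨i, rfl⟩⟩
  let c : ι → Fin (Module.finrank F S) → F := fun i j => B.repr (tS i) j
  have hdot : ∀ v : Fin (Module.finrank F S) → F, dotp emb v τ = ((∑ j, v j • B j : S) : ℝ) := by
    intro v
    rw [Submodule.coe_sum]
    refine sum_congr rfl fun j _ => ?_
    simp only [Submodule.coe_smul, Algebra.smul_def, τ, emb]
  have hrF : (fun i => emb (rF i)) = r := rfl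
  have htF : (fun i => dotp emb (c i) τ) = t := funext fun i => by
    rw [hdot, show ∑ j, c i j • B j = tS i from B.sum_repr (tS i)]
  have hτ : ∀ v : Fin (Module.finrank F S) → F, dotp emb v τ = 0 → v = 0 := by
    intro v hv
    rw [hdot, Submodule.coe_eq_zero] at hv
    exact funext fun j => Fintype.linearIndependent_iff.1 B.linearIndependent v hv j
  obtain ⟨a, q, T, C, D, G, -, -, -, hlow, hmain⟩ := entropy_dim (emb := emb) (r := rF) (c := c)
    (τ := τ) hp hp1 (fun i h => hr0 i (congrArg Subtype.val h)) hr1 hτ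
  rw [hrF, htF] at G hlow
  rw [hrF] at hmain
  refine ⟨a, q, T, D, G, hlow, le_trans (min_le_min le_rfl (le_of_eq ?_)) hmain⟩
  refine iInf_congr fun n => ?_
  congr 1
  refine cent_congr_left (wt_nonneg fun i => (hp i).le) fun v w _ => ?_
  simp only [cls, Prod.mk.injEq, Submodule.Quotient.eq, Submodule.mem_bot, sub_eq_zero]
  have hs : ∀ u : Fin (n + 1) → ι, P114.slope r u = emb (P114.slope rF u) := fun u => by
    rw [← slope_emb, hrF]
  have ht : ∀ u : Fin (n + 1) → ι, P114.trans r t u = dotp emb (P114.trans rF c u) τ := fun u => by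
    rw [← trans_dotp, hrF, htF]
  rw [hs, hs, ht, ht, emb.injective.eq_iff]
  refine and_congr_right fun _ => ⟨fun h => ?_, fun h => by rw [h]⟩
  exact sub_eq_zero.1 (hτ _ (by rw [dotp_sub, h, sub_self]))

/-- A lower bound by the entropy rate for the entropy dimension gives the dimension formula. -/
theorem formula_of_dim [Nonempty ι] {p r t : ι → ℝ} (hp : ∀ i, 0 < p i) (hp1 : ∑ i, p i = 1)
    (hr0 : ∀ i, r i ≠ 0) (hr1 : ∀ i, |r i| < 1)
    (hdim : ∃ a q T D : ℝ, Good p r t a q T ∧ Low p r t q D ∧
      min (lyap p r) (⨅ n : ℕ, ent (wt (n := n + 1) p) (fun w => (P114.slope r w, P114.trans r t w)) /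
        ((n + 1 : ℕ) : ℝ)) ≤ D * lyap p r) :
    IsSelfSimilarFormula p r t := by
  constructor
  · letI : MeasurableSpace ι := ⊤
    haveI : MeasurableSingletonClass ι := ⟨fun _ => trivial⟩
    let ν : Measure ι := ∑ i, ENNReal.ofReal (p i) • Measure.dirac i
    have hν : ∀ j, ν {j} = ENNReal.ofReal (p j) := fun j => by
      simp [ν, Measure.finsetSum_apply, Measure.dirac_apply, Set.indicator_apply]
    haveI : IsProbabilityMeasure ν := ⟨by
      simp only [ν, Measure.finsetSum_apply, Measure.smul_apply, smul_eq_mul, measure_univ, mul_one]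
      rw [← ENNReal.ofReal_sum_of_nonneg fun i _ => (hp i).le, hp1, ENNReal.ofReal_one]⟩
    refine ⟨Meas.law ν (Meas.coding r t),
      Measure.isProbabilityMeasure_map (Meas.measurable_coding t hr1).aemeasurable, ?_⟩
    conv_lhs => rw [Meas.law_coding_invariant t hr1 ν]
    exact sum_congr rfl fun i _ => by rw [hν]
  intro μ _ hμ
  obtain ⟨a, q, T, D, G, hlow, hmain⟩ := hdim
  have hpn : ∀ i, 0 ≤ p i := fun i => (hp i).le
  have hχ : 0 < lyap p r := sum_pos (fun i _ => mul_pos (hp i) (neg_pos.2 (Real.log_neg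
    (abs_pos.2 (hr0 i)) (hr1 i)))) univ_nonempty
  set h := ⨅ n : ℕ, ent (wt (n := n + 1) p) (fun w => (P114.slope r w, P114.trans r t w)) /
    ((n + 1 : ℕ) : ℝ) with hh
  have hv : hRW p r t / chi p r = h / lyap p r := by
    rw [hRW_eq hpn hp1, chi_eq, div_div_div_cancel_right₀ (Real.log_pos one_lt_two).ne']
  rw [hv]
  have h0 : 0 ≤ h := Real.iInf_nonneg fun n => div_nonneg (ent_nonneg (wt_nonneg hpn) _) (by positivity)
  set v := min 1 (h / lyap p r) with hvdef
  have hv0 : 0 ≤ v := le_min zero_le_one (div_nonneg h0 hχ.le)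
  refine le_antisymm ?_ (le_iInf fun E => le_iInf fun hEm => le_iInf fun hE => ?_)
  · refine ENNReal.le_of_forall_pos_le_add fun e he _ => ?_
    have he' : (0 : ℝ) < e := NNReal.coe_pos.2 he
    rw [ENNReal.coe_nnreal_eq, ← ENNReal.ofReal_add hv0 he'.le]
    rcases le_or_gt 1 (v + (e : ℝ)) with h1 | h1
    · refine (iInf_le _ Set.univ).trans ((iInf_le _ MeasurableSet.univ).trans
        ((iInf_le _ (by simp)).trans ?_))
      rw [Real.dimH_univ]
      exact ENNReal.one_le_ofReal.2 h1
    · have hve : h < (v + (e : ℝ)) * lyap p r := by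
        have h2 : v < 1 := by linarith
        have h3 : v = h / lyap p r := by
          rcases min_choice 1 (h / lyap p r) with hc | hc
          · rw [← hvdef] at hc; linarith
          · rw [hvdef, hc]
        rw [h3, add_mul, div_mul_cancel₀ _ hχ.ne']
        linarith [mul_pos he' hχ]
      obtain ⟨n, hn⟩ := exists_lt_of_ciInf_lt (hh ▸ hve)
      obtain ⟨E, hEm, hE, hdim⟩ := exists_small_dim hp hp1 hr0 hr1 μ hμ (m := n + 1) (by omega)
        (s := v + (e : ℝ)) (by linarith) (by
          rw [div_lt_iff₀ (by positivity)] at hn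
          linarith)
      exact (iInf_le _ E).trans ((iInf_le _ hEm).trans ((iInf_le _ (pos_iff_ne_zero.2 hE)).trans hdim))
  · refine le_trans (ENNReal.ofReal_le_ofReal ?_) (le_dimH_of_low G (inv_of_eq hpn hμ) hlow hEm hE.ne')
    rcases min_le_iff.1 hmain with h1 | h1
    · exact (min_le_left _ _).trans ((le_mul_iff_one_le_left hχ).1 h1)
    · exact (min_le_right _ _).trans ((div_le_iff₀ hχ).2 h1)

end

end Vale.Agent.P114.Formula
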