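import Mathlib.NumberTheory.NumberField.Basic
import Mathlib.RingTheory.Norm.Transitivity
import Mathlib.RingTheory.DedekindDomain.IntegralClosure
import Mathlib.Analysis.Complex.Polynomial.Basic
import Mathlib.NumberTheory.NumberField.InfinitePlace.Embeddings
import Mathlib.Algebra.Algebra.Hom.Rat
import Mathlib.LinearAlgebra.Matrix.Adjugate

/-! # Crude sizes of algebraic numbers -/

namespace Vale.Agent.P114

noncomputable section

open scoped Classical
open Finset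

variable {K : Type} [Field K] [NumberField K] {b : ℕ}

/-- `b ^ n` is a denominator of `x` and a bound for all its conjugates. -/
def Sz (b n : ℕ) (x : K) : Prop :=
  IsIntegral ℤ ((b : K) ^ n * x) ∧ ∀ φ : K →+* ℂ, ‖φ x‖ ≤ (b : ℝ) ^ n

theorem exists_base (s : Finset K) (B : ℝ) :
    ∃ b : ℕ, 2 ≤ b ∧ B ≤ b ∧ ∀ x ∈ s, Sz b 1 x := by
  obtain ⟨y, hy, hint⟩ := exists_integral_multiples ℤ ℚ (L := K) s
  set M : ℕ := ⌈∑ x ∈ s, ∑ φ : K →+* ℂ, ‖φ x‖⌉₊ + ⌈B⌉₊ + 2 with hM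
  have hy1 : 1 ≤ y.natAbs := Int.natAbs_pos.2 hy
  have hMb : M ≤ y.natAbs * M := Nat.le_mul_of_pos_left M hy1
  refine ⟨y.natAbs * M, by omega, ?_, fun x hx => ⟨?_, fun φ => ?_⟩⟩
  · refine (Nat.le_ceil B).trans (Nat.cast_le.2 ?_); omega
  · obtain ⟨e, he⟩ : ∃ e : ℤ, ((y.natAbs * M : ℕ) : ℤ) = e * y := by
      rcases Int.natAbs_eq y with h | h
      · exact ⟨M, by push_cast; rw [Int.abs_eq_natAbs, ← h]; ring⟩
      · exact ⟨-M, by push_cast; rw [Int.abs_eq_natAbs]; conv_rhs => rw [h]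
                      ring⟩
    have : ((y.natAbs * M : ℕ) : K) ^ 1 * x = (e : ℤ) • (y • x) := by
      rw [smul_smul, ← he, pow_one, natCast_zsmul, nsmul_eq_mul]
    rw [this]
    exact (hint x hx).smul e
  · rw [pow_one]
    refine le_trans ?_ (Nat.cast_le.2 hMb)
    calc ‖φ x‖ ≤ ∑ φ : K →+* ℂ, ‖φ x‖ :=
          single_le_sum (fun ψ _ => norm_nonneg (ψ x)) (mem_univ φ)
      _ ≤ ∑ x ∈ s, ∑ φ : K →+* ℂ, ‖φ x‖ :=
          single_le_sum (f := fun x => ∑ φ : K →+* ℂ, ‖φ x‖)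
            (fun z _ => sum_nonneg fun ψ _ => norm_nonneg _) hx
      _ ≤ _ := (Nat.le_ceil _).trans (Nat.cast_le.2 (by omega))

omit [NumberField K] in
theorem Sz.mono (hb : 1 ≤ b) {m n : ℕ} (h : m ≤ n) {x : K} (hx : Sz b m x) : Sz b n x := by
  refine ⟨?_, fun φ => (hx.2 φ).trans (pow_le_pow_right₀ (by exact_mod_cast hb) h)⟩
  obtain ⟨j, rfl⟩ := Nat.exists_eq_add_of_le h
  rw [pow_add, mul_comm ((b : K) ^ m), mul_assoc]
  exact IsIntegral.mul ((isIntegral_algebraMap (R := ℤ) (x := (b : ℤ))).pow j |> fun h => by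
    simpa using h) hx.1

omit [NumberField K] in
theorem Sz.mul {m n : ℕ} {x y : K} (hx : Sz b m x) (hy : Sz b n y) : Sz b (m + n) (x * y) := by
  refine ⟨?_, fun φ => ?_⟩
  · rw [pow_add, mul_mul_mul_comm]
    exact hx.1.mul hy.1
  · rw [map_mul, norm_mul, pow_add]
    exact mul_le_mul (hx.2 φ) (hy.2 φ) (norm_nonneg _) (by positivity)

omit [NumberField K] in
theorem Sz.zero (n : ℕ) : Sz b n (0 : K) :=
  ⟨by simpa using isIntegral_zero, fun φ => by simp⟩

omit [NumberField K] in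
theorem Sz.one (hb : 1 ≤ b) (n : ℕ) : Sz b n (1 : K) :=
  Sz.mono hb (Nat.zero_le n) ⟨by simpa using isIntegral_one, fun φ => by simp⟩

omit [NumberField K] in
theorem Sz.sum {α : Type*} (s : Finset α) (f : α → K) {n j : ℕ} (hcard : s.card ≤ b ^ j)
    (h : ∀ a ∈ s, Sz b n (f a)) : Sz b (n + j) (∑ a ∈ s, f a) := by
  refine ⟨?_, fun φ => ?_⟩
  · rw [mul_sum]
    refine IsIntegral.sum _ fun a ha => ?_
    rw [pow_add, mul_comm ((b : K) ^ n), mul_assoc]
    exact IsIntegral.mul ((isIntegral_algebraMap (R := ℤ) (x := (b : ℤ))).pow j |> fun h => by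
      simpa using h) (h a ha).1
  · rw [map_sum]
    calc ‖∑ a ∈ s, φ (f a)‖ ≤ ∑ a ∈ s, (b : ℝ) ^ n :=
          (norm_sum_le _ _).trans (sum_le_sum fun a ha => (h a ha).2 φ)
      _ = s.card * (b : ℝ) ^ n := by rw [sum_const, nsmul_eq_mul]
      _ ≤ (b : ℝ) ^ (n + j) := by
          rw [pow_add, mul_comm ((b : ℝ) ^ n)]
          exact mul_le_mul_of_nonneg_right (by exact_mod_cast hcard) (by positivity)

omit [NumberField K] in
theorem Sz.add (hb : 2 ≤ b) {n : ℕ} {x y : K} (hx : Sz b n x) (hy : Sz b n y) :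
    Sz b (n + 1) (x + y) := by
  have := Sz.sum (b := b) (univ : Finset (Fin 2)) ![x, y] (n := n) (j := 1) (by simpa using hb)
    (by simp [Fin.forall_fin_two, hx, hy])
  simpa using this

omit [NumberField K] in
theorem Sz.neg {n : ℕ} {x : K} (hx : Sz b n x) : Sz b n (-x) :=
  ⟨by rw [mul_neg]; exact hx.1.neg, fun φ => by rw [map_neg, norm_neg]; exact hx.2 φ⟩

omit [NumberField K] in
theorem Sz.prod {α : Type*} (s : Finset α) (f : α → K) {n : ℕ} (h : ∀ a ∈ s, Sz b n (f a)) :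
    Sz b (s.card * n) (∏ a ∈ s, f a) := by
  refine ⟨?_, fun φ => ?_⟩
  · rw [mul_comm s.card, pow_mul, ← prod_const, ← prod_mul_distrib]
    exact IsIntegral.prod _ fun a ha => (h a ha).1
  · rw [map_prod, norm_prod, mul_comm s.card, pow_mul, ← prod_const]
    exact prod_le_prod (fun a _ => norm_nonneg _) fun a ha => (h a ha).2 φ

omit [NumberField K] in
theorem Sz.det (hb : 2 ≤ b) {k : ℕ} (M : Matrix (Fin k) (Fin k) K) {n : ℕ}
    (h : ∀ i j, Sz b n (M i j)) : Sz b (k * n + k.factorial) M.det := by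
  rw [Matrix.det_apply]
  refine Sz.sum _ _ ?_ fun σ _ => ?_
  · rw [card_univ, Fintype.card_perm, Fintype.card_fin]
    exact (Nat.lt_pow_self (by omega : 1 < b)).le
  · have hp := Sz.prod (b := b) univ (fun i => M (σ i) i) fun i _ => h _ _
    rw [card_fin] at hp
    rcases Int.units_eq_one_or (Equiv.Perm.sign σ) with e | e <;> rw [e]
    · simpa using hp
    · simpa using hp.neg

omit [NumberField K] in
theorem Sz.adjugate (hb : 2 ≤ b) {k : ℕ} (M : Matrix (Fin k) (Fin k) K) {n : ℕ}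
    (h : ∀ i j, Sz b n (M i j)) (i j : Fin k) :
    Sz b (k * n + k.factorial) (M.adjugate i j) := by
  rw [Matrix.adjugate_apply]
  refine Sz.det hb _ fun r s => ?_
  rw [Matrix.updateRow_apply]
  split_ifs
  · by_cases e : s = i
    · subst e; simpa using Sz.one (by omega) n
    · simpa [e] using Sz.zero n
  · exact h r s

/-- A nonzero number of size `b ^ n` is not smaller than `b ^ (-2 n d)`. -/
theorem Sz.lower (emb : K →+* ℝ) (hb : 1 ≤ b) {n : ℕ} {x : K} (hx : Sz b n x) (h0 : x ≠ 0) :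
    1 ≤ |emb x| * (b : ℝ) ^ (2 * n * Module.finrank ℚ K) := by
  set z := (b : K) ^ n * x with hz
  have hb0 : (b : K) ≠ 0 := by exact_mod_cast (by omega : b ≠ 0)
  have hz0 : z ≠ 0 := mul_ne_zero (pow_ne_zero _ hb0) h0
  have hbr : (1 : ℝ) ≤ b := by exact_mod_cast hb
  have hint : IsIntegral ℤ (Algebra.norm ℚ z) := Algebra.isIntegral_norm ℚ hx.1
  obtain ⟨y, hy⟩ := IsIntegrallyClosed.isIntegral_iff.1 hint
  have hy0 : y ≠ 0 := by
    intro h
    rw [h, map_zero] at hy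
    exact Algebra.norm_ne_zero_iff.2 hz0 hy.symm
  have hprod : 1 ≤ ∏ σ : K →ₐ[ℚ] ℂ, ‖σ z‖ := by
    rw [← norm_prod, ← Algebra.norm_eq_prod_embeddings ℚ ℂ, ← hy]
    simp only [eq_intCast, map_intCast, Complex.norm_intCast]
    exact_mod_cast Int.one_le_abs hy0
  let σ0 : K →ₐ[ℚ] ℂ := ((Complex.ofRealHom).comp emb).toRatAlgHom
  rw [← mul_prod_erase univ _ (mem_univ σ0)] at hprod
  have hnorm : ∀ ψ : K →+* ℂ, ‖ψ z‖ = (b : ℝ) ^ n * ‖ψ x‖ := fun ψ => by
    rw [hz, map_mul, map_pow, map_natCast, norm_mul, norm_pow, Complex.norm_natCast]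
  have hrest : ∏ σ ∈ univ.erase σ0, ‖σ z‖ ≤ ((b : ℝ) ^ (2 * n)) ^ (Module.finrank ℚ K - 1) := by
    refine (prod_le_prod (fun σ _ => norm_nonneg _) (g := fun _ => (b : ℝ) ^ (2 * n)) fun σ _ => ?_).trans
      (le_of_eq ?_)
    · calc ‖σ z‖ = (b : ℝ) ^ n * ‖σ x‖ := hnorm σ.toRingHom
        _ ≤ (b : ℝ) ^ n * (b : ℝ) ^ n :=
            mul_le_mul_of_nonneg_left (hx.2 σ.toRingHom) (by positivity)
        _ = (b : ℝ) ^ (2 * n) := by rw [← pow_add, two_mul]
    · rw [prod_const, card_erase_of_mem (mem_univ _), card_univ, AlgHom.card]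
  have h0n : ‖σ0 z‖ = (b : ℝ) ^ n * |emb x| := by
    rw [← Real.norm_eq_abs, ← Complex.norm_real]
    exact hnorm ((Complex.ofRealHom).comp emb)
  rw [h0n] at hprod
  have hd : 1 ≤ Module.finrank ℚ K := Module.finrank_pos
  calc (1 : ℝ) ≤ _ := hprod
    _ ≤ (b : ℝ) ^ n * |emb x| * ((b : ℝ) ^ (2 * n)) ^ (Module.finrank ℚ K - 1) :=
        mul_le_mul_of_nonneg_left hrest (by positivity)
    _ ≤ |emb x| * (b : ℝ) ^ (2 * n * Module.finrank ℚ K) := by
        rw [← pow_mul, mul_comm ((b : ℝ) ^ n), mul_assoc, ← pow_add]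
        refine mul_le_mul_of_nonneg_left (pow_le_pow_right₀ hbr ?_) (abs_nonneg _)
        have : 2 * n * (Module.finrank ℚ K - 1) + 2 * n = 2 * n * Module.finrank ℚ K := by
          rw [← mul_add_one (2 * n), Nat.sub_add_cancel hd]
        omega

omit [NumberField K] in
theorem Sz.upper (emb : K →+* ℝ) {n : ℕ} {x : K} (hx : Sz b n x) : |emb x| ≤ (b : ℝ) ^ n := by
  have := hx.2 ((Complex.ofRealHom).comp emb)
  simpa using this

end

end Vale.Agent.P114
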