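import Vale.Agent.P114.RandomWalk

/-! # The entropy formula for algebraic slopes -/

namespace Vale.Agent.P114

noncomputable section

open scoped Classical
open Finset Filter

variable {ι : Type} [Fintype ι] {K : Type} [Field K] [NumberField K] {k : ℕ} {p : ι → ℝ}
  {emb : K →+* ℝ} {r : ι → K} {c : ι → Fin k → K} {τ g : Fin k → ℝ} {a q T : ℝ}

omit [NumberField K] in
theorem floor_lower (hp : ∀ i, 0 ≤ p i) (L : Submodule K (Fin k → K)) (m : ℕ) (σ : ℝ)
    (hsep : ∀ v w : Fin m → ι, slope r v = slope r w →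
      |σ * dotp emb (trans r c v - trans r c w) g| < 1 → trans r c v - trans r c w ∈ L) :
    hent p r c L m - ent (wt (n := m) p) (fun w => slope r w) ≤
      cent (wt (n := m) p)
        (fun w => ⌊σ * trans (fun i => emb (r i)) (fun i => dotp emb (c i) g) w⌋)
        (fun w => slope (fun i => emb (r i)) w) := by
  rw [hent_eq hp, add_sub_cancel_left]
  refine le_trans ?_ (le_of_eq (cent_congr_right (Y := fun w => slope r w)
    (Y' := fun w => slope (fun i => emb (r i)) w) _ fun v w => by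
      simp [slope_emb, emb.injective.eq_iff]))
  refine cent_mono_left (wt_nonneg hp) fun v w h hs => ?_
  rw [Submodule.Quotient.eq]
  refine hsep v w hs ?_
  rw [dotp_sub, ← trans_dotp emb r c g v, ← trans_dotp emb r c g w, mul_sub]
  exact Int.abs_sub_lt_one_of_floor_eq_floor h

omit [NumberField K] in
theorem coarse_lower (G : Good p (fun i => emb (r i)) (fun i => dotp emb (c i) τ) a q T) {D : ℝ}
    (hlow : Low p (fun i => emb (r i)) (fun i => dotp emb (c i) τ) q D) {η : ℝ} (hη : 0 < η) :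
    ∃ C, ∀ m : ℕ, ∀ g : Fin k → ℝ,
      (∀ v w : Fin m → ι, slope r v = slope r w →
        |dotp emb (trans r c v - trans r c w) τ| ≤ |dotp emb (trans r c v - trans r c w) g| +
          |emb (slope r v)| / 2) →
      (m : ℝ) * (D * lyap p (fun i => emb (r i)) - η) - C ≤
        cent (wt (n := m) p)
          (fun w => ⌊trans (fun i => emb (r i)) (fun i => dotp emb (c i) g) w /
            |slope (fun i => emb (r i)) w|⌋)
          (fun w => slope (fun i => emb (r i)) w) := by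
  set r' := fun i => emb (r i)
  set χ := lyap p r'
  have hp : ∀ i, 0 ≤ p i := fun i => (G.pos i).le
  have hχ : 0 ≤ χ := sum_nonneg fun i _ => mul_nonneg (hp i) (neg_nonneg.2
    (Real.log_nonpos (abs_nonneg _) ((G.le_q i).trans G.q_lt.le)))
  obtain ⟨C1, hC1⟩ := hlow (η / 3 / (χ + 1)) (by positivity)
  obtain ⟨C2, hC2⟩ := dev_le hp G.sum_one
    (fun i => abs_pos.1 (lt_of_lt_of_le G.a_pos (G.a_le i))) (show 0 < η / 3 by positivity)
  obtain ⟨C4, hC4⟩ := log_le_linear (show 0 < η / (3 * (Fintype.card ι + 1)) by positivity)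
  refine ⟨C1 + C2 + (Good.c0 q T + Real.log (2 * (1 + radius q T) + 3)) + Real.log 5 +
    Fintype.card ι * C4, fun m g hclose => ?_⟩
  let Z : (Fin m → ι) → ℤ := fun w =>
    ⌊2 * (trans r' (fun i => dotp emb (c i) g) w / |slope r' w|)⌋
  have h2 := js_le_var G m Z (fun v w h hs => by
    have hh := Int.abs_sub_lt_one_of_floor_eq_floor h
    have hs' : slope r v = slope r w := emb.injective (by rw [← slope_emb, ← slope_emb]; exact hs)
    have hc := hclose v w hs'
    rw [dotp_sub, dotp_sub, ← slope_emb] at hc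
    rw [trans_dotp, trans_dotp]
    refine hc.trans ?_
    rw [← trans_dotp emb r c g v, ← trans_dotp emb r c g w]
    change |trans r' (fun i => dotp emb (c i) g) v - trans r' (fun i => dotp emb (c i) g) w| +
      |slope r' v| / 2 ≤ |slope r' v|
    rw [← hs, ← mul_sub, ← sub_div, abs_mul, abs_div, abs_abs, abs_two] at hh
    have hpos := G.slope_pos v
    change 2 * (_ / |slope r' v|) < 1 at hh
    rw [mul_div, div_lt_one hpos] at hh
    linarith) (Real.exp (m * χ)) (Real.exp_pos _)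
  have h1 := hC1 (Real.exp (m * χ)) (Real.one_le_exp (by positivity))
  rw [Real.log_exp] at h1
  simp only [Real.log_exp] at h2
  have h3 := hC2 m
  have h4 : cent (wt (n := m) p) Z (fun w => slope r' w) ≤
      cent (wt (n := m) p) (fun w => ⌊trans r' (fun i => dotp emb (c i) g) w / |slope r' w|⌋)
        (fun w => slope r' w) + Real.log 5 := by
    refine (cent_le_add' G.wt_nn _ _ _).trans (add_le_add le_rfl ?_)
    refine (cent_floor_le G.wt_nn _ _ 2 0 0 fun w => by simp).trans (le_of_eq ?_)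
    rw [sum_wt G.sum_one, one_mul]; norm_num
  have h5 := ent_slope_le hp G.sum_one r' m
  have h6 := mul_le_mul_of_nonneg_left (hC4 m) (Nat.cast_nonneg (α := ℝ) (Fintype.card ι))
  have h7 : η / 3 / (χ + 1) * (m * χ) ≤ η / 3 * m := by
    rw [div_mul_eq_mul_div, div_le_iff₀ (by positivity)]
    have : (0 : ℝ) ≤ η / 3 * m := by positivity
    linarith
  have h8 : (Fintype.card ι : ℝ) * (η / (3 * (Fintype.card ι + 1)) * m) ≤ η / 3 * m := by
    rw [show η / (3 * ((Fintype.card ι : ℝ) + 1)) = η / 3 / ((Fintype.card ι : ℝ) + 1) from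
      (div_div _ _ _).symm, ← mul_assoc, ← mul_div_assoc]
    refine mul_le_mul_of_nonneg_right ?_ (Nat.cast_nonneg m)
    rw [div_le_iff₀ (by positivity)]
    linarith
  linarith

omit [Fintype ι] [Field K] [NumberField K] in
/-- The final inequality of one gain step. -/
theorem combine {κ C C1 C4 εj χ D E A F M L : ℝ} (hκ0 : 0 < κ) (hκ1 : κ ≤ 1) (hε : 0 < εj)
    (hM : 1 ≤ M) (hA : M * (D * χ - κ * εj / 8) - C1 ≤ A)
    (hF : M * (D * χ + εj - εj / 8) - C4 ≤ F) (hL : L ≤ κ * εj / 16 * (M + 1))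
    (hk : (1 - κ) * A + κ * F ≤ E * (M * χ) + L + C)
    (hbig : |C| + |C1| + |C4| ≤ κ * εj / 8 * M) :
    D * χ + κ * εj / 2 ≤ E * χ := by
  have g1 := mul_le_mul_of_nonneg_left hA (sub_nonneg.2 hκ1)
  have g2 := mul_le_mul_of_nonneg_left hF hκ0.le
  have g3 : (1 - κ) * C1 ≤ |C1| := (mul_le_mul_of_nonneg_left (le_abs_self C1) (sub_nonneg.2 hκ1)).trans
    (mul_le_of_le_one_left (abs_nonneg _) (by linarith))
  have g4 : κ * C4 ≤ |C4| := (mul_le_mul_of_nonneg_left (le_abs_self C4) hκ0.le).trans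
    (mul_le_of_le_one_left (abs_nonneg _) hκ1)
  have g5 := le_abs_self C
  have g6 : 0 ≤ κ * (κ * εj / 8) * M := by positivity
  have g7 : κ * εj / 16 * (M + 1) ≤ κ * εj / 8 * M := by
    have := mul_le_mul_of_nonneg_left hM (by positivity : 0 ≤ κ * εj / 16)
    linarith
  refine le_of_mul_le_mul_left ?_ (lt_of_lt_of_le one_pos hM)
  linarith

/-- A bound for the exponent of the determinants, per level. -/
def k7 (k : ℕ) : ℕ := 7 * k + k.factorial

/-- The exponent of a small difference, per level. -/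
def csx (k d : ℕ) : ℕ := 9 + k7 k + 2 * k7 k * d

/-- The exponent of the perturbation, per level. -/
def cgx (k d : ℕ) : ℕ := 2 * k7 k * d + k7 k + 1

/-- The exponent of the separation, per level. -/
def qx (k d e : ℕ) : ℕ := 2 * d * (10 + k7 k + e) + k7 k + csx k d + e

theorem dexp_le (k : ℕ) {n : ℕ} (hn : 1 ≤ n) : dexp k n ≤ k7 k * n := by
  rw [dexp, k7, add_mul]
  refine add_le_add ?_ (Nat.le_mul_of_pos_right _ hn)
  calc k * (3 * n + 4) ≤ k * (7 * n) := Nat.mul_le_mul_left _ (by omega)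
    _ = 7 * k * n := by ring

theorem csx_bound (k d : ℕ) {n : ℕ} (hn : 1 ≤ n) :
    3 * n + 4 + dexp k n + 1 + 1 + 2 * dexp k n * d ≤ csx k d * n := by
  have h1 := dexp_le k hn
  have h2 : 2 * dexp k n * d ≤ 2 * k7 k * d * n :=
    le_trans (Nat.mul_le_mul_right _ (Nat.mul_le_mul_left _ h1)) (le_of_eq (by ring))
  have : csx k d * n = 9 * n + k7 k * n + 2 * k7 k * d * n := by rw [csx]; ring
  omega

theorem cgx_bound (k d : ℕ) {M : ℕ} (hM : 1 ≤ M) :
    2 * dexp k M * d + dexp k M + 1 ≤ cgx k d * M := by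
  have h1 := dexp_le k hM
  have h2 : 2 * dexp k M * d ≤ 2 * k7 k * d * M :=
    le_trans (Nat.mul_le_mul_right _ (Nat.mul_le_mul_left _ h1)) (le_of_eq (by ring))
  have h3 : cgx k d * M = 2 * k7 k * d * M + k7 k * M + M := by rw [cgx]; ring
  omega

theorem qx_bound (k d e m : ℕ) :
    2 * (3 * m + 4 + dexp k (m + 1) + 1 + (e * (m + 1) + 1) + 1) * d + dexp k (m + 1) ≤
      qx k d e * (m + 1) := by
  have a1 := dexp_le k (show 1 ≤ m + 1 by omega)
  set M := m + 1 with hM
  have a2 : 3 * m + 4 + dexp k M + 1 + (e * M + 1) + 1 ≤ (10 + k7 k + e) * M := by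
    rw [add_mul, add_mul]; omega
  have a3 : 2 * (3 * m + 4 + dexp k M + 1 + (e * M + 1) + 1) * d ≤
      2 * d * (10 + k7 k + e) * M :=
    le_trans (Nat.mul_le_mul_right _ (Nat.mul_le_mul_left _ a2)) (le_of_eq (by ring))
  have a4 : qx k d e * M =
      2 * d * (10 + k7 k + e) * M + k7 k * M + csx k d * M + e * M := by rw [qx]; ring
  omega

/-- A bound for the real coordinates of all translations. -/
def coordB (emb : K →+* ℝ) (r : ι → K) (c : ι → Fin k → K) (q : ℝ) : ℝ :=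
  radius q (∑ i, ∑ j, |emb (c i j)|)

omit [NumberField K] in
theorem coord_le (G : Good p (fun i => emb (r i)) (fun i => dotp emb (c i) τ) a q T) {m : ℕ}
    (w : Fin m → ι) (j : Fin k) : |emb (trans r c w j)| ≤ coordB emb r c q := by
  have Gj : Good p (fun i => emb (r i)) (fun i => dotp emb (c i) (Pi.single j 1)) a q
      (∑ i, ∑ j, |emb (c i j)|) := ⟨G.pos, G.sum_one, G.a_pos, G.a_le, G.le_q, G.q_lt,
    sum_nonneg fun i _ => sum_nonneg fun j _ => abs_nonneg _, fun i => by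
      simp only [dotp, Pi.single_apply, mul_ite, mul_one, mul_zero, sum_ite_eq', mem_univ, if_true]
      exact le_trans (single_le_sum (fun j _ => abs_nonneg (emb (c i j))) (mem_univ j))
        (single_le_sum (f := fun i => ∑ j, |emb (c i j)|)
          (fun i _ => sum_nonneg fun j _ => abs_nonneg _) (mem_univ i))⟩
  have := Gj.trans_le w
  rw [trans_dotp] at this
  simpa [dotp, Pi.single_apply, coordB] using this

omit [NumberField K] in
theorem slope_ge (G : Good p (fun i => emb (r i)) (fun i => dotp emb (c i) τ) a q T) {m : ℕ}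
    (w : Fin m → ι) : a ^ m ≤ |slope (fun i => emb (r i)) w| := by
  rw [slope, abs_prod]
  exact le_trans (le_of_eq (by simp))
    (prod_le_prod (fun i _ => G.a_pos.le) (fun i _ => G.a_le (w i)))

omit [NumberField K] in
theorem close_of_small (G : Good p (fun i => emb (r i)) (fun i => dotp emb (c i) τ) a q T)
    (ha1 : a ≤ 1) {g : Fin k → ℝ} {m : ℕ}
    (hg : ∀ i, |g i - τ i| ≤ a ^ (m + 1) / (4 * ((k : ℝ) * coordB emb r c q) + 4))
    (v w : Fin m → ι) :
    |dotp emb (trans r c v - trans r c w) τ| ≤ |dotp emb (trans r c v - trans r c w) g| +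
      |emb (slope r v)| / 2 := by
  set B := coordB emb r c q
  have hB : 0 ≤ B := div_nonneg (sum_nonneg fun i _ => sum_nonneg fun j _ => abs_nonneg _)
    (by linarith [G.q_lt])
  set Δ := a ^ (m + 1) / (4 * ((k : ℝ) * B) + 4) with hΔ
  set d := trans r c v - trans r c w
  have h1 : |dotp emb d g - dotp emb d τ| ≤ 2 * ((k : ℝ) * B) * Δ := by
    simp only [dotp, ← sum_sub_distrib, ← mul_sub]
    refine (abs_sum_le_sum_abs _ _).trans (le_trans (sum_le_sum fun i _ => ?_)
      (le_of_eq (show ∑ _i : Fin k, 2 * B * Δ = 2 * ((k : ℝ) * B) * Δ by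
        rw [sum_const, card_univ, Fintype.card_fin, nsmul_eq_mul]; ring)))
    rw [abs_mul]
    refine mul_le_mul ?_ (hg i) (abs_nonneg _) (by linarith)
    simp only [d, Pi.sub_apply, map_sub]
    refine (abs_sub _ _).trans ?_
    linarith [coord_le G v i, coord_le G w i]
  have h2 : 2 * ((k : ℝ) * B) * Δ ≤ |emb (slope r v)| / 2 := by
    rw [← slope_emb]
    have h := (pow_le_pow_of_le_one G.a_pos.le ha1 (show m ≤ m + 1 by omega)).trans (slope_ge G v)
    have hk : 0 ≤ (k : ℝ) * B := mul_nonneg (Nat.cast_nonneg k) hB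
    rw [hΔ, mul_div, div_le_iff₀ (by positivity)]
    have h' := mul_le_mul_of_nonneg_left h hk
    linarith [abs_nonneg (slope (fun i => emb (r i)) v)]
  have := abs_sub_abs_le_abs_sub (dotp emb d τ) (dotp emb d g)
  rw [abs_sub_comm] at h1
  linarith

variable {b : ℕ}

/-- The conditions on the exponent `e`. -/
structure Expo (emb : K →+* ℝ) (r : ι → K) (c : ι → Fin k → K) (a q : ℝ) (b e : ℕ) : Prop where
  dim : k + 1 ≤ e
  big : (b : ℝ) ^ (cgx k (Module.finrank ℚ K) + k) * (12 * ((k : ℝ) * coordB emb r c q) + 12) / a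
    ≤ (b : ℝ) ^ e

/-- The exponential rate defining the small differences. -/
def qrate (K : Type) [Field K] [NumberField K] (k b e : ℕ) : ℝ :=
  ((csx k (Module.finrank ℚ K) + e : ℕ) : ℝ) * Real.log b

theorem exp_qrate (k : ℕ) {b : ℕ} (hb : 1 ≤ b) (e n : ℕ) :
    Real.exp (-(qrate K k b e * n)) =
      ((b : ℝ) ^ ((csx k (Module.finrank ℚ K) + e) * n))⁻¹ := by
  rw [Real.exp_neg, ← Real.rpow_natCast, Real.rpow_def_of_pos (by exact_mod_cast hb)]
  congr 2
  rw [qrate]; push_cast; ring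

theorem tiny (Bd : Based emb r c τ b) (e : ℕ) {m n : ℕ} (hn : 1 ≤ n) (hmn : m ≤ n)
    {l : Fin k → K} (hl : l ∈ Diff r c m) (hS : l ∈ Small emb r c τ (qrate K k b e) n) :
    |dotp emb l τ| ≤ (((b : ℝ) ^ e)⁻¹) ^ n := by
  have hb2 := Bd.two_le
  have hb1 : (1 : ℝ) ≤ b := by exact_mod_cast (by omega : 1 ≤ b)
  refine (small_bound Bd _ hmn hl hS).trans ?_
  rw [exp_qrate k (by omega)]
  set cs := csx k (Module.finrank ℚ K)
  calc _ ≤ (b : ℝ) ^ (cs * n) * ((b : ℝ) ^ ((cs + e) * n))⁻¹ :=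
        mul_le_mul_of_nonneg_right (pow_le_pow_right₀ hb1 (csx_bound k _ hn)) (by positivity)
    _ = _ := by
        rw [add_mul cs e n, pow_add, mul_inv, ← mul_assoc, mul_inv_cancel₀ (by positivity), one_mul,
          inv_pow, ← pow_mul]

/-- Small differences of bounded level vanish eventually. -/
theorem eventually_avoid (Bd : Based emb r c τ b) {e : ℕ} (he : 1 ≤ e)
    (hτ : ∀ v : Fin k → K, dotp emb v τ = 0 → v = 0) (M0 : ℕ) :
    ∀ᶠ n : ℕ in atTop, ∀ (m : Fin M0) (v w : Fin m.1 → ι), slope r v = slope r w →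
      trans r c v - trans r c w ∈ Small emb r c τ (qrate K k b e) n →
        trans r c v - trans r c w = 0 := by
  have hb1 : (1 : ℝ) < b := by have := Bd.two_le; exact_mod_cast (by omega : 1 < b)
  rw [eventually_all]; intro m
  rw [eventually_all]; intro v
  rw [eventually_all]; intro w
  by_cases hd : trans r c v - trans r c w = 0
  · exact Eventually.of_forall fun n _ _ => hd
  have hne : 0 < |dotp emb (trans r c v - trans r c w) τ| :=
    abs_pos.2 fun h => hd (hτ _ h)
  have hlim := tendsto_pow_atTop_nhds_zero_of_lt_one (by positivity : (0 : ℝ) ≤ ((b : ℝ) ^ e)⁻¹)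
    (inv_lt_one_of_one_lt₀ (one_lt_pow₀ hb1 (by omega)))
  filter_upwards [hlim.eventually (gt_mem_nhds hne), eventually_ge_atTop (m.1 + 1)] with n hn hmn hs hS
  have := tiny Bd e (by omega) (by omega) ⟨v, w, hs, rfl⟩ hS
  linarith

theorem perturb_small (G : Good p (fun i => emb (r i)) (fun i => dotp emb (c i) τ) a q T)
    (Bd : Based emb r c τ b) {e : ℕ} (he : Expo emb r c a q b e) {m n : ℕ} (hn : m + 1 ≤ n)
    (L : Submodule K (Fin k → K)) (hLs : L ≤ Small emb r c τ (qrate K k b e) n)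
    (hL : L = Submodule.span K (Diff r c (m + 1) ∩ ↑L)) :
    ∃ g : Fin k → ℝ, (∀ l ∈ L, dotp emb l g = 0) ∧
      (∀ i, |g i - τ i| ≤ a ^ (m + 1) / (4 * ((k : ℝ) * coordB emb r c q) + 4)) ∧
      ∀ d ∈ Diff r c m, d ∉ L →
        1 ≤ |dotp emb d g| * (b : ℝ) ^ (qx k (Module.finrank ℚ K) e * (m + 1)) := by
  set M := m + 1 with hM
  have hb2 := Bd.two_le
  have hb1 : (1 : ℝ) ≤ b := by exact_mod_cast (by omega : 1 ≤ b)
  have hE : k * M + 1 ≤ e * M := by
    have h := Nat.mul_le_mul_right M he.dim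
    rw [add_mul, one_mul] at h
    omega
  obtain ⟨g, hg0, hgclose, hgsep⟩ := exists_perturb Bd L m (e * M) hE hL ((((b : ℝ) ^ e)⁻¹) ^ M)
    (fun l hl hlL => (tiny Bd e (by omega) (by omega) hl (hLs hlL)).trans
      (pow_le_pow_of_le_one (by positivity) (inv_le_one_of_one_le₀ (one_le_pow₀ hb1)) hn))
  refine ⟨g, hg0, fun i => ?_, fun d hd hdL => (hgsep d hd hdL).trans
    (mul_le_mul_of_nonneg_left (pow_le_pow_right₀ hb1 (qx_bound k _ e m)) (abs_nonneg _))⟩
  set W := (k : ℝ) * coordB emb r c q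
  have hW : 0 ≤ W := mul_nonneg (Nat.cast_nonneg k)
    (div_nonneg (sum_nonneg fun i _ => sum_nonneg fun j _ => abs_nonneg _) (by linarith [G.q_lt]))
  refine (hgclose i).trans ?_
  rw [abs_of_nonneg (by positivity)]
  have h2 : (((b : ℝ) ^ e)⁻¹) ^ M + 2 * (b : ℝ) ^ (k * M) / (b : ℝ) ^ (e * M) ≤
      3 * ((b : ℝ) ^ k / (b : ℝ) ^ e) ^ M := by
    have e1 : ((b : ℝ) ^ k / (b : ℝ) ^ e) ^ M = (b : ℝ) ^ (k * M) / (b : ℝ) ^ (e * M) := by
      rw [div_pow, ← pow_mul, ← pow_mul]
    have hx : (((b : ℝ) ^ e)⁻¹) ^ M ≤ (b : ℝ) ^ (k * M) / (b : ℝ) ^ (e * M) := by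
      rw [inv_pow, ← pow_mul, inv_eq_one_div]
      exact div_le_div_of_nonneg_right (one_le_pow₀ hb1) (by positivity)
    rw [e1, mul_div_assoc]; linarith
  refine (mul_le_mul (pow_le_pow_right₀ hb1 (cgx_bound k (Module.finrank ℚ K) (Nat.le_add_left 1 m)))
    h2 (by positivity) (by positivity)).trans ?_
  rw [pow_mul, mul_left_comm, ← mul_pow]
  set ρ := (b : ℝ) ^ cgx k (Module.finrank ℚ K) * ((b : ℝ) ^ k / (b : ℝ) ^ e)
  have hρ : ρ ≤ a * (1 / (12 * W + 12)) := by
    have hbe := he.big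
    rw [div_le_iff₀ G.a_pos] at hbe
    simp only [ρ]
    rw [← mul_div_assoc, ← pow_add, mul_one_div, div_le_div_iff₀ (by positivity) (by positivity)]
    linarith
  refine (mul_le_mul_of_nonneg_left (pow_le_pow_left₀ (by positivity) hρ M) (by norm_num)).trans ?_
  rw [mul_pow]
  have h3 : (1 / (12 * W + 12)) ^ M ≤ 1 / (12 * W + 12) :=
    pow_le_of_le_one (by positivity) (by rw [div_le_one (by positivity)]; linarith) (by omega)
  have h4 := mul_le_mul_of_nonneg_left h3 (pow_nonneg G.a_pos.le M)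
  have e2 : a ^ M / (4 * W + 4) = 3 * (a ^ M * (1 / (12 * W + 12))) := by field_simp; ring
  rw [e2]; linarith

theorem log_scale {εj κ : ℝ} (hκ : 0 ≤ κ) (hε : 0 ≤ εj) {b : ℕ} (hb : 2 ≤ b) {x Q0 : ℕ}
    (hx : x ≤ Q0) (M : ℕ) :
    κ * (εj / (16 * ((Q0 : ℝ) + 1) * Real.log b)) * Real.log ((b : ℝ) ^ (x * M)) ≤
      κ * εj / 16 * M := by
  have hlb : 0 < Real.log b := Real.log_pos (by exact_mod_cast (by omega : 1 < b))
  rw [Real.log_pow]
  push_cast
  have e : κ * (εj / (16 * ((Q0 : ℝ) + 1) * Real.log b)) * ((x : ℝ) * (M : ℝ) * Real.log b) =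
      κ * εj / 16 * M * ((x : ℝ) / ((Q0 : ℝ) + 1)) := by field_simp
  rw [e]
  refine mul_le_of_le_one_right (by positivity) ((div_le_one (by positivity)).2 ?_)
  have : (x : ℝ) ≤ Q0 := by exact_mod_cast hx
  linarith

omit [NumberField K] in
theorem fine_lower (G : Good p (fun i => emb (r i)) (fun i => dotp emb (c i) τ) a q T)
    {η h C : ℝ} (hC : ∀ m : ℕ, Real.log ((m : ℝ) + 1) ≤ η / ((Fintype.card ι : ℝ) + 1) * m + C)
    (hη : 0 ≤ η) (L : Submodule K (Fin k → K)) (hh : h ≤ hrate p r c L) (m : ℕ) (σ : ℝ)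
    (g : Fin k → ℝ) (hsep : ∀ v w : Fin m → ι, slope r v = slope r w →
      |σ * dotp emb (trans r c v - trans r c w) g| < 1 → trans r c v - trans r c w ∈ L) :
    (m : ℝ) * (h - η) - (Fintype.card ι : ℝ) * C ≤
      cent (wt (n := m) p)
        (fun w => ⌊σ * trans (fun i => emb (r i)) (fun i => dotp emb (c i) g) w⌋)
        (fun w => slope (fun i => emb (r i)) w) := by
  have hp : ∀ i, 0 ≤ p i := fun i => (G.pos i).le
  have hF := floor_lower hp L m σ hsep
  have hR := mul_hrate_le (r := r) (c := c) hp L m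
  have hS := ent_slope_le hp G.sum_one r m
  have hS' := mul_le_mul_of_nonneg_left (hC m) (Nat.cast_nonneg (α := ℝ) (Fintype.card ι))
  have h8 : (Fintype.card ι : ℝ) * (η / ((Fintype.card ι : ℝ) + 1) * m) ≤ η * m := by
    rw [← mul_assoc, ← mul_div_assoc]
    refine mul_le_mul_of_nonneg_right ?_ (Nat.cast_nonneg m)
    rw [div_le_iff₀ (by positivity)]
    linarith
  have := mul_le_mul_of_nonneg_left hh (Nat.cast_nonneg (α := ℝ) m)
  linarith

/-- The statement proved by induction on the dimension. -/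
def Claim (p : ι → ℝ) (emb : K →+* ℝ) (r : ι → K) (c : ι → Fin k → K) (τ : Fin k → ℝ)
    (b e : ℕ) (D : ℝ) (j : ℕ) : Prop :=
  ∃ ε > 0, ∃ N : ℕ, ∀ n ≥ N, ∀ L : Submodule K (Fin k → K), Module.finrank K L ≤ j →
    L ≤ Small emb r c τ (qrate K k b e) n → L = Submodule.span K (Diff r c n ∩ ↑L) →
      D * lyap p (fun i => emb (r i)) + ε ≤ hrate p r c L

theorem claim_step [Nonempty ι] (G : Good p (fun i => emb (r i)) (fun i => dotp emb (c i) τ) a q T)
    (ha1 : a ≤ 1) (hr0 : ∀ i, r i ≠ 0) (hτ : ∀ v : Fin k → K, dotp emb v τ = 0 → v = 0)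
    (Bd : Based emb r c τ b) {e : ℕ} (he : Expo emb r c a q b e) {D Cw : ℝ}
    (hlow : Low p (fun i => emb (r i)) (fun i => dotp emb (c i) τ) q D) (hDlt : D < 1)
    (hχ : 0 < lyap p (fun i => emb (r i)))
    (hDh : D * lyap p (fun i => emb (r i)) < hrate p r c ⊥)
    (hdim : ∀ g : Fin k → ℝ, (∀ i, |g i - τ i| ≤ 1) →
      Good p (fun i => emb (r i)) (fun i => dotp emb (c i) g) a q T ∧
      ∃ Dg, Win p (fun i => emb (r i)) (fun i => dotp emb (c i) g) q Dg Cw ∧
        Low p (fun i => emb (r i)) (fun i => dotp emb (c i) g) q Dg)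
    (hbea : 1 ≤ (b : ℝ) ^ e * a) {j : ℕ} (ih : Claim p emb r c τ b e D j) :
    Claim p emb r c τ b e D (j + 1) := by
  obtain ⟨εj, hεj, Nj, hclaim⟩ := ih
  set r' := fun i => emb (r i)
  set χ := lyap p r'
  set α := (1 + D) / 2 with hα
  set q0 := qx k (Module.finrank ℚ K) e
  have hb2 := Bd.two_le
  have hb1 : (1 : ℝ) ≤ b := by exact_mod_cast (by omega : 1 ≤ b)
  have hlb : 0 < Real.log b := Real.log_pos (by exact_mod_cast (by omega : 1 < b))
  obtain ⟨κ, hκ0, hκ1, C, hkey⟩ := key_gain p r' a q T α (εj / (16 * ((q0 : ℝ) + 1) * Real.log b)) Cw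
    (by rw [hα]; linarith) (by positivity)
  obtain ⟨C1, hC1⟩ := coarse_lower G hlow (show 0 < κ * εj / 8 by positivity)
  obtain ⟨C4, hC4⟩ := log_le_linear (show 0 < εj / 8 / ((Fintype.card ι : ℝ) + 1) by positivity)
  obtain ⟨M0, hM0⟩ := exists_nat_ge ((|C| + |C1| + |(Fintype.card ι : ℝ) * C4|) / (κ * εj / 8))
  rw [div_le_iff₀ (by positivity)] at hM0
  obtain ⟨N1, hN1⟩ := eventually_atTop.1
    (eventually_avoid Bd (le_trans (Nat.le_add_left 1 k) he.dim) hτ (M0 + 3))
  set ε' := min (hrate p r c ⊥ - D * χ) (min (κ * εj / 2) ((1 - D) / 2 * χ))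
  have hε' : 0 < ε' := lt_min (by linarith) (lt_min (by positivity)
    (mul_pos (by linarith) hχ))
  refine ⟨ε', hε', max (max Nj N1) 1, fun n hn L hdimL hLs hLspan => ?_⟩
  have hnNj : Nj ≤ n := (le_trans (le_max_left _ _) (le_max_left _ _)).trans hn
  have hnN1 : N1 ≤ n := (le_trans (le_max_right _ _) (le_max_left _ _)).trans hn
  by_cases hLbot : L = ⊥
  · rw [hLbot]
    linarith [min_le_left (hrate p r c ⊥ - D * χ) (min (κ * εj / 2) ((1 - D) / 2 * χ))]
  have hex : ∃ m, Submodule.span K (Diff r c m ∩ ↑L) = L := ⟨n, hLspan.symm⟩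
  set n0 := Nat.find hex
  have hn0 : Submodule.span K (Diff r c n0 ∩ ↑L) = L := Nat.find_spec hex
  have hn0n : n0 ≤ n := Nat.find_min' hex hLspan.symm
  have hn0big : M0 + 3 ≤ n0 := by
    by_contra hlt
    push Not at hlt
    refine hLbot ?_
    rw [← hn0, Submodule.span_eq_bot]
    rintro d ⟨⟨v, w, hs, rfl⟩, hdL⟩
    exact hN1 n hnN1 ⟨n0, hlt⟩ v w hs (hLs hdL)
  obtain ⟨m, hm⟩ : ∃ m, n0 = m + 1 := ⟨n0 - 1, by omega⟩
  set L1 := Submodule.span K (Diff r c m ∩ ↑L) with hL1
  have hL1L : L1 ≤ L := Submodule.span_le.2 Set.inter_subset_right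
  have hL1ne : L1 ≠ L := Nat.find_min hex (show m < n0 by omega)
  have hfin : Module.finrank K L1 ≤ j := by
    have := Submodule.finrank_lt_finrank_of_lt (lt_of_le_of_ne hL1L hL1ne)
    omega
  have hL1span : L1 = Submodule.span K (Diff r c n ∩ ↑L1) := by
    refine le_antisymm (le_trans (Submodule.span_mono ?_)
      (span_diff_mono r hr0 c L1 (show m ≤ n by omega))) (Submodule.span_le.2 Set.inter_subset_right)
    exact fun d hd => ⟨hd.1, Submodule.subset_span hd⟩
  have hh1 := hclaim n hnNj L1 hfin (hL1L.trans hLs) hL1span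
  obtain ⟨g, hg0, hgΔ, hgsep⟩ := perturb_small G Bd he (show m + 1 ≤ n by omega) L hLs
    (by rw [← hm, hn0])
  have hB : 0 ≤ (k : ℝ) * coordB emb r c q := mul_nonneg (Nat.cast_nonneg k)
    (div_nonneg (sum_nonneg fun i _ => sum_nonneg fun j _ => abs_nonneg _) (by linarith [G.q_lt]))
  obtain ⟨Gg, Dg, hWg, hLg⟩ := hdim g fun i => (hgΔ i).trans (by
    rw [div_le_one (by positivity)]
    exact (pow_le_one₀ G.a_pos.le ha1).trans (by linarith))
  have hDgh : Dg * χ ≤ hrate p r c L := dim_le_hrate Gg hLg L hg0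
  rcases le_or_gt Dg α with hDα | hDα
  swap
  · have := mul_le_mul_of_nonneg_right hDα.le hχ.le
    have e : α * χ = D * χ + (1 - D) / 2 * χ := by rw [hα]; ring
    linarith [min_le_right (hrate p r c ⊥ - D * χ) (min (κ * εj / 2) ((1 - D) / 2 * χ)),
      min_le_right (κ * εj / 2) ((1 - D) / 2 * χ)]
  have hσ : 0 < (b : ℝ) ^ (q0 * (m + 1)) := by positivity
  have heq : e ≤ q0 := Nat.le_add_left _ _
  have hlarge : ∀ w : Fin m → ι, 1 ≤ (b : ℝ) ^ (q0 * (m + 1)) * |slope r' w| := by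
    intro w
    refine le_trans (one_le_pow₀ hbea (n := m + 1)) ?_
    rw [mul_pow, ← pow_mul]
    exact mul_le_mul (pow_le_pow_right₀ hb1 (Nat.mul_le_mul_right _ heq))
      ((pow_le_pow_of_le_one G.a_pos.le ha1 (show m ≤ m + 1 by omega)).trans (slope_ge G w))
      (pow_nonneg G.a_pos.le _) hσ.le
  have hk := hkey _ Gg Dg hDα hWg m _ hσ hlarge
  have hA := hC1 m g fun v w _ => close_of_small G ha1 hgΔ v w
  have hF := fine_lower G hC4 (by positivity) L1 hh1 m ((b : ℝ) ^ (q0 * (m + 1))) g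
    fun v w hs hlt => by
      by_cases hdL : trans r c v - trans r c w ∈ L
      · exact Submodule.subset_span ⟨⟨v, w, hs, rfl⟩, hdL⟩
      exfalso
      have h1 := hgsep _ ⟨v, w, hs, rfl⟩ hdL
      rw [abs_mul, abs_of_pos hσ] at hlt
      linarith
  have hls := log_scale hκ0.le hεj.le hb2 (le_refl q0) (m + 1)
  push_cast at hls
  have hmM : (M0 : ℝ) ≤ m := by exact_mod_cast (by omega : M0 ≤ m)
  have hm1 : (1 : ℝ) ≤ m := by exact_mod_cast (by omega : 1 ≤ m)
  have hbig : |C| + |C1| + |(Fintype.card ι : ℝ) * C4| ≤ κ * εj / 8 * m := by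
    have := mul_le_mul_of_nonneg_left hmM (show 0 ≤ κ * εj / 8 by positivity)
    linarith
  have := combine hκ0 hκ1 hεj hm1 hA hF hls hk hbig
  linarith [min_le_right (hrate p r c ⊥ - D * χ) (min (κ * εj / 2) ((1 - D) / 2 * χ)),
    min_le_left (κ * εj / 2) ((1 - D) / 2 * χ)]

theorem claim_false (G : Good p (fun i => emb (r i)) (fun i => dotp emb (c i) τ) a q T)
    (Bd : Based emb r c τ b) {e : ℕ} {D Cw : ℝ}
    (hW : Win p (fun i => emb (r i)) (fun i => dotp emb (c i) τ) q D Cw)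
    (hlow : Low p (fun i => emb (r i)) (fun i => dotp emb (c i) τ) q D) (hDlt : D < 1)
    (hbea : 1 ≤ (b : ℝ) ^ e * a) (h : Claim p emb r c τ b e D k) : False := by
  obtain ⟨εj, hεj, N, hclaim⟩ := h
  set r' := fun i => emb (r i)
  set χ := lyap p r'
  set α := (1 + D) / 2 with hα
  set x := csx k (Module.finrank ℚ K) + e with hx
  have hb2 := Bd.two_le
  have hb1 : (1 : ℝ) ≤ b := by exact_mod_cast (by omega : 1 ≤ b)
  have hlb : 0 < Real.log b := Real.log_pos (by exact_mod_cast (by omega : 1 < b))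
  obtain ⟨κ, hκ0, hκ1, C, hkey⟩ := key_gain p r' a q T α (εj / (16 * ((x : ℝ) + 1) * Real.log b)) Cw
    (by rw [hα]; linarith) (by positivity)
  obtain ⟨C1, hC1⟩ := coarse_lower G hlow (show 0 < κ * εj / 8 by positivity)
  obtain ⟨C4, hC4⟩ := log_le_linear (show 0 < εj / 8 / ((Fintype.card ι : ℝ) + 1) by positivity)
  obtain ⟨M0, hM0⟩ := exists_nat_ge ((|C| + |C1| + |(Fintype.card ι : ℝ) * C4|) / (κ * εj / 8))
  rw [div_le_iff₀ (by positivity)] at hM0
  set n := max N (M0 + 1)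
  set L := Small emb r c τ (qrate K k b e) n
  have hLspan : L = Submodule.span K (Diff r c n ∩ ↑L) :=
    le_antisymm (Submodule.span_mono fun d hd => ⟨hd.1, Submodule.subset_span hd⟩)
      (Submodule.span_le.2 Set.inter_subset_right)
  have hh := hclaim n (le_max_left _ _) L
    ((Submodule.finrank_le L).trans (le_of_eq (Module.finrank_fin_fun K))) le_rfl hLspan
  have hσ : 0 < (b : ℝ) ^ (x * n) := by positivity
  have hlarge : ∀ w : Fin n → ι, 1 ≤ (b : ℝ) ^ (x * n) * |slope r' w| := by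
    intro w
    refine le_trans (one_le_pow₀ hbea (n := n)) ?_
    rw [mul_pow, ← pow_mul]
    exact mul_le_mul (pow_le_pow_right₀ hb1 (Nat.mul_le_mul_right _ (Nat.le_add_left e _)))
      (slope_ge G w) (pow_nonneg G.a_pos.le _) hσ.le
  have hk := hkey _ G D (by rw [hα]; linarith) hW n _ hσ hlarge
  have hA := hC1 n τ fun v w _ => by linarith [abs_nonneg (emb (slope r v))]
  have hF := fine_lower G hC4 (by positivity) L hh n ((b : ℝ) ^ (x * n)) τ fun v w hs hlt => by
    refine Submodule.subset_span ⟨⟨v, w, hs, rfl⟩, ?_⟩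
    rw [abs_mul, abs_of_pos hσ] at hlt
    rw [exp_qrate k (by omega), ← hx, inv_eq_one_div, le_div_iff₀ hσ]
    linarith
  have hls : κ * (εj / (16 * ((x : ℝ) + 1) * Real.log b)) * Real.log ((b : ℝ) ^ (x * n)) ≤
      κ * εj / 16 * ((n : ℝ) + 1) := by
    refine (log_scale hκ0.le hεj.le hb2 (le_refl x) n).trans ?_
    exact mul_le_mul_of_nonneg_left (by linarith) (by positivity)
  have hnM : (M0 : ℝ) + 1 ≤ n := by exact_mod_cast le_max_right N (M0 + 1)
  have hM0' : (0 : ℝ) ≤ M0 := Nat.cast_nonneg _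
  have hbig : |C| + |C1| + |(Fintype.card ι : ℝ) * C4| ≤ κ * εj / 8 * n := by
    have := mul_le_mul_of_nonneg_left hnM (show 0 ≤ κ * εj / 8 by positivity)
    linarith [mul_pos hκ0 hεj]
  have := combine hκ0 hκ1 hεj (by linarith : (1 : ℝ) ≤ n) hA hF hls hk hbig
  linarith [mul_pos hκ0 hεj]

/-- The dimension is at least the minimum of one and the entropy rate over the exponent. -/
theorem entropy_dim [Nonempty ι] (hp : ∀ i, 0 < p i) (hp1 : ∑ i, p i = 1) (hr0 : ∀ i, r i ≠ 0)
    (hr1 : ∀ i, |emb (r i)| < 1) (hτ : ∀ v : Fin k → K, dotp emb v τ = 0 → v = 0) :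
    ∃ a q T C D : ℝ, Good p (fun i => emb (r i)) (fun i => dotp emb (c i) τ) a q T ∧
      0 ≤ D ∧ D ≤ 1 ∧ Win p (fun i => emb (r i)) (fun i => dotp emb (c i) τ) q D C ∧
      Low p (fun i => emb (r i)) (fun i => dotp emb (c i) τ) q D ∧
      min (lyap p (fun i => emb (r i))) (hrate p r c ⊥) ≤ D * lyap p (fun i => emb (r i)) := by
  set r' := fun i => emb (r i) with hr'
  set q := univ.sup' univ_nonempty (fun i => |r' i|) with hqdef
  set a := univ.inf' univ_nonempty (fun i => |r' i|) with hadef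
  set T := ∑ i, ∑ j, |emb (c i j)| * (|τ j| + 1) with hTdef
  have hq1 : q < 1 := (sup'_lt_iff _).2 fun i _ => hr1 i
  have ha0 : 0 < a := (lt_inf'_iff _).2 fun i _ =>
    abs_pos.2 fun h => hr0 i (emb.injective (h.trans emb.map_zero.symm))
  have Ggood : ∀ g : Fin k → ℝ, (∀ j, |g j - τ j| ≤ 1) →
      Good p r' (fun i => dotp emb (c i) g) a q T := by
    intro g hg
    refine ⟨hp, hp1, ha0, fun i => inf'_le _ (mem_univ i),
      fun i => le_sup' (fun i => |r' i|) (mem_univ i), hq1,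
      sum_nonneg fun i _ => sum_nonneg fun j _ => by positivity, fun i => ?_⟩
    refine le_trans ?_ (single_le_sum (fun i _ => sum_nonneg fun j _ => by positivity) (mem_univ i))
    refine (abs_sum_le_sum_abs _ _).trans (sum_le_sum fun j _ => ?_)
    rw [abs_mul]
    refine mul_le_mul_of_nonneg_left ?_ (abs_nonneg _)
    have := abs_sub_abs_le_abs_sub (g j) (τ j)
    linarith [hg j]
  have Gτ := Ggood τ fun j => by simp
  obtain ⟨Cw, hdim⟩ := dim_exists p r' a q T
  obtain ⟨D, hD0, hD1, hWin, hLow⟩ := hdim _ Gτ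
  refine ⟨a, q, T, Cw, D, Gτ, hD0, hD1, hWin, hLow, ?_⟩
  set χ := lyap p r'
  have hχ : 0 < χ := sum_pos (fun i _ => mul_pos (hp i) (neg_pos.2 (Real.log_neg
    (abs_pos.2 fun h => hr0 i (emb.injective (h.trans emb.map_zero.symm))) (hr1 i)))) univ_nonempty
  by_contra hcon
  push Not at hcon
  obtain ⟨hDχ, hDh⟩ := lt_min_iff.1 hcon
  have hDlt : D < 1 := by
    by_contra h; push Not at h
    have := mul_le_mul_of_nonneg_right h hχ.le
    linarith
  obtain ⟨b, Bd⟩ := exists_based emb r c τ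
  have hb1 : (1 : ℝ) < b := by have := Bd.two_le; exact_mod_cast (by omega : 1 < b)
  have ha1 : a ≤ 1 := (Gτ.a_le (Classical.arbitrary ι)).trans ((Gτ.le_q _).trans hq1.le)
  set W := (k : ℝ) * coordB emb r c q with hW
  have hW0 : 0 ≤ W := mul_nonneg (Nat.cast_nonneg k)
    (div_nonneg (sum_nonneg fun i _ => sum_nonneg fun j _ => abs_nonneg _) (by linarith))
  obtain ⟨e1, he1⟩ := pow_unbounded_of_one_lt
    ((b : ℝ) ^ (cgx k (Module.finrank ℚ K) + k) * (12 * W + 12) / a) hb1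
  set e := max e1 (k + 1)
  have he : Expo emb r c a q b e :=
    ⟨le_max_right _ _, he1.le.trans (pow_le_pow_right₀ hb1.le (le_max_left _ _))⟩
  have hbea : 1 ≤ (b : ℝ) ^ e * a := by
    have hbe := he.big
    rw [div_le_iff₀ ha0] at hbe
    refine le_trans ?_ hbe
    exact one_le_mul_of_one_le_of_one_le (one_le_pow₀ hb1.le) (by linarith)
  have claim : ∀ j : ℕ, Claim p emb r c τ b e D j := by
    intro j
    induction j with
    | zero =>
      refine ⟨hrate p r c ⊥ - D * χ, by linarith, 0, fun n _ L hL _ _ => ?_⟩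
      rw [Submodule.finrank_eq_zero.1 (Nat.le_zero.1 hL)]
      linarith
    | succ j ih =>
      exact claim_step Gτ ha1 hr0 hτ Bd he hLow hDlt hχ hDh (Cw := Cw) (fun g hg => by
        obtain ⟨Dg, -, -, hWg, hLg⟩ := hdim _ (Ggood g hg)
        exact ⟨Ggood g hg, Dg, hWg, hLg⟩) hbea ih
  exact claim_false Gτ Bd hWin hLow hDlt hbea (claim k)

end

end Vale.Agent.P114
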