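import Vale.Agent.P114.EntProd
import Mathlib.Algebra.BigOperators.Fin
import Mathlib.Algebra.Order.Floor.Ring
import Mathlib.Algebra.Module.Basic
import Mathlib.Data.Int.Interval
import Mathlib.Data.Fin.Tuple.Basic
import Mathlib.Logic.Equiv.Fin.Basic
import Mathlib.Algebra.Module.Pi

/-! # Words, slopes, translations and floors -/

namespace Vale.Agent.P114

noncomputable section

open scoped Classical
open Finset

variable {ι : Type} [Fintype ι]

/-- The probability of a word. -/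
def wt (p : ι → ℝ) {n : ℕ} (w : Fin n → ι) : ℝ := ∏ i, p (w i)

/-- The slope of the composition along a word. -/
def slope {R : Type*} [CommMonoid R] (r : ι → R) {n : ℕ} (w : Fin n → ι) : R := ∏ i, r (w i)

/-- The translation part of the composition along a word. -/
def trans {R V : Type*} [Semiring R] [AddCommMonoid V] [Module R V] (r : ι → R) (c : ι → V) :
    {n : ℕ} → (Fin n → ι) → V
  | 0, _ => 0
  | _ + 1, w => c (w 0) + r (w 0) • trans r c (Fin.tail w)

omit [Fintype ι] in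
theorem wt_succ (p : ι → ℝ) {n : ℕ} (w : Fin (n + 1) → ι) :
    wt p w = p (w 0) * wt p (Fin.tail w) := Fin.prod_univ_succ _

omit [Fintype ι] in
theorem slope_succ {R : Type*} [CommMonoid R] (r : ι → R) {n : ℕ} (w : Fin (n + 1) → ι) :
    slope r w = r (w 0) * slope r (Fin.tail w) := Fin.prod_univ_succ _

omit [Fintype ι] in
theorem wt_nonneg {p : ι → ℝ} (hp : ∀ i, 0 ≤ p i) {n : ℕ} : (0 : (Fin n → ι) → ℝ) ≤ wt p :=
  fun _ => prod_nonneg fun i _ => hp _

theorem sum_wt {p : ι → ℝ} (hp1 : ∑ i, p i = 1) (n : ℕ) : ∑ w : Fin n → ι, wt p w = 1 := by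
  simp only [wt]
  rw [← Fintype.prod_sum fun (_ : Fin n) i => p i]
  simp [hp1]

/-- Splitting a word into its first `m` letters and the rest. -/
def joinEquiv (ι : Type) (N : ℕ) : (m : ℕ) → ((Fin m → ι) × (Fin N → ι)) ≃ (Fin (N + m) → ι)
  | 0 => Equiv.uniqueProd (Fin N → ι) (Fin 0 → ι)
  | m + 1 => (((Fin.consEquiv (fun _ : Fin (m + 1) => ι)).symm.prodCongr (Equiv.refl _)).trans
      (Equiv.prodAssoc _ _ _)).trans
      (((Equiv.refl ι).prodCongr (joinEquiv ι N m)).trans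
        (Fin.consEquiv (fun _ : Fin (N + m + 1) => ι)))

omit [Fintype ι] in
theorem joinEquiv_succ (N m : ℕ) (u : Fin (m + 1) → ι) (v : Fin N → ι) :
    joinEquiv ι N (m + 1) (u, v) = Fin.cons (u 0) (joinEquiv ι N m (Fin.tail u, v)) := rfl

omit [Fintype ι] in
theorem wt_join (p : ι → ℝ) (N : ℕ) : ∀ (m : ℕ) (u : Fin m → ι) (v : Fin N → ι),
    wt p (joinEquiv ι N m (u, v)) = wt p u * wt p v
  | 0, u, v => by simp [joinEquiv, wt]
  | m + 1, u, v => by
    rw [joinEquiv_succ]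
    change wt p (n := N + m + 1) _ = _
    rw [wt_succ, wt_succ, Fin.cons_zero, Fin.tail_cons, wt_join p N m]
    ring

omit [Fintype ι] in
theorem slope_join {R : Type*} [CommMonoid R] (r : ι → R) (N : ℕ) :
    ∀ (m : ℕ) (u : Fin m → ι) (v : Fin N → ι),
      slope r (joinEquiv ι N m (u, v)) = slope r u * slope r v
  | 0, u, v => by simp [joinEquiv, slope]
  | m + 1, u, v => by
    rw [joinEquiv_succ]
    change slope r (n := N + m + 1) _ = _
    rw [slope_succ, slope_succ, Fin.cons_zero, Fin.tail_cons, slope_join r N m, mul_assoc]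

omit [Fintype ι] in
theorem trans_join {R V : Type*} [CommSemiring R] [AddCommMonoid V] [Module R V] (r : ι → R)
    (c : ι → V) (N : ℕ) : ∀ (m : ℕ) (u : Fin m → ι) (v : Fin N → ι),
      trans r c (joinEquiv ι N m (u, v)) = trans r c u + slope r u • trans r c v
  | 0, u, v => by simp [joinEquiv, trans, slope]
  | m + 1, u, v => by
    rw [joinEquiv_succ]
    change trans r c (n := N + m + 1) _ = _
    rw [trans, trans, Fin.cons_zero, Fin.tail_cons, trans_join r c N m, slope_succ, smul_add,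
      smul_smul, add_assoc]

theorem cent_join {α β : Type*} (p : ι → ℝ) (N m : ℕ) (X : (Fin (N + m) → ι) → α)
    (Y : (Fin (N + m) → ι) → β) :
    cent (prodW (wt (n := m) p) (wt (n := N) p)) (fun v => X (joinEquiv ι N m v))
      (fun v => Y (joinEquiv ι N m v)) = cent (wt p) X Y :=
  cent_equiv (joinEquiv ι N m) (fun v => by rw [wt_join]; rfl) X Y

theorem cent_cons {α β : Type*} (p : ι → ℝ) (n : ℕ) (X : (Fin (n + 1) → ι) → α)
    (Y : (Fin (n + 1) → ι) → β) :
    cent (prodW p (wt (n := n) p)) (fun v => X (Fin.cons v.1 v.2))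
      (fun v => Y (Fin.cons v.1 v.2)) = cent (wt p) X Y :=
  cent_equiv (Fin.consEquiv (fun _ : Fin (n + 1) => ι))
    (fun v => by simp [prodW, wt_succ, Fin.consEquiv]) X Y

variable {Ω Ω' α : Type*} [Fintype Ω] [Fintype Ω'] {P : Ω → ℝ} {Q : Ω' → ℝ}

theorem cent_slice (hP : 0 ≤ P) (hQ : 0 ≤ Q) {β : Type*} (W : Ω × Ω' → α) (Y : Ω × Ω' → β) :
    cent (prodW P Q) W (fun v => (Y v, v.1)) =
      ∑ ω, P ω * cent Q (fun w => W (ω, w)) (fun w => Y (ω, w)) := by
  have h := cent_chain (prodW P Q) W Y Prod.fst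
  rw [cent_prod_slice hP hQ, cent_prod_slice hP hQ] at h
  have e : ∀ ω, ent Q (fun w => (W (ω, w), Y (ω, w))) =
      ent Q (fun w => Y (ω, w)) + cent Q (fun w => W (ω, w)) (fun w => Y (ω, w)) :=
    fun ω => ent_pair Q _ _
  simp only [e, mul_add, sum_add_distrib] at h
  linarith

/-- Integer parts of nearly affinely related variables. -/
theorem cent_floor_le (hP : 0 ≤ P) (X Y : Ω → ℝ) (s θ M : ℝ)
    (h : ∀ v, |X v - (s * Y v + θ)| ≤ M) :
    cent P (fun v => ⌊X v⌋) (fun v => ⌊Y v⌋) ≤ (∑ v, P v) * Real.log (|s| + 2 * M + 3) := by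
  let lo : ℤ → ℝ := fun k => min (s * k) (s * (k + 1)) + θ - M
  let hi : ℤ → ℝ := fun k => max (s * k) (s * (k + 1)) + θ + M
  refine (cent_le_log hP _ _ (fun _ => |s| + 2 * M + 3) (fun k => Finset.Icc ⌊lo k⌋ ⌊hi k⌋)
    (fun v => ?_) (fun v => ?_)).trans (le_of_eq (by rw [sum_mul]))
  · have h1 := abs_le.1 (h v)
    have h2 := Int.floor_le (Y v)
    have h3 := Int.lt_floor_add_one (Y v)
    rw [mem_Icc]
    rcases le_total 0 s with hs | hs
    · have a1 := mul_le_mul_of_nonneg_left h2 hs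
      have a2 := mul_le_mul_of_nonneg_left h3.le hs
      have a3 := min_le_left (s * (⌊Y v⌋ : ℝ)) (s * (⌊Y v⌋ + 1))
      have a4 := le_max_right (s * (⌊Y v⌋ : ℝ)) (s * (⌊Y v⌋ + 1))
      exact ⟨Int.floor_le_floor (by simp only [lo]; linarith),
        Int.floor_le_floor (by simp only [hi]; linarith)⟩
    · have a1 := mul_le_mul_of_nonpos_left h2 hs
      have a2 := mul_le_mul_of_nonpos_left h3.le hs
      have a3 := min_le_right (s * (⌊Y v⌋ : ℝ)) (s * (⌊Y v⌋ + 1))
      have a4 := le_max_left (s * (⌊Y v⌋ : ℝ)) (s * (⌊Y v⌋ + 1))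
      exact ⟨Int.floor_le_floor (by simp only [lo]; linarith),
        Int.floor_le_floor (by simp only [hi]; linarith)⟩
  · have hM : 0 ≤ M := (abs_nonneg _).trans (h v)
    set k := ⌊Y v⌋
    have hmm : max (s * k) (s * (k + 1)) - min (s * k) (s * (k + 1)) = |s| := by
      rw [max_sub_min_eq_abs]
      rw [show s * ((k : ℝ) + 1) - s * k = s by ring]
    have a1 := Int.floor_le (hi k)
    have a2 := Int.lt_floor_add_one (lo k)
    rw [Int.card_Icc]
    rcases le_or_gt 0 (⌊hi k⌋ + 1 - ⌊lo k⌋) with hc | hc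
    · rw [show ((⌊hi k⌋ + 1 - ⌊lo k⌋).toNat : ℝ) = ((⌊hi k⌋ + 1 - ⌊lo k⌋ : ℤ) : ℝ) by
        rw [← Int.cast_natCast, Int.toNat_of_nonneg hc]]
      push_cast
      simp only [lo, hi] at a1 a2 ⊢
      linarith
    · rw [Int.toNat_of_nonpos hc.le]
      simpa using by positivity

theorem ent_floor_le (hP : 0 ≤ P) (hP1 : ∑ v, P v = 1) (X Y : Ω → ℝ) (s θ M : ℝ)
    (h : ∀ v, |X v - (s * Y v + θ)| ≤ M) :
    ent P (fun v => ⌊X v⌋) ≤ ent P (fun v => ⌊Y v⌋) + Real.log (|s| + 2 * M + 3) := by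
  refine (ent_le_add hP _ (fun v => ⌊Y v⌋)).trans (add_le_add le_rfl ?_)
  simpa [hP1] using cent_floor_le hP X Y s θ M h

theorem ent_floor_bound (hP : 0 ≤ P) (hP1 : ∑ v, P v = 1) (X : Ω → ℝ) (M : ℝ)
    (h : ∀ v, |X v| ≤ M) : ent P (fun v => ⌊X v⌋) ≤ Real.log (2 * M + 3) := by
  have hc : ent P (fun _ : Ω => ⌊(0 : ℝ)⌋) = 0 := by
    refine sum_eq_zero fun v _ => ?_
    rw [mass_congr (Y := fun _ : Ω => ((⌊(0 : ℝ)⌋, ()) : ℤ × Unit)) (b := (⌊(0 : ℝ)⌋, ()))
      fun u => by simp, sub_self, mul_zero]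
  have := ent_floor_le hP hP1 X (fun _ => 0) 0 0 M fun v => by simpa using h v
  rw [hc] at this
  simpa using this

end

end Vale.Agent.P114
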