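import Vale.Agent.P114.Height
import Vale.Agent.P114.Words
import Mathlib.LinearAlgebra.Basis.Basic
import Mathlib.LinearAlgebra.Matrix.NonsingularInverse
import Mathlib.LinearAlgebra.FiniteDimensional.Basic
import Mathlib.Algebra.Polynomial.Roots
import Mathlib.LinearAlgebra.Matrix.ToLin
import Mathlib.Analysis.SpecialFunctions.Pow.Real

/-! # Differences at one level and the perturbation of the translation vector -/

namespace Vale.Agent.P114

noncomputable section

open scoped Classical Polynomial Matrix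
open Finset

variable {ι : Type} [Fintype ι] {K : Type} [Field K] [NumberField K] {k : ℕ}

/-- The real value of a vector over `K` at a real vector. -/
def dotp (emb : K →+* ℝ) (v : Fin k → K) (f : Fin k → ℝ) : ℝ := ∑ a, emb (v a) * f a

omit [Fintype ι] [NumberField K] in
theorem trans_dotp (emb : K →+* ℝ) (r : ι → K) (c : ι → Fin k → K) (f : Fin k → ℝ) :
    ∀ {n : ℕ} (w : Fin n → ι),
      trans (fun i => emb (r i)) (fun i => dotp emb (c i) f) w = dotp emb (trans r c w) f
  | 0, w => by simp [trans, dotp]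
  | n + 1, w => by
    rw [trans, trans, trans_dotp emb r c f (Fin.tail w)]
    simp [dotp, Finset.sum_add_distrib, Finset.mul_sum, add_mul, mul_assoc]

omit [Fintype ι] [NumberField K] in
theorem slope_emb (emb : K →+* ℝ) (r : ι → K) {n : ℕ} (w : Fin n → ι) :
    slope (fun i => emb (r i)) w = emb (slope r w) := by
  simp [slope, map_prod]

omit [NumberField K] in
theorem dotp_sub (emb : K →+* ℝ) (v w : Fin k → K) (f : Fin k → ℝ) :
    dotp emb (v - w) f = dotp emb v f - dotp emb w f := by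
  simp [dotp, sub_mul]

/-- Differences of translation vectors of two words of level `m` with equal slopes. -/
def Diff (r : ι → K) (c : ι → Fin k → K) (m : ℕ) : Set (Fin k → K) :=
  {d | ∃ v w : Fin m → ι, slope r v = slope r w ∧ d = trans r c v - trans r c w}

/-- The span of the differences which are tiny at `τ`. -/
def Small (emb : K →+* ℝ) (r : ι → K) (c : ι → Fin k → K) (τ : Fin k → ℝ) (Q : ℝ) (n : ℕ) :
    Submodule K (Fin k → K) :=
  Submodule.span K {d | d ∈ Diff r c n ∧ |dotp emb d τ| ≤ Real.exp (-(Q * n))}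

omit [Fintype ι] [NumberField K] in
theorem diff_cons (r : ι → K) (c : ι → Fin k → K) (i : ι) {m : ℕ} {d : Fin k → K}
    (hd : d ∈ Diff r c m) : r i • d ∈ Diff r c (m + 1) := by
  obtain ⟨v, w, hs, rfl⟩ := hd
  refine ⟨Fin.cons i v, Fin.cons i w, ?_, ?_⟩
  · simp [slope_succ, hs]
  · rw [trans, trans]
    simp [smul_sub]

omit [Fintype ι] [NumberField K] in
theorem span_diff_mono [Nonempty ι] (r : ι → K) (hr : ∀ i, r i ≠ 0) (c : ι → Fin k → K)
    (L : Submodule K (Fin k → K)) {m n : ℕ} (h : m ≤ n) :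
    Submodule.span K (Diff r c m ∩ ↑L) ≤ Submodule.span K (Diff r c n ∩ ↑L) := by
  induction h with
  | refl => exact le_rfl
  | @step n _ ih =>
    refine ih.trans (Submodule.span_le.2 fun d hd => ?_)
    obtain ⟨i⟩ := ‹Nonempty ι›
    rw [show d = (r i)⁻¹ • (r i • d) by rw [inv_smul_smul₀ (hr i)]]
    exact Submodule.smul_mem _ _ (Submodule.subset_span ⟨diff_cons r c i hd.1, L.smul_mem _ hd.2⟩)

omit [NumberField K] in
/-- A basis made of elements of `S` and unit vectors, whose part in `S` spans the span of `S`. -/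
theorem exists_rows (S : Set (Fin k → K)) : ∃ B : Matrix (Fin k) (Fin k) K, B.det ≠ 0 ∧
    (∀ a, B a ∈ S ∨ ∃ j, B a = Pi.single j 1) ∧
    Submodule.span K S = Submodule.span K {v | v ∈ S ∧ ∃ a, B a = v} ∧
    ∀ a, B a ∉ S → B a ∉ Submodule.span K S := by
  obtain ⟨b0, hb0S, hb0span, hb0li⟩ := exists_linearIndependent K S
  set t := b0 ∪ Set.range fun j : Fin k => (Pi.single j 1 : Fin k → K) with ht
  have hli : LinearIndepOn K id b0 := hb0li
  have hsub : b0 ⊆ t := Set.subset_union_left
  set b := hli.extend hsub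
  have hbli : LinearIndepOn K id b := hli.linearIndepOn_extend hsub
  have hbt : b ⊆ t := hli.extend_subset hsub
  have hb0b : b0 ⊆ b := hli.subset_extend hsub
  have htop : (⊤ : Submodule K (Fin k → K)) ≤ Submodule.span K b := by
    refine le_trans (le_of_eq ((Pi.basisFun K (Fin k)).span_eq).symm) ?_
    refine Submodule.span_le.2 ?_
    rintro x ⟨j, rfl⟩
    exact hli.subset_span_extend hsub (Or.inr ⟨j, by simp⟩)
  let e : Module.Basis b K (Fin k → K) :=
    Module.Basis.mk (v := fun x : b => (x : Fin k → K)) hbli (by simpa using htop)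
  have : Fintype b := FiniteDimensional.fintypeBasisIndex e
  have hcard : Fintype.card (Fin k) = Fintype.card b := by
    rw [← Module.finrank_eq_card_basis e, Module.finrank_fin_fun, Fintype.card_fin]
  let eq := Fintype.equivOfCardEq hcard
  let B : Matrix (Fin k) (Fin k) K := Matrix.of fun a => (eq a : Fin k → K)
  have hBli : LinearIndependent K fun a => B a :=
    (show LinearIndependent K (fun x : b => (x : Fin k → K)) from hbli).comp eq eq.injective
  refine ⟨B, ?_, fun a => ?_, ?_, ?_⟩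
  · have h := Matrix.linearIndependent_rows_iff_isUnit.1 (show LinearIndependent K B.row from hBli)
    rw [Matrix.isUnit_iff_isUnit_det] at h
    exact h.ne_zero
  · rcases hbt (eq a).2 with h | ⟨j, hj⟩
    · exact Or.inl (hb0S h)
    · exact Or.inr ⟨j, hj.symm⟩
  · refine le_antisymm ?_ (Submodule.span_mono fun v hv => hv.1)
    rw [← hb0span]
    refine Submodule.span_mono fun v hv => ⟨hb0S hv, eq.symm ⟨v, hb0b hv⟩, ?_⟩
    change (eq (eq.symm ⟨v, hb0b hv⟩) : Fin k → K) = v
    rw [Equiv.apply_symm_apply]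
  · intro a ha hmem
    rw [← hb0span] at hmem
    have h0 : (eq a : Fin k → K) ∉ b0 := fun h => ha (hb0S h)
    have := (show LinearIndependent K (fun x : b => (x : Fin k → K)) from hbli).notMem_span_image
      (s := {x : b | (x : Fin k → K) ∈ b0}) (x := eq a) h0
    refine this (Submodule.span_mono ?_ hmem)
    intro v hv
    exact ⟨⟨v, hb0b hv⟩, hv, rfl⟩

omit [NumberField K] in
theorem det_smul_eq (B : Matrix (Fin k) (Fin k) K) (d : Fin k → K) :
    B.det • d = ∑ a, (d ᵥ* B.adjugate) a • B a := by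
  rw [← Matrix.vecMul_eq_sum, Matrix.vecMul_vecMul, Matrix.adjugate_mul, Matrix.vecMul_smul,
    Matrix.vecMul_one]

omit [NumberField K] in
theorem coef_eq_zero (B : Matrix (Fin k) (Fin k) K) {S : Set (Fin k → K)} {d : Fin k → K}
    (hd : d ∈ Submodule.span K {v | v ∈ S ∧ ∃ a, B a = v}) {a : Fin k} (ha : B a ∉ S) :
    (d ᵥ* B.adjugate) a = 0 := by
  induction hd using Submodule.span_induction with
  | mem x hx =>
    obtain ⟨hxS, a', rfl⟩ := hx
    have hne : a' ≠ a := fun h => ha (h ▸ hxS)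
    have h : (B * B.adjugate) a' a = 0 := by
      rw [Matrix.mul_adjugate]; simp [hne]
    rw [← h, Matrix.mul_apply]
    rfl
  | zero => simp
  | add x y _ _ hx hy => simp [Matrix.add_vecMul, hx, hy]
  | smul s x _ hx => simp [Matrix.smul_vecMul, hx]

/-- All the numbers in sight have size `b`. -/
structure Based (emb : K →+* ℝ) (r : ι → K) (c : ι → Fin k → K) (τ : Fin k → ℝ) (b : ℕ) :
    Prop where
  two_le : 2 ≤ b
  sz_r : ∀ i, Sz b 1 (r i)
  sz_c : ∀ i a, Sz b 1 (c i a)
  tau : ∑ a, |τ a| + 2 ≤ b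
  card : Fintype.card ι ^ 2 ≤ b
  dim : k + 1 ≤ b

theorem exists_based (emb : K →+* ℝ) (r : ι → K) (c : ι → Fin k → K) (τ : Fin k → ℝ) :
    ∃ b, Based emb r c τ b := by
  obtain ⟨b, h2, hB, hs⟩ := exists_base
    ((univ.image r) ∪ (univ.image fun x : ι × Fin k => c x.1 x.2))
    (max (∑ a, |τ a| + 2) ((Fintype.card ι ^ 2 + k + 1 : ℕ) : ℝ))
  have hB2 : Fintype.card ι ^ 2 + k + 1 ≤ b := Nat.cast_le.1 ((le_max_right _ _).trans hB)
  exact ⟨b, h2, fun i => hs _ (mem_union_left _ (mem_image_of_mem _ (mem_univ _))),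
    fun i a => hs _ (mem_union_right _ (mem_image.2 ⟨(i, a), mem_univ _, rfl⟩)),
    (le_max_left _ _).trans hB, by omega, by omega⟩

variable {emb : K →+* ℝ} {r : ι → K} {c : ι → Fin k → K} {τ : Fin k → ℝ} {b : ℕ}

omit [NumberField K] in
theorem sz_trans (Bd : Based emb r c τ b) : ∀ {n : ℕ} (w : Fin n → ι) (a : Fin k),
    Sz b (3 * n + 3) (trans r c w a)
  | 0, w, a => by simpa [trans] using Sz.zero _
  | n + 1, w, a => by
    have h2 := Bd.two_le
    have h1 := ((Bd.sz_r (w 0)).mul (sz_trans Bd (Fin.tail w) a))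
    have h3 := Sz.add h2 (Sz.mono (by omega) (show 1 ≤ 1 + (3 * n + 3) by omega) (Bd.sz_c (w 0) a)) h1
    rw [trans]
    simp only [Pi.add_apply, Pi.smul_apply, smul_eq_mul]
    exact Sz.mono (by omega) (by omega) h3

omit [NumberField K] in
theorem sz_diff (Bd : Based emb r c τ b) {n : ℕ} {d : Fin k → K} (hd : d ∈ Diff r c n)
    (a : Fin k) : Sz b (3 * n + 4) (d a) := by
  obtain ⟨v, w, -, rfl⟩ := hd
  rw [Pi.sub_apply, sub_eq_add_neg]
  exact Sz.add Bd.two_le (sz_trans Bd v a) (sz_trans Bd w a).neg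

/-- The exponent of the determinants. -/
def dexp (k n : ℕ) : ℕ := k * (3 * n + 4) + k.factorial

omit [NumberField K] in
theorem sz_rows (Bd : Based emb r c τ b) {S : Set (Fin k → K)} {n : ℕ} (hS : S ⊆ Diff r c n)
    {B : Matrix (Fin k) (Fin k) K} (hB : ∀ a, B a ∈ S ∨ ∃ j, B a = Pi.single j 1) (i j : Fin k) :
    Sz b (3 * n + 4) (B i j) := by
  have h1 : 1 ≤ b := by have := Bd.two_le; omega
  rcases hB i with h | ⟨j', h⟩
  · exact sz_diff Bd (hS h) j
  · rw [h, Pi.single_apply]
    split_ifs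
    · exact Sz.one h1 _
    · exact Sz.zero _

omit [NumberField K] in
theorem sz_coef (Bd : Based emb r c τ b) {n m : ℕ} {B : Matrix (Fin k) (Fin k) K}
    (hB : ∀ i j, Sz b (3 * n + 4) (B i j)) {d : Fin k → K} (hd : d ∈ Diff r c m) (a : Fin k) :
    Sz b (3 * m + 4 + dexp k n + 1) ((d ᵥ* B.adjugate) a) := by
  simp only [Matrix.vecMul, dotProduct]
  refine Sz.sum _ _ ?_ fun j _ => (sz_diff Bd hd j).mul (Sz.adjugate Bd.two_le B hB j a)
  rw [card_univ, Fintype.card_fin, pow_one]
  exact le_trans (Nat.le_succ k) Bd.dim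

omit [NumberField K] in
theorem det_dotp (B : Matrix (Fin k) (Fin k) K) (d : Fin k → K) (f : Fin k → ℝ) :
    emb B.det * dotp emb d f = ∑ a, emb ((d ᵥ* B.adjugate) a) * dotp emb (B a) f := by
  have h := congrArg (fun v => dotp emb v f) (det_smul_eq B d)
  simp only [dotp, Pi.smul_apply, smul_eq_mul, map_mul, Finset.sum_apply, map_sum, mul_assoc,
    ← mul_sum, sum_mul] at h
  simp only [dotp]
  rw [h, sum_comm]
  simp only [mul_sum]

/-- Differences of bounded level in `Small` are tiny at `τ`. -/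
theorem small_bound (Bd : Based emb r c τ b) (Q : ℝ) {m n : ℕ} (hmn : m ≤ n) {l : Fin k → K}
    (hl : l ∈ Diff r c m) (hlS : l ∈ Small emb r c τ Q n) :
    |dotp emb l τ| ≤
      (b : ℝ) ^ (3 * n + 4 + dexp k n + 1 + 1 + 2 * dexp k n * Module.finrank ℚ K) *
        Real.exp (-(Q * n)) := by
  set S := {d | d ∈ Diff r c n ∧ |dotp emb d τ| ≤ Real.exp (-(Q * n))}
  obtain ⟨B, hdet, hrows, hspan, -⟩ := exists_rows S
  have hBsz := sz_rows Bd (fun d (hd : d ∈ S) => hd.1) hrows
  have hl' : l ∈ Submodule.span K {v | v ∈ S ∧ ∃ a, B a = v} := by rw [← hspan]; exact hlS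
  have hb1 : 1 ≤ b := by have := Bd.two_le; omega
  have hbr : (1 : ℝ) ≤ b := by exact_mod_cast hb1
  set e1 := 3 * n + 4 + dexp k n + 1
  have hterm : ∀ a, |emb ((l ᵥ* B.adjugate) a) * dotp emb (B a) τ| ≤
      (b : ℝ) ^ e1 * Real.exp (-(Q * n)) := by
    intro a
    by_cases ha : B a ∈ S
    · rw [abs_mul]
      refine mul_le_mul ((sz_coef Bd hBsz hl a).upper emb |>.trans ?_) ha.2 (abs_nonneg _)
        (by positivity)
      exact pow_le_pow_right₀ hbr (by omega)
    · rw [coef_eq_zero B hl' ha, map_zero, zero_mul, abs_zero]; positivity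
  have h1 : |emb B.det * dotp emb l τ| ≤ (b : ℝ) ^ (e1 + 1) * Real.exp (-(Q * n)) := by
    rw [det_dotp]
    refine ((abs_sum_le_sum_abs _ _).trans (sum_le_sum fun a _ => hterm a)).trans ?_
    rw [sum_const, card_univ, Fintype.card_fin, nsmul_eq_mul, pow_succ (b : ℝ) e1, ← mul_assoc,
      mul_comm ((b : ℝ) ^ e1) b]
    refine mul_le_mul_of_nonneg_right (mul_le_mul_of_nonneg_right ?_ (by positivity))
      (Real.exp_nonneg _)
    exact_mod_cast le_trans (Nat.le_succ k) Bd.dim
  have h2 := (Sz.det Bd.two_le B hBsz).lower emb hb1 hdet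
  rw [abs_mul] at h1
  calc |dotp emb l τ|
      ≤ |dotp emb l τ| * (|emb B.det| * (b : ℝ) ^ (2 * dexp k n * Module.finrank ℚ K)) :=
        le_mul_of_one_le_right (abs_nonneg _) h2
    _ = |emb B.det| * |dotp emb l τ| * (b : ℝ) ^ (2 * dexp k n * Module.finrank ℚ K) := by ring
    _ ≤ (b : ℝ) ^ (e1 + 1) * Real.exp (-(Q * n)) *
        (b : ℝ) ^ (2 * dexp k n * Module.finrank ℚ K) :=
        mul_le_mul_of_nonneg_right h1 (by positivity)
    _ = _ := by rw [pow_add _ (e1 + 1)]; ring

/-- A perturbation of `τ` vanishing on `L` and nowhere else on the differences of level `m`. -/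
theorem exists_perturb (Bd : Based emb r c τ b) (L : Submodule K (Fin k → K)) (m E : ℕ)
    (hE : k * (m + 1) + 1 ≤ E) (hL : L = Submodule.span K (Diff r c (m + 1) ∩ ↑L)) (ξ : ℝ)
    (hξ : ∀ l ∈ Diff r c (m + 1), l ∈ L → |dotp emb l τ| ≤ ξ) :
    ∃ g : Fin k → ℝ, (∀ l ∈ L, dotp emb l g = 0) ∧
      (∀ a, |g a - τ a| ≤ (b : ℝ) ^ (2 * dexp k (m + 1) * Module.finrank ℚ K + dexp k (m + 1) + 1)
        * (|ξ| + 2 * (b : ℝ) ^ (k * (m + 1)) / (b : ℝ) ^ E)) ∧
      ∀ d ∈ Diff r c m, d ∉ L → 1 ≤ |dotp emb d g| *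
        (b : ℝ) ^ (2 * (3 * m + 4 + dexp k (m + 1) + 1 + (E + 1) + 1) * Module.finrank ℚ K
          + dexp k (m + 1)) := by
  set S := Diff r c (m + 1) ∩ (↑L : Set (Fin k → K))
  obtain ⟨B, hdet, hrows, hspan, hout⟩ := exists_rows S
  rw [← hL] at hspan hout
  have hBsz := sz_rows Bd (fun d (hd : d ∈ S) => hd.1) hrows
  have hb2 := Bd.two_le
  have hb1 : 1 ≤ b := by omega
  have hbr : (1 : ℝ) ≤ b := by exact_mod_cast hb1
  have hb0 : (b : K) ≠ 0 := by exact_mod_cast (by omega : b ≠ 0)
  set N : ℕ := b ^ E with hN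
  set Z : ℕ := b ^ (m + 1) with hZ
  set fl : Fin k → ℤ := fun a => ⌊(N : ℝ) * dotp emb (B a) τ⌋
  let η : ℕ → Fin k → K := fun z a =>
    if B a ∈ S then 0 else ((fl a : K) + (z : K) ^ ((a : ℕ) + 1)) / (b : K) ^ E
  let P : (Fin m → ι) × (Fin m → ι) → K[X] := fun x => ∑ a, if B a ∈ S then 0 else
    Polynomial.C (((trans r c x.1 - trans r c x.2) ᵥ* B.adjugate) a) *
      (Polynomial.C (fl a : K) + Polynomial.X ^ ((a : ℕ) + 1))
  let bad : Finset ℕ := (range (Z + 1)).filter fun z =>
    ∃ x : (Fin m → ι) × (Fin m → ι), P x ≠ 0 ∧ (P x).eval (z : K) = 0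
  have hbad : bad.card ≤ k * b ^ m := by
    have hsub : bad ⊆ univ.biUnion fun x : (Fin m → ι) × (Fin m → ι) =>
        (range (Z + 1)).filter fun z => P x ≠ 0 ∧ (P x).eval (z : K) = 0 := by
      intro z hz
      simp only [bad, mem_filter] at hz
      obtain ⟨hz1, x, hx⟩ := hz
      exact mem_biUnion.2 ⟨x, mem_univ _, mem_filter.2 ⟨hz1, hx⟩⟩
    refine (card_le_card hsub).trans (card_biUnion_le.trans ?_)
    calc ∑ x : (Fin m → ι) × (Fin m → ι), ((range (Z + 1)).filter fun z : ℕ => P x ≠ 0 ∧ (P x).eval (z : K) = 0).card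
        ≤ ∑ _x : (Fin m → ι) × (Fin m → ι), k := sum_le_sum fun x _ => by
          by_cases hx : P x = 0
          · simp [hx]
          refine le_trans ?_ (show (P x).natDegree ≤ k from ?_)
          · refine le_trans (card_le_card_of_injOn (t := (P x).roots.toFinset) (fun z : ℕ => (z : K))
              (fun z hz => ?_) (fun a _ b _ h => Nat.cast_injective (R := K) h))
              ((Multiset.toFinset_card_le _).trans (Polynomial.card_roots' (P x)))
            simp only [coe_filter, Set.mem_ofPred_eq] at hz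
            simp [Multiset.mem_toFinset, hx, hz.2.2]
          · refine Polynomial.natDegree_sum_le_of_forall_le _ _ fun a _ => ?_
            split_ifs
            · simp
            refine (Polynomial.natDegree_C_mul_le _ _).trans ?_
            refine (Polynomial.natDegree_add_le _ _).trans ?_
            simp
      _ ≤ k * b ^ m := by
          rw [sum_const, card_univ, Fintype.card_prod, Fintype.card_fun, Fintype.card_fin,
            smul_eq_mul, mul_comm k]
          refine Nat.mul_le_mul_right _ ?_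
          rw [← mul_pow, ← sq]
          exact Nat.pow_le_pow_left Bd.card m
  obtain ⟨z, hz, hzb⟩ : ∃ z ∈ range (Z + 1), z ∉ bad := by
    refine exists_mem_notMem_of_card_lt_card (lt_of_le_of_lt hbad ?_)
    have hk : k * b ^ m ≤ b * b ^ m := Nat.mul_le_mul_right _ (le_trans (Nat.le_succ k) Bd.dim)
    rw [card_range, hZ, pow_succ, mul_comm (b ^ m)]
    omega
  set g : Fin k → K := B.det⁻¹ • (B.adjugate *ᵥ η z) with hg
  set gr : Fin k → ℝ := fun a => emb (g a)
  have hdot : ∀ d : Fin k → K, dotp emb d gr = emb (d ⬝ᵥ g) := fun d => by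
    simp [dotp, gr, dotProduct]
  have hBg : B *ᵥ g = η z := by
    rw [hg, Matrix.mulVec_smul, Matrix.mulVec_mulVec, Matrix.mul_adjugate, Matrix.smul_mulVec,
      Matrix.one_mulVec, inv_smul_smul₀ hdet]
  have hrow : ∀ a, B a ⬝ᵥ g = η z a := fun a => congrFun hBg a
  have hNr : (0 : ℝ) < (b : ℝ) ^ E := by positivity
  have hzk : ∀ a : Fin k, ((z : ℝ) ^ ((a : ℕ) + 1)) ≤ (b : ℝ) ^ (k * (m + 1)) := by
    intro a
    have hz1 : z ≤ Z := Nat.lt_succ_iff.1 (mem_range.1 hz)
    have h1 : z ^ ((a : ℕ) + 1) ≤ Z ^ ((a : ℕ) + 1) := Nat.pow_le_pow_left hz1 _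
    have h2 : Z ^ ((a : ℕ) + 1) ≤ b ^ (k * (m + 1)) := by
      rw [hZ, ← pow_mul, mul_comm (m + 1)]
      exact Nat.pow_le_pow_right (by omega) (Nat.mul_le_mul_right _ a.isLt)
    exact_mod_cast h1.trans h2
  have hsmall : 2 * (b : ℝ) ^ (k * (m + 1)) / (b : ℝ) ^ E ≤ 1 := by
    rw [div_le_one hNr]
    refine le_trans ?_ (pow_le_pow_right₀ hbr hE)
    rw [pow_succ, mul_comm]
    exact mul_le_mul_of_nonneg_left (by exact_mod_cast hb2) (by positivity)
  have hbk : (1 : ℝ) ≤ (b : ℝ) ^ (k * (m + 1)) := one_le_pow₀ hbr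
  have happrox : ∀ a, |emb (η z a) - dotp emb (B a) τ| ≤
      |ξ| + 2 * (b : ℝ) ^ (k * (m + 1)) / (b : ℝ) ^ E := by
    intro a
    by_cases ha : B a ∈ S
    · simp only [η, ha, if_true, map_zero, zero_sub, abs_neg]
      exact ((hξ _ ha.1 ha.2).trans (le_abs_self ξ)).trans (le_add_of_nonneg_right (by positivity))
    · simp only [η, ha, if_false, map_div₀, map_add, map_intCast, map_pow, map_natCast, fl, hN,
        Nat.cast_pow]
      set x := dotp emb (B a) τ
      refine le_trans ?_ (le_add_of_nonneg_left (abs_nonneg ξ))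
      rw [div_sub' hNr.ne', abs_div, abs_of_pos hNr, div_le_div_iff_of_pos_right hNr]
      have a1 := Int.floor_le ((b : ℝ) ^ E * x)
      have a2 := Int.lt_floor_add_one ((b : ℝ) ^ E * x)
      have a3 := hzk a
      have a4 : (0 : ℝ) ≤ (z : ℝ) ^ ((a : ℕ) + 1) := by positivity
      rw [abs_le]
      constructor <;> linarith
  refine ⟨gr, fun l hl => ?_, fun a => ?_, fun d hd hdL => ?_⟩
  · rw [hdot]
    have : l ⬝ᵥ g = 0 := by
      rw [hspan] at hl
      induction hl using Submodule.span_induction with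
      | mem x hx =>
        obtain ⟨hxS, a, rfl⟩ := hx
        rw [hrow]; simp [η, hxS]
      | zero => simp
      | add x y _ _ hx hy => simp [hx, hy]
      | smul s x _ hx => simp [hx]
    rw [this, map_zero]
  · have h1 : ∀ f : Fin k → ℝ, emb B.det * f a =
        ∑ j, emb (B.adjugate a j) * dotp emb (B j) f := by
      intro f
      have := det_dotp (emb := emb) B (Pi.single a 1) f
      simpa [dotp, Pi.single_apply, Matrix.single_one_vecMul] using this
    have h2 : emb B.det * (gr a - τ a) =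
        ∑ j, emb (B.adjugate a j) * (emb (η z j) - dotp emb (B j) τ) := by
      rw [mul_sub, h1 gr, h1 τ, ← sum_sub_distrib]
      exact sum_congr rfl fun j _ => by rw [hdot, hrow]; ring
    set δ := |ξ| + 2 * (b : ℝ) ^ (k * (m + 1)) / (b : ℝ) ^ E
    have hδ : 0 ≤ δ := by positivity
    have h3 : |emb B.det * (gr a - τ a)| ≤ (b : ℝ) ^ (dexp k (m + 1) + 1) * δ := by
      rw [h2]
      refine (abs_sum_le_sum_abs _ _).trans (le_trans (sum_le_sum fun j _ =>
        (abs_mul _ _).le.trans (mul_le_mul ((Sz.adjugate hb2 B hBsz a j).upper emb) (happrox j)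
          (abs_nonneg _) (by positivity))) ?_)
      rw [sum_const, card_univ, Fintype.card_fin, nsmul_eq_mul, pow_succ, ← mul_assoc,
        mul_comm ((b : ℝ) ^ dexp k (m + 1)) b]
      refine mul_le_mul_of_nonneg_right (mul_le_mul_of_nonneg_right ?_ (by positivity)) hδ
      exact_mod_cast le_trans (Nat.le_succ k) Bd.dim
    have h4 := (Sz.det hb2 B hBsz).lower emb hb1 hdet
    rw [abs_mul] at h3
    calc |gr a - τ a| ≤ |gr a - τ a| *
          (|emb B.det| * (b : ℝ) ^ (2 * dexp k (m + 1) * Module.finrank ℚ K)) :=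
          le_mul_of_one_le_right (abs_nonneg _) h4
      _ = |emb B.det| * |gr a - τ a| * (b : ℝ) ^ (2 * dexp k (m + 1) * Module.finrank ℚ K) := by
          ring
      _ ≤ (b : ℝ) ^ (dexp k (m + 1) + 1) * δ *
          (b : ℝ) ^ (2 * dexp k (m + 1) * Module.finrank ℚ K) :=
          mul_le_mul_of_nonneg_right h3 (by positivity)
      _ = _ := by rw [add_assoc _ (dexp k (m + 1)) 1, pow_add (b : ℝ) (2 * _ * _)]; ring
  · obtain ⟨v, w, hvw, rfl⟩ := hd
    set d := trans r c v - trans r c w with hddef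
    set co := d ᵥ* B.adjugate
    have hex : ∃ a, B a ∉ S ∧ co a ≠ 0 := by
      by_contra hcon
      push Not at hcon
      refine hdL ?_
      rw [show d = B.det⁻¹ • (B.det • d) by rw [inv_smul_smul₀ hdet], det_smul_eq]
      refine L.smul_mem _ (Submodule.sum_mem _ fun a _ => ?_)
      by_cases ha : B a ∈ S
      · exact L.smul_mem _ ha.2
      · change co a • B a ∈ L
        rw [hcon a ha]; simp
    obtain ⟨a0, ha0, hco⟩ := hex
    have hP0 : P (v, w) ≠ 0 := by
      intro h
      have h' := congrArg (fun p => Polynomial.coeff p ((a0 : ℕ) + 1)) h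
      simp only [P, Polynomial.finsetSum_coeff, Polynomial.coeff_zero] at h'
      rw [sum_eq_single a0 (fun a _ ha => ?_) (by simp)] at h'
      · rw [if_neg ha0] at h'
        simp only [Polynomial.coeff_C_mul, Polynomial.coeff_add, Polynomial.coeff_C_succ,
          Polynomial.coeff_X_pow, if_true, zero_add, mul_one] at h'
        exact hco h'
      · split_ifs
        · simp
        · rw [Polynomial.coeff_C_mul, Polynomial.coeff_add, Polynomial.coeff_C_succ,
            Polynomial.coeff_X_pow, if_neg (fun h => ha (Fin.ext (by omega))), add_zero, mul_zero]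
    have hev : (P (v, w)).eval (z : K) ≠ 0 := fun h =>
      hzb (mem_filter.2 ⟨hz, (v, w), hP0, h⟩)
    have hevs : ∑ a, co a * η z a = (P (v, w)).eval (z : K) / (b : K) ^ E := by
      simp only [P, Polynomial.eval_finsetSum, sum_div]
      refine sum_congr rfl fun a _ => ?_
      simp only [η]
      split_ifs
      · simp
      · simp [co, d, mul_div_assoc]
    have hx0 : ∑ a, co a * η z a ≠ 0 := by
      rw [hevs]; exact div_ne_zero hev (pow_ne_zero _ hb0)
    have hηsz : ∀ a, Sz b (E + 1) (η z a) := by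
      intro a
      by_cases ha : B a ∈ S
      · simp only [η, ha, if_true]; exact Sz.zero _
      have hj : ∃ j, B a = Pi.single j 1 := (hrows a).resolve_left ha
      obtain ⟨j, hj⟩ := hj
      simp only [η, ha, if_false]
      refine ⟨?_, fun φ => ?_⟩
      · rw [pow_succ, mul_comm ((b : K) ^ E), mul_assoc, mul_div_cancel₀ _ (pow_ne_zero _ hb0),
          show (b : K) * ((fl a : K) + (z : K) ^ ((a : ℕ) + 1)) =
            algebraMap ℤ K ((b : ℤ) * (fl a + (z : ℤ) ^ ((a : ℕ) + 1))) by simp]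
        exact isIntegral_algebraMap
      · rw [map_div₀, map_add, map_intCast, map_pow, map_pow, map_natCast, map_natCast, norm_div,
          norm_pow, Complex.norm_natCast, div_le_iff₀ hNr]
        refine (norm_add_le _ _).trans ?_
        rw [Complex.norm_intCast, norm_pow, Complex.norm_natCast]
        simp only [fl, hN, Nat.cast_pow]
        have hx : |dotp emb (B a) τ| + 2 ≤ b := by
          refine le_trans (add_le_add ?_ le_rfl) Bd.tau
          rw [hj]
          simp only [dotp, Pi.single_apply, apply_ite emb, map_one, map_zero, ite_mul, one_mul,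
            zero_mul, sum_ite_eq', mem_univ, if_true]
          exact single_le_sum (fun i _ => abs_nonneg (τ i)) (mem_univ j)
        set x := dotp emb (B a) τ
        have a1 := Int.floor_le ((b : ℝ) ^ E * x)
        have a2 := Int.lt_floor_add_one ((b : ℝ) ^ E * x)
        have a3 := hzk a
        have a5 : (b : ℝ) ^ (k * (m + 1)) * 2 ≤ (b : ℝ) ^ E := by
          rw [div_le_one hNr] at hsmall; linarith
        have a6 : |(⌊(b : ℝ) ^ E * x⌋ : ℝ)| ≤ (b : ℝ) ^ E * |x| + 1 := by
          rw [abs_le]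
          have := mul_le_mul_of_nonneg_left (le_abs_self x) hNr.le
          have := mul_le_mul_of_nonneg_left (neg_abs_le x) hNr.le
          constructor <;> linarith
        calc _ ≤ (b : ℝ) ^ E * |x| + 1 + (b : ℝ) ^ (k * (m + 1)) := add_le_add a6 a3
          _ ≤ (b : ℝ) ^ E * (|x| + 2) := by
              rw [mul_add ((b : ℝ) ^ E)]; linarith [one_le_pow₀ (M₀ := ℝ) hbr (n := E)]
          _ ≤ (b : ℝ) ^ E * b := mul_le_mul_of_nonneg_left hx hNr.le
          _ ≤ (b : ℝ) ^ (E + 1) * (b : ℝ) ^ E := by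
              rw [pow_succ]
              exact le_mul_of_one_le_right (by positivity) (one_le_pow₀ hbr)
    have hxsz : Sz b (3 * m + 4 + dexp k (m + 1) + 1 + (E + 1) + 1) (∑ a, co a * η z a) :=
      Sz.sum _ _ (by rw [card_univ, Fintype.card_fin, pow_one]; exact le_trans (Nat.le_succ k) Bd.dim)
        fun a _ => (sz_coef Bd hBsz ⟨v, w, hvw, rfl⟩ a).mul (hηsz a)
    have h1 := hxsz.lower emb hb1 hx0
    have h2 : emb (∑ a, co a * η z a) = emb B.det * dotp emb d gr := by
      rw [det_dotp, map_sum]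
      exact sum_congr rfl fun a _ => by rw [hdot, hrow, map_mul]
    rw [h2, abs_mul] at h1
    refine h1.trans ?_
    rw [pow_add _ (2 * _ * _) (dexp k (m + 1))]
    have h3 := (Sz.det hb2 B hBsz).upper emb
    calc |emb B.det| * |dotp emb d gr| * _ = |dotp emb d gr| *
          (_ * |emb B.det|) := by ring
      _ ≤ _ := mul_le_mul_of_nonneg_left (mul_le_mul_of_nonneg_left h3 (by positivity))
            (abs_nonneg _)

end

end Vale.Agent.P114
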