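import Vale.Agent.P114.Approx
import Vale.Agent.P114.Subspace
import Mathlib.LinearAlgebra.Quotient.Basic

/-! # Entropy of the random walk modulo a subspace -/

namespace Vale.Agent.P114

noncomputable section

open scoped Classical
open Finset

variable {ι : Type} [Fintype ι] {K : Type} [Field K] [NumberField K] {k : ℕ} {p : ι → ℝ}
  {emb : K →+* ℝ} {r : ι → K} {c : ι → Fin k → K} {a q T : ℝ}

/-- Slope and translation class of a word modulo `L`. -/
def cls (r : ι → K) (c : ι → Fin k → K) (L : Submodule K (Fin k → K)) {m : ℕ}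
    (w : Fin m → ι) : K × ((Fin k → K) ⧸ L) := (slope r w, Submodule.Quotient.mk (trans r c w))

/-- Entropy of the random walk of level `m` modulo `L`. -/
def hent (p : ι → ℝ) (r : ι → K) (c : ι → Fin k → K) (L : Submodule K (Fin k → K)) (m : ℕ) : ℝ :=
  ent (wt (n := m) p) (cls r c L)

/-- Entropy rate of the random walk modulo `L`. -/
def hrate (p : ι → ℝ) (r : ι → K) (c : ι → Fin k → K) (L : Submodule K (Fin k → K)) : ℝ :=
  ⨅ m : ℕ, hent p r c L (m + 1) / ((m + 1 : ℕ) : ℝ)

omit [NumberField K] in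
theorem hent_add (hp : ∀ i, 0 ≤ p i) (hp1 : ∑ i, p i = 1) (L : Submodule K (Fin k → K))
    (N m : ℕ) : hent p r c L (N + m) ≤ hent p r c L m + hent p r c L N := by
  set PQ := prodW (wt (n := m) p) (wt (n := N) p)
  have hPQ : 0 ≤ PQ := prodW_nonneg (wt_nonneg hp) (wt_nonneg hp)
  have e1 : hent p r c L (N + m) = ent PQ (fun v => cls r c L (joinEquiv ι N m v)) :=
    (cent_join p N m (cls r c L) (fun _ => ())).symm
  have e2 : ent PQ (fun v => (cls r c L v.2, cls r c L v.1)) =
      hent p r c L m + hent p r c L N := by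
    rw [ent_pair]
    have a1 : ent PQ (fun v : (Fin m → ι) × (Fin N → ι) => cls r c L v.1) = hent p r c L m :=
      cent_prod_fst (sum_wt hp1 N) _ (cls r c L) (fun _ => ())
    have a2 : cent PQ (fun v : (Fin m → ι) × (Fin N → ι) => cls r c L v.2) (fun v => cls r c L v.1)
        = hent p r c L N :=
      cent_prod_snd_fst (wt_nonneg hp) (sum_wt hp1 m) (wt_nonneg hp) (sum_wt hp1 N)
        (cls r c L) (cls r c L)
    rw [a1, a2]
  rw [e1, ← e2]
  refine cent_mono_left hPQ fun v w h _ => ?_
  obtain ⟨v1, v2⟩ := v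
  obtain ⟨w1, w2⟩ := w
  simp only [cls, Prod.mk.injEq] at h
  obtain ⟨⟨h1, h2⟩, h3, h4⟩ := h
  simp only [cls, slope_join, trans_join, Prod.mk.injEq, Submodule.Quotient.mk_add,
    Submodule.Quotient.mk_smul]
  exact ⟨by rw [h1, h3], by rw [h2, h3, h4]⟩

omit [NumberField K] in
theorem hrate_le (hp : ∀ i, 0 ≤ p i) (L : Submodule K (Fin k → K)) (m : ℕ) :
    hrate p r c L ≤ hent p r c L (m + 1) / ((m + 1 : ℕ) : ℝ) :=
  ciInf_le ⟨0, by rintro _ ⟨n, rfl⟩; exact div_nonneg (ent_nonneg (wt_nonneg hp) _) (by positivity)⟩ m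

omit [NumberField K] in
theorem mul_hrate_le (hp : ∀ i, 0 ≤ p i) (L : Submodule K (Fin k → K)) (m : ℕ) :
    (m : ℝ) * hrate p r c L ≤ hent p r c L m := by
  cases m with
  | zero => simpa [hent] using ent_nonneg (wt_nonneg hp) _
  | succ m =>
    have h := hrate_le (r := r) (c := c) hp L m
    rw [le_div_iff₀ (by positivity)] at h
    linarith

omit [NumberField K] in
theorem hent_mul (hp : ∀ i, 0 ≤ p i) (hp1 : ∑ i, p i = 1) (L : Submodule K (Fin k → K))
    (m : ℕ) : ∀ j : ℕ, hent p r c L (m * (j + 1)) ≤ ((j : ℝ) + 1) * hent p r c L m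
  | 0 => by simp
  | j + 1 => by
    have h := hent_mul hp hp1 L m j
    have h2 := hent_add (r := r) (c := c) hp hp1 L m (m * (j + 1))
    rw [show m * (j + 1 + 1) = m + m * (j + 1) by ring]
    push_cast
    linarith

omit [NumberField K] in
theorem hent_eq (hp : ∀ i, 0 ≤ p i) (L : Submodule K (Fin k → K)) (m : ℕ) :
    hent p r c L m = ent (wt (n := m) p) (fun w => slope r w) +
      cent (wt (n := m) p) (fun w => Submodule.Quotient.mk (p := L) (trans r c w))
        (fun w => slope r w) := by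
  rw [← ent_pair]
  exact cent_congr_left (wt_nonneg hp) fun v w _ => by simp [cls, and_comm]

omit [NumberField K] in
theorem ent_slope_emb (hp : ∀ i, 0 ≤ p i) (m : ℕ) :
    ent (wt (n := m) p) (fun w => slope (fun i => emb (r i)) w) =
      ent (wt (n := m) p) (fun w => slope r w) :=
  cent_congr_left (wt_nonneg hp) fun v w _ => by simp [slope_emb, emb.injective.eq_iff]

omit [NumberField K] in
theorem cent_slope_emb {α : Type*} (X : ∀ {m : ℕ}, (Fin m → ι) → α) (m : ℕ) :
    cent (wt (n := m) p) (fun w => X w) (fun w => slope (fun i => emb (r i)) w) =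
      cent (wt (n := m) p) (fun w => X w) (fun w => slope r w) :=
  cent_congr_right _ fun v w => by simp [slope_emb, emb.injective.eq_iff]

/-- If `g` vanishes on `L`, the dimension at `g` is at most the entropy rate modulo `L`. -/
theorem dim_le_hrate {g : Fin k → ℝ}
    (G : Good p (fun i => emb (r i)) (fun i => dotp emb (c i) g) a q T) {D : ℝ}
    (hlow : Low p (fun i => emb (r i)) (fun i => dotp emb (c i) g) q D)
    (L : Submodule K (Fin k → K)) (hg : ∀ l ∈ L, dotp emb l g = 0) :
    D * lyap p (fun i => emb (r i)) ≤ hrate p r c L := by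
  set r' := fun i => emb (r i)
  set t' := fun i => dotp emb (c i) g
  set χ := lyap p r'
  have hp : ∀ i, 0 ≤ p i := fun i => (G.pos i).le
  have hχ : 0 ≤ χ := sum_nonneg fun i _ => mul_nonneg (hp i) (neg_nonneg.2
    (Real.log_nonpos (abs_nonneg _) ((G.le_q i).trans G.q_lt.le)))
  refine le_ciInf fun m => ?_
  rw [le_div_iff₀ (by positivity)]
  refine le_of_forall_pos_le_add fun ε hε => ?_
  set M : ℕ := m + 1
  set η := ε / (4 * M) with hη
  have hηp : 0 < η := by positivity
  obtain ⟨C1, hC1⟩ := hlow (η / (χ + 1)) (by positivity)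
  obtain ⟨C2, hC2⟩ := dev_le hp G.sum_one (fun i => abs_pos.1 (lt_of_lt_of_le G.a_pos (G.a_le i))) hηp
  set C3 := Good.c0 q T + Real.log (2 * (1 + radius q T) + 3)
  obtain ⟨j, hj⟩ := exists_nat_ge ((C1 + C2 + C3) / (ε / 4))
  rw [div_le_iff₀ (by positivity)] at hj
  set n := M * (j + 1)
  set β := Real.exp (n * χ)
  have h1 := hC1 β (Real.one_le_exp (by positivity))
  have h2 := js_le_var G n (fun w => Submodule.Quotient.mk (p := L) (trans r c w))
    (fun v w h hs => by
      rw [trans_dotp, trans_dotp, ← dotp_sub, hg _ ((Submodule.Quotient.eq L).1 h), abs_zero]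
      exact abs_nonneg _) β (Real.exp_pos _)
  rw [Real.log_exp] at h1
  simp only [β, Real.log_exp] at h2
  have h3 := hC2 n
  have h4 : cent (wt (n := n) p) (fun w => Submodule.Quotient.mk (p := L) (trans r c w))
      (fun w => slope r' w) + ent (wt (n := n) p) (fun w => slope r' w) = hent p r c L n := by
    rw [hent_eq hp, ent_slope_emb hp, cent_slope_emb (fun w => Submodule.Quotient.mk (p := L) (trans r c w))]
    ring
  have h5 := hent_mul (r := r) (c := c) hp G.sum_one L M j
  have h6 : η / (χ + 1) * (n * χ) ≤ η * n := by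
    rw [div_mul_eq_mul_div, div_le_iff₀ (by positivity)]
    have : (0 : ℝ) ≤ η * n := by positivity
    linarith
  have hn : (n : ℝ) = M * ((j : ℝ) + 1) := by simp [n]
  have h7 : η * n = ε / 4 * ((j : ℝ) + 1) := by
    rw [hn, hη]
    have : (M : ℝ) ≠ 0 := by positivity
    field_simp
  refine le_of_mul_le_mul_left ?_ (show (0 : ℝ) < (j : ℝ) + 1 by positivity)
  change ((j : ℝ) + 1) * (D * χ * M) ≤ ((j : ℝ) + 1) * (hent p r c L M + ε)
  have h8 : D * ((n : ℝ) * χ) = ((j : ℝ) + 1) * (D * χ * M) := by rw [hn]; ring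
  have h9 : (0 : ℝ) ≤ ε * ((j : ℝ) + 1) := by positivity
  linarith

end

end Vale.Agent.P114
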