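import Vale.Agent.P114.Ent
import Mathlib.Analysis.SpecialFunctions.Log.NegMulLog
import Mathlib.Analysis.Real.Sqrt
import Mathlib.Tactic.Linarith
import Mathlib.Tactic.Positivity
import Mathlib.Tactic.FieldSimp
import Mathlib.Tactic.Ring

/-! # Two-point gain for low dimensional integer variables -/

namespace Vale.Agent.P114

noncomputable section

open scoped Classical
open Finset

variable {Ω J : Type*} [Fintype Ω] [Fintype J] {Q : Ω → ℝ} {z : Ω → ℤ}

/-- Uniform weights. -/
def unif (J : Type*) [Fintype J] : J → ℝ := fun _ => ((Fintype.card J : ℕ) : ℝ)⁻¹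

theorem unif_nonneg : (0 : J → ℝ) ≤ unif J := fun _ => by simp [unif]

theorem sum_unif [Nonempty J] : ∑ j, unif J j = 1 := by
  simp [unif]

theorem ent_inj_unif [Nonempty J] {α : Type*} (f : J → α) (hf : Function.Injective f) :
    ent (unif J) f = Real.log (Fintype.card J) := by
  have h1 : ∀ j, mass (unif J) (fun v => (f v, ())) (f j, ()) = unif J j := fun j => by
    simp [mass, Prod.mk.injEq, hf.eq_iff]
  simp only [ent, cent, h1, mass_unit, sum_unif]
  simp [unif]

theorem mass_translate (w : J → ℝ) (s : J → ℤ) (a : ℤ) :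
    mass (prodW Q w) (fun v => z v.1 + s v.2) a = ∑ j, w j * mass Q z (a - s j) := by
  simp only [mass, prodW, Fintype.sum_prod_type, mul_sum]
  rw [sum_comm]
  refine sum_congr rfl fun j _ => sum_congr rfl fun v _ => ?_
  by_cases h : z v + s j = a
  · rw [if_pos h, if_pos (by omega)]; ring
  · rw [if_neg h, if_neg (by omega)]; ring

theorem ent_translate_sub (hQ1 : ∑ v, Q v = 1) (w : J → ℝ) (hw1 : ∑ j, w j = 1) (s : J → ℤ) :
    ent (prodW Q w) (fun v => z v.1 + s v.2) - ent Q z =
      ∑ j, w j * ∑ a ∈ univ.image z, mass Q z a * (Real.log (mass Q z a) -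
        Real.log (∑ i, w i * mass Q z (a + s j - s i))) := by
  have e1 : ∀ v : Ω × J, mass (prodW Q w) (fun u => (z u.1 + s u.2, ())) (z v.1 + s v.2, ())
      = ∑ i, w i * mass Q z (z v.1 + s v.2 - s i) := fun v => by
    rw [← mass_translate]; exact mass_congr fun u => by simp
  have e2 : ∀ v : Ω, mass Q (fun u => (z u, ())) (z v, ()) = mass Q z (z v) := fun v =>
    mass_congr fun u => by simp
  simp only [ent, cent, e1, e2, mass_unit, sum_prodW, hQ1, hw1, one_mul, Real.log_one, zero_sub,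
    ← sum_mul_comp Q z]
  simp only [Fintype.sum_prod_type, prodW]
  have e3 : ∑ v, Q v * -Real.log (mass Q z (z v))
      = ∑ v, ∑ j, Q v * w j * -Real.log (mass Q z (z v)) := by
    refine sum_congr rfl fun v _ => ?_
    rw [← sum_mul, ← mul_sum, hw1, mul_one]
  rw [e3, ← sum_sub_distrib]
  simp only [← sum_sub_distrib, mul_sum]
  rw [sum_comm]
  exact sum_congr rfl fun j _ => sum_congr rfl fun v _ => by ring

/-- The total variation of `z` against its translate by `d`. -/
def tv (Q : Ω → ℝ) (z : Ω → ℤ) (d : ℤ) : ℝ :=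
  ∑ a ∈ univ.image z ∪ univ.image (fun v => z v + d), |mass Q z a - mass Q z (a - d)|

theorem mass_eq_zero {a : ℤ} (h : a ∉ univ.image z) : mass Q z a = 0 :=
  sum_eq_zero fun v _ => if_neg fun e => h (mem_image.2 ⟨v, mem_univ _, e⟩)

theorem sum_le_tv (S : Finset ℤ) (d : ℤ) :
    ∑ a ∈ S, |mass Q z a - mass Q z (a - d)| ≤ tv Q z d := by
  set T := univ.image z ∪ univ.image (fun v => z v + d) with hT
  have e : ∑ a ∈ S, |mass Q z a - mass Q z (a - d)|
      = ∑ a ∈ S ∩ T, |mass Q z a - mass Q z (a - d)| := by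
    refine (sum_subset inter_subset_left fun a ha hn => ?_).symm
    have hn' : a ∉ T := fun h => hn (mem_inter.2 ⟨ha, h⟩)
    rw [hT, mem_union, not_or] at hn'
    have h2 : a - d ∉ univ.image z := by
      intro h
      obtain ⟨v, -, hv⟩ := mem_image.1 h
      exact hn'.2 (mem_image.2 ⟨v, mem_univ _, by omega⟩)
    simp [mass_eq_zero hn'.1, mass_eq_zero h2]
  rw [e]
  exact sum_le_sum_of_subset_of_nonneg inter_subset_right fun a _ _ => abs_nonneg _

theorem sum_shift_le (d : ℤ) : ∀ (k : ℕ) (S : Finset ℤ),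
    ∑ a ∈ S, |mass Q z a - mass Q z (a + k * d)| ≤ k * tv Q z d
  | 0, S => by simp
  | k + 1, S => by
    have h1 := sum_shift_le d k S
    have h2 : ∑ a ∈ S, |mass Q z (a + (k + 1 : ℕ) * d) - mass Q z (a + k * d)| ≤ tv Q z d := by
      have := sum_le_tv (Q := Q) (z := z) (S.image fun a => a + (k + 1 : ℕ) * d) d
      rw [sum_image (fun a _ b _ h => by simpa using h)] at this
      refine le_trans (le_of_eq (sum_congr rfl fun a _ => ?_)) this
      congr 3
      push_cast; ring
    calc ∑ a ∈ S, |mass Q z a - mass Q z (a + (k + 1 : ℕ) * d)|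
        ≤ ∑ a ∈ S, (|mass Q z a - mass Q z (a + k * d)| +
            |mass Q z (a + (k + 1 : ℕ) * d) - mass Q z (a + k * d)|) := sum_le_sum fun a _ => by
          rw [abs_sub_comm (mass Q z (a + (k + 1 : ℕ) * d))]
          exact abs_sub_le _ _ _
      _ ≤ _ := by rw [sum_add_distrib]; push_cast; push_cast at h1 h2; linarith

theorem sum_shift_le' (d k : ℤ) (S : Finset ℤ) :
    ∑ a ∈ S, |mass Q z a - mass Q z (a + k * d)| ≤ |k| * tv Q z d := by
  rcases Int.eq_nat_or_neg k with ⟨n, rfl | rfl⟩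
  · simpa using sum_shift_le (Q := Q) (z := z) d n S
  · have := sum_shift_le (Q := Q) (z := z) d n (S.image fun a => a + (-(n : ℤ)) * d)
    rw [sum_image (fun a _ b _ h => by simpa using h)] at this
    refine le_trans (le_of_eq (sum_congr rfl fun a _ => ?_)) (le_of_le_of_eq this (by simp))
    rw [abs_sub_comm]
    congr 3
    ring

theorem mul_log_le {p m : ℝ} {L : ℝ} (hp : 0 ≤ p) (hL : 1 ≤ L) (_hm : 0 ≤ m) (hpm : p ≤ L * m) :
    p * (Real.log p - Real.log m) ≤ (1 + Real.log L) * |p - m| := by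
  have hlL := Real.log_nonneg hL
  rcases eq_or_lt_of_le hp with rfl | hp
  · simpa using mul_nonneg (by linarith : 0 ≤ 1 + Real.log L) (abs_nonneg _)
  have hm' : 0 < m := by nlinarith
  rw [← Real.log_div hp.ne' hm'.ne']
  rcases le_or_gt p m with h | h
  · have : Real.log (p / m) ≤ 0 := Real.log_nonpos (by positivity) ((div_le_one hm').2 h)
    nlinarith [mul_nonneg (by linarith : 0 ≤ 1 + Real.log L) (abs_nonneg (p - m))]
  · have h1 : Real.log (p / m) ≤ Real.log L :=
      Real.log_le_log (by positivity) ((div_le_iff₀ hm').2 hpm)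
    have h2 : m * Real.log (p / m) ≤ p - m := by
      have := mul_le_mul_of_nonneg_left (Real.log_le_sub_one_of_pos (div_pos hp hm')) hm'.le
      rwa [mul_sub, mul_div_cancel₀ _ hm'.ne', mul_one] at this
    rw [abs_of_pos (sub_pos.2 h)]
    nlinarith

theorem smooth_upper (hQ : 0 ≤ Q) (hQ1 : ∑ v, Q v = 1) (d : ℤ) {L : ℕ} (hL : 0 < L) :
    ent (prodW Q (unif (Fin L))) (fun v => z v.1 + (v.2 : ℕ) * d) - ent Q z
      ≤ (1 + Real.log L) * L * tv Q z d := by
  have : Nonempty (Fin L) := ⟨⟨0, hL⟩⟩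
  have hL1 : (1 : ℝ) ≤ L := by exact_mod_cast hL
  have htv : 0 ≤ tv Q z d := sum_nonneg fun a _ => abs_nonneg _
  rw [ent_translate_sub hQ1 _ sum_unif (fun j : Fin L => ((j : ℕ) : ℤ) * d)]
  set B := (1 + Real.log L) * L * tv Q z d
  calc ∑ j, unif (Fin L) j * _ ≤ ∑ j : Fin L, unif (Fin L) j * B :=
        sum_le_sum fun j _ => mul_le_mul_of_nonneg_left ?_ (unif_nonneg j)
    _ = B := by rw [← sum_mul, sum_unif, one_mul]
  have hu : ∀ i : Fin L, unif (Fin L) i = (L : ℝ)⁻¹ := fun i => by simp [unif]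
  calc _ ≤ ∑ a ∈ univ.image z, (1 + Real.log L) *
        ∑ i : Fin L, (L : ℝ)⁻¹ * |mass Q z a - mass Q z (a + ((j : ℕ) - (i : ℕ) : ℤ) * d)| := by
        refine sum_le_sum fun a _ => ?_
        simp only [hu]
        have e : ∀ i : Fin L, a + ((j : ℕ) : ℤ) * d - ((i : ℕ) : ℤ) * d
            = a + (((j : ℕ) : ℤ) - (i : ℕ)) * d := fun i => by ring
        simp only [e]
        set m := ∑ i : Fin L, (L : ℝ)⁻¹ * mass Q z (a + ((j : ℕ) - (i : ℕ) : ℤ) * d)
        refine (mul_log_le (mass_nonneg hQ _ _) hL1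
          (sum_nonneg fun i _ => mul_nonneg (by positivity) (mass_nonneg hQ _ _)) ?_).trans ?_
        · have : (L : ℝ)⁻¹ * mass Q z a ≤ m := by
            refine le_trans (le_of_eq (by simp)) (single_le_sum (f := fun i : Fin L =>
              (L : ℝ)⁻¹ * mass Q z (a + ((j : ℕ) - (i : ℕ) : ℤ) * d))
              (fun i _ => mul_nonneg (by positivity) (mass_nonneg hQ _ _)) (mem_univ j))
          rw [inv_mul_le_iff₀ (by positivity)] at this
          linarith
        · refine mul_le_mul_of_nonneg_left ?_ (by linarith [Real.log_nonneg hL1])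
          have e2 : mass Q z a - m = ∑ i : Fin L, (L : ℝ)⁻¹ *
              (mass Q z a - mass Q z (a + ((j : ℕ) - (i : ℕ) : ℤ) * d)) := by
            simp only [m, mul_sub, sum_sub_distrib, sum_const, card_univ, Fintype.card_fin,
              nsmul_eq_mul]
            rw [← mul_assoc, mul_inv_cancel₀ (by positivity), one_mul]
          rw [e2]
          refine (abs_sum_le_sum_abs _ _).trans (le_of_eq (sum_congr rfl fun i _ => ?_))
          rw [abs_mul, abs_of_nonneg (by positivity : (0 : ℝ) ≤ (L : ℝ)⁻¹)]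
    _ = (1 + Real.log L) * ∑ i : Fin L, (L : ℝ)⁻¹ *
        ∑ a ∈ univ.image z, |mass Q z a - mass Q z (a + ((j : ℕ) - (i : ℕ) : ℤ) * d)| := by
        rw [← mul_sum, sum_comm]; simp only [mul_sum]
    _ ≤ (1 + Real.log L) * ∑ _i : Fin L, (L : ℝ)⁻¹ * (L * tv Q z d) := by
        refine mul_le_mul_of_nonneg_left (sum_le_sum fun i _ => mul_le_mul_of_nonneg_left ?_
          (by positivity)) (by linarith [Real.log_nonneg hL1])
        refine (sum_shift_le' d _ _).trans (mul_le_mul_of_nonneg_right ?_ htv)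
        have hj := j.isLt
        have hi := i.isLt
        have : |((j : ℕ) : ℤ) - (i : ℕ)| ≤ (L : ℤ) := by rw [abs_le]; omega
        exact_mod_cast this
    _ = B := by
        simp only [sum_const, card_univ, Fintype.card_fin, nsmul_eq_mul, B]
        field_simp

theorem smooth_lower (hQ : 0 ≤ Q) (hQ1 : ∑ v, Q v = 1) {d L : ℕ} (hd : 0 < d) (hL : 0 < L) :
    Real.log L - Real.log 2 - cent Q (fun v => z v / (d : ℤ)) (fun v => z v / ((d * L : ℕ) : ℤ))
      ≤ ent (prodW Q (unif (Fin L))) (fun v => z v.1 + (v.2 : ℕ) * (d : ℤ)) - ent Q z := by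
  have : Nonempty (Fin L) := ⟨⟨0, hL⟩⟩
  set P := prodW Q (unif (Fin L))
  have hP : 0 ≤ P := prodW_nonneg hQ unif_nonneg
  set D : ℤ := ((d * L : ℕ) : ℤ) with hD
  have hDpos : 0 < D := by positivity
  have hd0 : (0 : ℤ) < d := by exact_mod_cast hd
  let W : Ω × Fin L → ℤ := fun v => z v.1 + (v.2 : ℕ) * (d : ℤ)
  let Z : Ω → ℤ × ℤ := fun v => (z v / D, z v % d)
  have h1 : ent P (fun v => (Z v.1, W v)) = ent P W + cent P (fun v => Z v.1) W := ent_pair _ _ _
  have h2 : ent P (fun v => (W v, Z v.1)) = ent P (fun v => Z v.1) + cent P W (fun v => Z v.1) :=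
    ent_pair _ _ _
  have h3 : ent P (fun v => (Z v.1, W v)) = ent P (fun v => (W v, Z v.1)) :=
    cent_congr_left hP fun v w _ => by simp [and_comm]
  have h4 : cent P (fun v => Z v.1) W ≤ Real.log 2 := by
    refine (cent_le_log hP _ W (fun _ => 2)
      (fun y => {(y / D, y % d), (y / D - 1, y % d)}) (fun v => ?_) (fun v => ?_)).trans (le_of_eq ?_)
    · have hm : z v.1 % (d : ℤ) = W v % d := by simp [W, Int.add_mul_emod_self_right]
      have hv : ((v.2 : ℕ) : ℤ) * d < D := by
        rw [hD, Nat.mul_comm, Nat.cast_mul]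
        exact mul_lt_mul_of_pos_right (by exact_mod_cast v.2.isLt) hd0
      have hb : z v.1 / D = W v / D ∨ z v.1 / D = W v / D - 1 := by
        have a1 : z v.1 / D ≤ W v / D := Int.ediv_le_ediv hDpos (by
          simp only [W, le_add_iff_nonneg_right]; positivity)
        have a2 : W v / D ≤ (z v.1 + D) / D := Int.ediv_le_ediv hDpos (by
          simp only [W]; linarith)
        rw [show z v.1 + D = z v.1 + 1 * D by ring, Int.add_mul_ediv_right _ _ hDpos.ne'] at a2
        omega
      simp only [Z, mem_insert, mem_singleton, Prod.mk.injEq, hm, and_true]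
      exact hb
    · exact_mod_cast card_le_two
    · rw [← sum_mul, sum_prodW, hQ1, sum_unif, one_mul, one_mul]
  have h5 : Real.log L ≤ cent P W (fun v => Z v.1) := by
    refine le_trans (le_of_eq ?_) (cent_anti_right hP (Y' := Prod.fst) fun v w h => by simp [h])
    rw [cent_prod_slice hQ unif_nonneg]
    have : ∀ v, ent (unif (Fin L)) (fun j => W (v, j)) = Real.log L := fun v => by
      rw [ent_inj_unif]
      · simp
      · intro i j h
        simp only [W, add_right_inj] at h
        exact Fin.ext (by exact_mod_cast mul_right_cancel₀ hd0.ne' h)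
    simp [this, ← sum_mul, hQ1]
  have h6 : ent P (fun v => Z v.1) = ent Q Z := cent_prod_fst sum_unif Q Z (fun _ => ())
  have h7 : ent Q z ≤ ent Q Z + cent Q (fun v => z v / (d : ℤ)) (fun v => z v / D) := by
    refine (ent_le_add hQ z Z).trans (add_le_add le_rfl ?_)
    rw [cent_congr_left hQ (X' := fun v => z v / (d : ℤ)) fun v w h => ?_]
    · exact cent_anti_right hQ fun v w h => (Prod.mk.inj h).1
    · have h' := (Prod.mk.inj h).2
      refine ⟨fun e => by rw [e], fun e => ?_⟩
      rw [← Int.mul_ediv_add_emod (z v) d, ← Int.mul_ediv_add_emod (z w) d]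
      rw [e, h']
  change _ ≤ ent P W - ent Q z
  linarith

theorem hellinger_point {a m : ℝ} (ha : 0 ≤ a) (hm : 0 < m) (h2 : a ≤ 2 * m) :
    a - m + (a - m) ^ 2 / (6 * m) ≤ a * (Real.log a - Real.log m) := by
  have h1 : (a - m) ^ 2 / (6 * m) ≤ (√a - √m) ^ 2 := by
    rw [div_le_iff₀ (by positivity)]
    have e : (a - m) ^ 2 = (√a - √m) ^ 2 * (√a + √m) ^ 2 := by
      have : (√a - √m) * (√a + √m) = a - m := by
        linear_combination Real.sq_sqrt ha - Real.sq_sqrt hm.le
      rw [← mul_pow, this]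
    rw [e]
    refine mul_le_mul_of_nonneg_left ?_ (sq_nonneg _)
    nlinarith [sq_nonneg (√a - √m), Real.sq_sqrt ha, Real.sq_sqrt hm.le]
  refine le_trans (add_le_add le_rfl h1) ?_
  rcases eq_or_lt_of_le ha with rfl | ha'
  · simp [Real.sq_sqrt hm.le]
  have h3 := Real.log_le_sub_one_of_pos (div_pos (Real.sqrt_pos.2 hm) (Real.sqrt_pos.2 ha'))
  rw [Real.log_div (Real.sqrt_pos.2 hm).ne' (Real.sqrt_pos.2 ha').ne', Real.log_sqrt hm.le,
    Real.log_sqrt ha] at h3
  have h4 := mul_le_mul_of_nonneg_left h3 (by positivity : 0 ≤ 2 * a)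
  have h5 : 2 * a * (√m / √a - 1) = 2 * (√a * √m) - 2 * a := by
    rw [mul_sub, mul_one]; congr 1
    rw [mul_div, div_eq_iff (Real.sqrt_pos.2 ha').ne']
    linear_combination (-2 * √m) * Real.sq_sqrt ha
  rw [h5] at h4
  nlinarith [Real.sq_sqrt ha, Real.sq_sqrt hm.le]

theorem pair_point {a b c : ℝ} (ha : 0 ≤ a) (hb : 0 ≤ b) (hc : 0 < c) :
    |a - b| ≤ c / 2 * (a + b) + 3 / c *
      (a * (Real.log a - Real.log ((a + b) / 2)) + b * (Real.log b - Real.log ((a + b) / 2))) := by
  rcases eq_or_lt_of_le (add_nonneg ha hb) with h | h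
  · have : a = 0 := by linarith
    have : b = 0 := by linarith
    subst_vars
    simp
  have hm : (0 : ℝ) < (a + b) / 2 := by linarith
  have h1 := hellinger_point ha hm (by linarith)
  have h2 := hellinger_point hb hm (by linarith)
  have h3 : |a - b| ≤ c / 2 * (a + b) + 3 / c * ((a - b) ^ 2 / (6 * (a + b))) := by
    have e : c / 2 * (a + b) + 3 / c * ((a - b) ^ 2 / (6 * (a + b)))
        = ((c * (a + b)) ^ 2 + |a - b| ^ 2) / (2 * (c * (a + b))) := by
      rw [sq_abs]; field_simp; ring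
    rw [e, le_div_iff₀ (by positivity)]
    nlinarith [sq_nonneg (c * (a + b) - |a - b|)]
  refine h3.trans (add_le_add le_rfl (mul_le_mul_of_nonneg_left ?_ (by positivity)))
  have e1 : (a - b) ^ 2 / (6 * (a + b)) = (a - (a + b) / 2) ^ 2 / (6 * ((a + b) / 2)) +
      (b - (a + b) / 2) ^ 2 / (6 * ((a + b) / 2)) := by field_simp; ring
  linarith

theorem sum_mass_le (hQ : 0 ≤ Q) (hQ1 : ∑ v, Q v = 1) (T : Finset ℤ) :
    ∑ a ∈ T, mass Q z a ≤ 1 := by
  rw [← hQ1, ← sum_mass Q z]
  refine le_trans (le_of_eq ?_) (sum_le_sum_of_subset_of_nonneg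
    (inter_subset_right (s₁ := T)) fun a _ _ => mass_nonneg hQ _ _)
  exact (sum_subset inter_subset_left fun a ha hn => mass_eq_zero fun h =>
    hn (mem_inter.2 ⟨ha, h⟩)).symm

theorem tv_le_pair (hQ : 0 ≤ Q) (hQ1 : ∑ v, Q v = 1) (d : ℤ) {c : ℝ} (hc : 0 < c) :
    tv Q z d ≤ c + 6 / c * (ent (prodW Q (unif Bool)) (fun v => z v.1 + if v.2 then d else 0)
      - ent Q z) := by
  set p := mass Q z
  set T := univ.image z ∪ univ.image (fun v => z v + d) with hT
  have hm : ∀ a, (unif Bool true * p a + unif Bool false * p (a - d)) = (p a + p (a - d)) / 2 :=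
    fun a => by simp [unif]; ring
  have e : ent (prodW Q (unif Bool)) (fun v => z v.1 + if v.2 then d else 0) - ent Q z
      = 1 / 2 * ∑ a ∈ T, (p a * (Real.log (p a) - Real.log ((p a + p (a - d)) / 2)) +
          p (a - d) * (Real.log (p (a - d)) - Real.log ((p a + p (a - d)) / 2))) := by
    rw [ent_translate_sub hQ1 _ sum_unif (fun b : Bool => if b then d else 0)]
    simp only [Fintype.sum_bool, reduceIte, sum_add_distrib]
    simp only [unif, Fintype.card_bool, Nat.cast_ofNat, Bool.false_eq_true, if_false, sub_zero]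
    have h1 : ∑ a ∈ T, p a * (Real.log (p a) - Real.log ((p a + p (a - d)) / 2)) =
        ∑ a ∈ univ.image z, p a * (Real.log (p a) - Real.log ((p a + p (a - d)) / 2)) :=
      (sum_subset subset_union_left fun a _ hn => by simp [p, mass_eq_zero hn]).symm
    have h2 : ∑ a ∈ T, p (a - d) * (Real.log (p (a - d)) - Real.log ((p a + p (a - d)) / 2)) =
        ∑ a ∈ univ.image z, p a * (Real.log (p a) - Real.log ((p (a + d) + p a) / 2)) := by
      rw [← sum_subset (s₁ := (univ.image z).image fun a => a + d)]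
      · rw [sum_image (fun a _ b _ h => by simpa using h)]
        simp only [add_sub_cancel_right]
      · intro a ha
        obtain ⟨b, hb, rfl⟩ := mem_image.1 ha
        obtain ⟨v, -, rfl⟩ := mem_image.1 hb
        exact mem_union_right _ (mem_image.2 ⟨v, mem_univ _, rfl⟩)
      · intro a _ hn
        have : a - d ∉ univ.image z := fun h => hn (mem_image.2 ⟨a - d, h, by simp⟩)
        simp [p, mass_eq_zero this]
    rw [h1, h2]
    simp only [mul_sum, mul_add, ← sum_add_distrib]
    refine sum_congr rfl fun a _ => ?_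
    simp only [p, add_sub_cancel_right]
    ring_nf
  rw [e]
  calc tv Q z d ≤ ∑ a ∈ T, (c / 2 * (p a + p (a - d)) + 3 / c * (p a * (Real.log (p a) -
        Real.log ((p a + p (a - d)) / 2)) + p (a - d) * (Real.log (p (a - d)) -
        Real.log ((p a + p (a - d)) / 2)))) :=
      sum_le_sum fun a _ => pair_point (mass_nonneg hQ _ _) (mass_nonneg hQ _ _) hc
    _ ≤ _ := by
      rw [sum_add_distrib, ← mul_sum, ← mul_sum, sum_add_distrib]
      refine add_le_add ?_ (le_of_eq (by field_simp; ring))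
      have a1 : ∑ a ∈ T, p a ≤ 1 := sum_mass_le hQ hQ1 T
      have a2 : ∑ a ∈ T, p (a - d) ≤ 1 := by
        have := sum_mass_le (z := z) hQ hQ1 (T.image fun a => a - d)
        rwa [sum_image (fun a _ b _ h => by simpa using h)] at this
      nlinarith

/-- If all windows of `z` at scale `d` have dimension at most `α < 1`, adding an independent
uniform choice from `{0, d}` gains a definite amount of entropy. -/
theorem shift_gain (α C : ℝ) (hα : α < 1) : ∃ γ > 0, ∀ {Ω : Type} [Fintype Ω] (Q : Ω → ℝ)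
    (z : Ω → ℤ) (d : ℕ), 0 ≤ Q → ∑ v, Q v = 1 → 0 < d →
    (∀ L : ℕ, 0 < L → cent Q (fun v => z v / (d : ℤ)) (fun v => z v / ((d * L : ℕ) : ℤ))
      ≤ α * Real.log L + C) →
    ent Q z + γ ≤ ent (prodW Q (unif Bool)) (fun v => z v.1 + if v.2 then (d : ℤ) else 0) := by
  set X := (C + Real.log 2 + 1) / (1 - α)
  set L := ⌈Real.exp X⌉₊
  have hL : 0 < L := Nat.ceil_pos.2 (Real.exp_pos _)
  have hXL : X ≤ Real.log L := (Real.le_log_iff_exp_le (by exact_mod_cast hL)).2 (Nat.le_ceil _)
  set t := 1 / ((1 + Real.log L) * L) with ht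
  have hL1 : (1 : ℝ) ≤ L := by exact_mod_cast hL
  have ht0 : 0 < t := by
    have := Real.log_nonneg hL1
    positivity
  refine ⟨t * t / 24, by positivity, fun Q z d hQ hQ1 hd hw => ?_⟩
  have h1 := smooth_upper (z := z) hQ hQ1 (d : ℤ) hL
  have h2 := smooth_lower (z := z) hQ hQ1 hd hL
  have h3 := hw L hL
  have h4 : 1 ≤ (1 - α) * Real.log L - C - Real.log 2 := by
    have := mul_le_mul_of_nonneg_left hXL (by linarith : 0 ≤ 1 - α)
    have e : (1 - α) * X = C + Real.log 2 + 1 := mul_div_cancel₀ _ (by linarith)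
    linarith
  have h5 : t ≤ tv Q z d := by
    rw [ht, div_le_iff₀ (by have := Real.log_nonneg hL1; positivity)]
    linarith
  have h6 := tv_le_pair (z := z) hQ hQ1 (d : ℤ) (half_pos ht0)
  rw [div_div_eq_mul_div] at h6
  have h7 : 6 * 2 / t * (ent (prodW Q (unif Bool)) (fun v => z v.1 + if v.2 then (d : ℤ) else 0)
      - ent Q z) * t = 12 * (ent (prodW Q (unif Bool))
        (fun v => z v.1 + if v.2 then (d : ℤ) else 0) - ent Q z) := by field_simp; ring
  nlinarith

end

end Vale.Agent.P114
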