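import Vale.Agent.P114.EntProd
import Vale.Agent.P114.Shift
import Mathlib.Order.Interval.Finset.Basic
import Mathlib.Data.Int.Interval
import Mathlib.Tactic.Push

/-! # Gain from a random translate, via pairs -/

namespace Vale.Agent.P114

noncomputable section

open scoped Classical
open Finset

variable {Ω Ω' : Type} [Fintype Ω] [Fintype Ω'] {P : Ω → ℝ} {Q : Ω' → ℝ}

/-- Two independent copies conditioned to have the same value of `c`. -/
def pairW (P : Ω → ℝ) (c : Ω → ℤ) : Ω × Ω → ℝ :=
  fun v => if c v.1 = c v.2 then P v.1 * P v.2 / mass P c (c v.1) else 0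

theorem pairW_nonneg (hP : 0 ≤ P) (c : Ω → ℤ) : 0 ≤ pairW P c := fun v => by
  simp only [pairW, Pi.zero_apply]
  split_ifs
  exacts [div_nonneg (mul_nonneg (hP _) (hP _)) (mass_nonneg hP _ _), le_rfl]

theorem pairW_fst (hP : 0 ≤ P) (c : Ω → ℤ) (a : Ω) : ∑ b, pairW P c (a, b) = P a := by
  simp only [pairW]
  rcases eq_or_lt_of_le (hP a) with h | h
  · simp only [Pi.zero_apply] at h; simp [← h]
  have e : ∑ b, (if c a = c b then P a * P b / mass P c (c a) else 0)
      = P a / mass P c (c a) * mass P c (c a) := by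
    rw [mass, mul_sum]
    refine sum_congr rfl fun b _ => ?_
    by_cases hb : c a = c b
    · rw [if_pos hb, if_pos hb.symm]; ring
    · rw [if_neg hb, if_neg fun h => hb h.symm, mul_zero]
  rw [e, div_mul_cancel₀ _ (mass_pos hP c h).ne']

theorem pairW_symm (c : Ω → ℤ) (a b : Ω) : pairW P c (a, b) = pairW P c (b, a) := by
  simp only [pairW]
  by_cases h : c a = c b
  · rw [if_pos h, if_pos h.symm, h, mul_comm (P a)]
  · rw [if_neg h, if_neg fun h' => h h'.symm]

theorem sum_pairW (hP : 0 ≤ P) (c : Ω → ℤ) : ∑ v, pairW P c v = ∑ a, P a := by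
  rw [Fintype.sum_prod_type]
  exact sum_congr rfl fun a _ => pairW_fst hP c a

theorem pairW_marginal (hP : 0 ≤ P) (c : Ω → ℤ) (a : Ω) :
    P a = mass (pairW P c) Prod.fst a := by
  rw [mass, Fintype.sum_prod_type, sum_eq_single a (fun b _ hb => by simp [hb]) (by simp)]
  simp [pairW_fst hP c a]

theorem cent_pair_eq (hP : 0 ≤ P) (c K : Ω → ℤ) :
    cent P K c = cent (pairW P c) (fun v => K v.1) (fun v => (c v.1, v.2)) := by
  rw [← cent_map Prod.fst (pairW_marginal hP c) K c]
  refine sum_congr rfl fun v => fun _ => ?_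
  obtain ⟨a, b⟩ := v
  rcases eq_or_ne (pairW P c (a, b)) 0 with h | h
  · simp [h]
  have hc : c a = c b := by by_contra hh; simp [pairW, hh] at h
  have hab : P a ≠ 0 ∧ P b ≠ 0 := by constructor <;> intro hh <;> simp [pairW, hh] at h
  have ha : 0 < P a := lt_of_le_of_ne (hP a) (Ne.symm hab.1)
  have hb : 0 < P b := lt_of_le_of_ne (hP b) (Ne.symm hab.2)
  have hm := mass_pos hP c ha
  have e1 : mass (pairW P c) (fun u => c u.1) (c a) = mass P c (c a) :=
    mass_comp Prod.fst (pairW_marginal hP c) c (c a)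
  have e2 : mass (pairW P c) (fun u => (K u.1, c u.1)) (K a, c a) =
      mass P (fun u => (K u, c u)) (K a, c a) :=
    mass_comp Prod.fst (pairW_marginal hP c) (fun u => (K u, c u)) (K a, c a)
  have key : ∀ {κ : Type} (Z : Ω → κ) (z : κ),
      mass (pairW P c) (fun u => ((Z u.1, c u.1), u.2)) ((z, c a), b) =
        mass P (fun u => (Z u, c u)) (z, c a) * (P b / mass P c (c a)) := by
    intro κ Z z
    simp only [mass, Fintype.sum_prod_type, sum_mul]
    refine sum_congr rfl fun u _ => ?_
    rw [sum_eq_single b (fun w _ hw => by simp [hw]) (by simp)]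
    by_cases h1 : Z u = z <;> by_cases h2 : c u = c a
    · simp [h1, h2, pairW, hc]; simp only [mass]; ring
    all_goals simp [h1, h2]
  have e3 : mass (pairW P c) (fun u => (c u.1, u.2)) (c a, b) = P b := by
    rw [mass_congr (Y := fun u : Ω × Ω => ((((), c u.1) : Unit × ℤ), u.2)) (b := (((), c a), b))
      fun u => by simp, key (fun _ => ()) (),
      mass_congr (Y := c) (b := c a) fun u => by simp]
    rw [mul_div_cancel₀ _ hm.ne']
  have e4 : mass (pairW P c) (fun u => (K u.1, (c u.1, u.2))) (K a, (c a, b)) =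
      mass P (fun u => (K u, c u)) (K a, c a) * (P b / mass P c (c a)) := by
    rw [← key K (K a)]
    exact mass_congr fun u => by simp [and_assoc]
  simp only
  rw [e1, e2, e3, e4, Real.log_mul (mass_pos hP (fun u => (K u, c u)) ha).ne' (div_pos hb hm).ne',
    Real.log_div hb.ne' hm.ne']
  ring

/-- The probability that two conditional copies of `K` are at distance at least `N`. -/
def farProb (P : Ω → ℝ) (c K : Ω → ℤ) (N : ℤ) : ℝ :=
  ∑ v, if N ≤ |K v.1 - K v.2| then pairW P c v else 0

theorem fano (hP : 0 ≤ P) (hP1 : ∑ a, P a = 1) (c K : Ω → ℤ) (l r : ℕ)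
    (hK : ∀ a, c a = K a / 2 ^ l) :
    cent P K c ≤ (r + 2) * Real.log 2 + farProb P c K (2 ^ r) * (l * Real.log 2) := by
  rw [cent_pair_eq hP c K]
  set W := pairW P c
  have hW : 0 ≤ W := pairW_nonneg hP c
  have hW1 : ∑ v, W v = 1 := by rw [sum_pairW hP c, hP1]
  let F : Ω × Ω → Bool := fun v => decide ((2 : ℤ) ^ r ≤ |K v.1 - K v.2|)
  let M : Bool × ℤ × Ω → ℝ := fun y => if y.1 then (2 : ℝ) ^ l else 2 ^ (r + 1)
  let S : Bool × ℤ × Ω → Finset ℤ := fun y =>
    if y.1 then Finset.Ico (y.2.1 * 2 ^ l) (y.2.1 * 2 ^ l + 2 ^ l)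
    else Finset.Ico (K y.2.2 - 2 ^ r) (K y.2.2 + 2 ^ r)
  have h1 := cent_le_add hW (fun v => K v.1) F (fun v => (c v.1, v.2))
  have h2 : cent W F (fun v => (c v.1, v.2)) ≤ Real.log 2 := by
    refine (cent_le_log hW F _ (fun _ => 2) (fun _ => univ) (fun v => mem_univ _)
      (fun v => by simp)).trans (le_of_eq ?_)
    rw [← sum_mul, hW1, one_mul]
  have h3 : cent W (fun v => K v.1) (fun v => (F v, (c v.1, v.2)))
      ≤ ∑ v, W v * Real.log (M (F v, (c v.1, v.2))) := by
    refine cent_le_log hW _ _ M S (fun v => ?_) (fun v => ?_)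
    · simp only [S, F]
      split_ifs with h
      · simp only [mem_Ico, hK]
        have h' := Int.mul_ediv_add_emod (K v.1) (2 ^ l)
        have h'' := Int.emod_lt_of_pos (K v.1) (by positivity : (0 : ℤ) < 2 ^ l)
        have h''' := Int.emod_nonneg (K v.1) (by positivity : (2 : ℤ) ^ l ≠ 0)
        constructor <;> linarith
      · simp only [decide_eq_true_eq, not_le, abs_lt] at h
        simp only [mem_Ico]
        constructor <;> linarith
    · simp only [S, M]
      split_ifs
      · rw [Int.card_Ico, add_sub_cancel_left, show (2 : ℤ) ^ l = ((2 ^ l : ℕ) : ℤ) by simp,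
          Int.toNat_natCast]
        simp
      · rw [Int.card_Ico, show K v.2 + 2 ^ r - (K v.2 - 2 ^ r) = ((2 ^ (r + 1) : ℕ) : ℤ) by
          push_cast; ring, Int.toNat_natCast]
        simp
  have h4 : ∀ v, W v * Real.log (M (F v, (c v.1, v.2))) ≤
      (r + 1) * Real.log 2 * W v +
        (if (2 : ℤ) ^ r ≤ |K v.1 - K v.2| then W v else 0) * (l * Real.log 2) := by
    intro v
    simp only [M, F]
    have := hW v
    have hl2 := Real.log_nonneg (by norm_num : (1 : ℝ) ≤ 2)
    simp only [Pi.zero_apply] at this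
    by_cases h : (2 : ℤ) ^ r ≤ |K v.1 - K v.2|
    · simp only [h, decide_true, if_true, Real.log_pow]
      nlinarith [mul_nonneg this hl2, mul_nonneg (mul_nonneg this hl2) (Nat.cast_nonneg (α := ℝ) r)]
    · simp only [h, decide_false, Bool.false_eq_true, if_false, Real.log_pow, zero_mul, add_zero]
      push_cast; linarith
  have h5 := h3.trans (sum_le_sum fun v _ => h4 v)
  rw [sum_add_distrib, ← mul_sum, hW1, ← sum_mul] at h5
  simp only [farProb]
  linarith

theorem ent_translate (hQ : 0 ≤ Q) (z : Ω' → ℤ) (a : ℤ) :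
    ent Q (fun w => a + z w) = ent Q z :=
  cent_congr_left hQ fun v w _ => by simp

/-- Adding an independent `z` to `u • K` reveals the far pairs of `K`. -/
theorem mix_gain (hP : 0 ≤ P) (hP1 : ∑ a, P a = 1) (hQ : 0 ≤ Q) (hQ1 : ∑ w, Q w = 1)
    (c K : Ω → ℤ) (z : Ω' → ℤ) (u r : ℕ) (γ : ℝ)
    (hgain : ∀ d : ℕ, u * 2 ^ r ≤ d →
      ent Q z + γ ≤ ent (prodW Q (unif Bool)) (fun v => z v.1 + if v.2 then (d : ℤ) else 0)) :
    cent (prodW P Q) (fun v => K v.1) (fun v => (c v.1, (u : ℤ) * K v.1 + z v.2))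
      ≤ cent P K c - γ * farProb P c K (2 ^ r) := by
  set S : Ω × Ω' → ℤ := fun v => (u : ℤ) * K v.1 + z v.2
  have hPQ : 0 ≤ prodW P Q := prodW_nonneg hP hQ
  have hc1 := cent_chain (prodW P Q) (fun v => K v.1) S (fun v => c v.1)
  have hc2 := cent_chain (prodW P Q) S (fun v => K v.1) (fun v => c v.1)
  have hc3 : cent (prodW P Q) (fun v => (K v.1, S v)) (fun v => c v.1) =
      cent (prodW P Q) (fun v => (S v, K v.1)) (fun v => c v.1) :=
    cent_congr_left hPQ fun v w _ => by simp [and_comm]
  have hc4 : cent (prodW P Q) S (fun v => (K v.1, c v.1)) = ent Q z := by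
    rw [cent_congr_left hPQ (X' := fun v : Ω × Ω' => z v.2) fun v w h => by
      simp [S, (Prod.mk.inj h).1]]
    exact cent_prod_snd_fst hP hP1 hQ hQ1 z (fun a => (K a, c a))
  have hc5 : cent (prodW P Q) (fun v => K v.1) (fun v => c v.1) = cent P K c :=
    cent_prod_fst hQ1 P K c
  have hc6 : cent (prodW P Q) (fun v => K v.1) (fun v => (c v.1, S v)) =
      cent (prodW P Q) (fun v => K v.1) (fun v => (S v, c v.1)) :=
    cent_congr_right _ fun v w => by simp [and_comm]
  suffices ent Q z + γ * farProb P c K (2 ^ r) ≤ cent (prodW P Q) S (fun v => c v.1) by linarith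
  set W := prodW (pairW P c) (prodW Q (unif Bool)) with hWdef
  have hW2 : 0 ≤ prodW Q (unif Bool) := prodW_nonneg hQ unif_nonneg
  have hW : 0 ≤ W := prodW_nonneg (pairW_nonneg hP c) hW2
  let f : (Ω × Ω) × (Ω' × Bool) → Ω × Ω' := fun v => (if v.2.2 then v.1.1 else v.1.2, v.2.1)
  have hf : ∀ v, prodW P Q v = mass W f v := by
    rintro ⟨a, w⟩
    have e1 : ∀ b : Bool, ∀ p : Ω × Ω, ∀ x : Ω',
        (if ((if b then p.1 else p.2), x) = (a, w) then W (p, (x, b)) else 0) =
        (if (if b then p.1 else p.2) = a then pairW P c p else 0) *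
          ((if x = w then Q x else 0) * (1 / 2)) := by
      intro b p x
      by_cases h1 : (if b then p.1 else p.2) = a <;> by_cases h2 : x = w <;>
        simp [h1, h2, W, prodW, unif]
    simp only [mass, f, Fintype.sum_prod_type]
    simp only [Fintype.sum_bool]
    have e2 : ∀ p q : Ω, ∀ x : Ω', (if ((if (true : Bool) then p else q), x) = (a, w) then
          W ((p, q), (x, true)) else 0) + (if ((if (false : Bool) then p else q), x) = (a, w) then
          W ((p, q), (x, false)) else 0) =
        ((if p = a then pairW P c (p, q) else 0) + (if q = a then pairW P c (p, q) else 0)) *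
          ((if x = w then Q x else 0) * (1 / 2)) := by
      intro p q x
      rw [e1 true (p, q) x, e1 false (p, q) x]
      simp only [if_true, Bool.false_eq_true, if_false]
      ring
    simp only [Bool.false_eq_true, if_false, if_true] at e2 ⊢
    simp only [e2, ← mul_sum, ← sum_mul, sum_ite_eq', mem_univ, if_true, sum_add_distrib]
    rw [sum_comm]
    simp only [sum_ite_eq', mem_univ, if_true]
    have : ∑ x, pairW P c (x, a) = P a := by
      rw [← pairW_fst hP c a]; exact sum_congr rfl fun x _ => pairW_symm c x a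
    rw [this, pairW_fst hP c a]
    simp only [prodW]; ring
  rw [← cent_map f hf S (fun v => c v.1)]
  refine le_trans ?_ (le_of_eq (cent_congr_supp (Y := fun v => c v.1.1) fun v hv => ⟨rfl, ?_⟩))
  swap
  · simp only [f]
    have : c v.1.1 = c v.1.2 := by
      by_contra h; exact hv (by simp [W, prodW, pairW, h])
    split_ifs <;> simp [this]
  refine le_trans ?_ (cent_anti_right hW (Y' := Prod.fst) fun v w h => by simp [h])
  rw [cent_prod_slice (pairW_nonneg hP c) hW2]
  have hpt : ∀ p : Ω × Ω, ent Q z + (if (2 : ℤ) ^ r ≤ |K p.1 - K p.2| then γ else 0)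
      ≤ ent (prodW Q (unif Bool)) (fun x => S (f (p, x))) := by
    rintro ⟨a, b⟩
    simp only [S, f]
    by_cases h : (2 : ℤ) ^ r ≤ |K a - K b|
    · rw [if_pos h]
      set d : ℕ := u * (K a - K b).natAbs with hd
      have hdr : u * 2 ^ r ≤ d := by
        refine Nat.mul_le_mul_left _ ?_
        rw [Int.abs_eq_natAbs] at h
        exact_mod_cast h
      refine (hgain d hdr).trans (le_of_eq ?_)
      have hd' : (d : ℤ) = u * |K a - K b| := by rw [hd, Int.abs_eq_natAbs]; push_cast; ring
      rcases le_total (K b) (K a) with hab | hab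
      · rw [abs_of_nonneg (by linarith : 0 ≤ K a - K b)] at hd'
        rw [← ent_translate hW2 (fun v => z v.1 + if v.2 then (d : ℤ) else 0) (u * K b)]
        congr 1; funext v; cases v.2 <;> simp [hd']; ring_nf
      · rw [abs_of_nonpos (by linarith : K a - K b ≤ 0)] at hd'
        rw [← ent_translate hW2 (fun v => z v.1 + if v.2 then (d : ℤ) else 0) (u * K a)]
        have he := cent_equiv (P := prodW Q (unif Bool)) (Q := prodW Q (unif Bool))
          (Equiv.prodCongr (Equiv.refl Ω') (Equiv.mk not not Bool.not_not Bool.not_not : Bool ≃ Bool)) (fun v => by simp [prodW, unif])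
          (fun v => (u : ℤ) * K a + (z v.1 + if v.2 then (d : ℤ) else 0)) (fun _ => ())
        rw [ent, ← he]
        refine congrArg (fun X => cent _ X _) (funext fun v => ?_)
        obtain ⟨x, t⟩ := v
        cases t <;> simp [hd']; ring_nf
    · rw [if_neg h, add_zero]
      refine le_trans (le_of_eq ?_) (cent_le_ent hW2 _ (fun v => v.2))
      rw [cent_congr_left hW2 (X' := fun v : Ω' × Bool => z v.1) fun v w hvw => by simp [hvw]]
      have := cent_prod_fst_snd hQ (unif_nonneg (J := Bool)) sum_unif z (fun _ => ())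
      refine this.symm.trans (cent_congr_right _ fun v w => by simp)
  refine le_trans (le_of_eq ?_) (sum_le_sum fun p _ => mul_le_mul_of_nonneg_left (hpt p)
    (pairW_nonneg hP c p))
  simp only [mul_add, sum_add_distrib, ← sum_mul, sum_pairW hP c, hP1, one_mul, farProb, mul_sum]
  congr 1
  exact sum_congr rfl fun v _ => by split_ifs <;> ring

end

end Vale.Agent.P114
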